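import Vale.Agent.P092.H761.RankDefs

/-!
P092 (helper761): the induction on the number of unbounded classes of gaps (block [R3] of the
rank theorem).
-/

set_option linter.all false

open Filter Topology

namespace Vale.Agent.P092.H761

open Vale.Agent.P092.H200 Vale.Agent.P092.H538 Vale.Agent.P092.H553

/-! ### Cut-off functions -/

section clamp

/-- truncation to `[0, 1]` -/
noncomputable def clamp (x : ℝ) : ℝ := max 0 (min 1 x)

theorem clamp_nonneg (x : ℝ) : 0 ≤ clamp x := le_max_left _ _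

theorem clamp_le_one (x : ℝ) : clamp x ≤ 1 := max_le zero_le_one (min_le_left _ _)

theorem clamp_of_one_le {x : ℝ} (h : 1 ≤ x) : clamp x = 1 := by
  rw [clamp, min_eq_left h, max_eq_right zero_le_one]

theorem clamp_of_nonpos {x : ℝ} (h : x ≤ 0) : clamp x = 0 :=
  max_eq_left ((min_le_right _ _).trans h)

theorem abs_clamp_sub_le (x y : ℝ) : |clamp x - clamp y| ≤ |x - y| := by
  have h1 : |min 1 x - min 1 y| ≤ |x - y| := by
    have := abs_min_sub_min_le_max (1 : ℝ) x 1 y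
    rwa [sub_self, abs_zero, max_eq_right (abs_nonneg _)] at this
  refine (abs_max_sub_max_le_max (0 : ℝ) (min 1 x) 0 (min 1 y)).trans ?_
  rw [sub_self, abs_zero]
  exact max_le (abs_nonneg _) h1

theorem prod_mem {J : Type} (T : Finset J) (a : J → ℝ) (ha : ∀ j ∈ T, 0 ≤ a j ∧ a j ≤ 1) :
    0 ≤ ∏ j ∈ T, a j ∧ ∏ j ∈ T, a j ≤ 1 :=
  ⟨Finset.prod_nonneg fun j hj => (ha j hj).1,
    Finset.prod_le_one (fun j hj => (ha j hj).1) fun j hj => (ha j hj).2⟩

theorem abs_prod_sub_le {J : Type} (T : Finset J) (a b : J → ℝ)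
    (ha : ∀ j ∈ T, 0 ≤ a j ∧ a j ≤ 1) (hb : ∀ j ∈ T, 0 ≤ b j ∧ b j ≤ 1) :
    |∏ j ∈ T, a j - ∏ j ∈ T, b j| ≤ ∑ j ∈ T, |a j - b j| := by
  classical
  induction T using Finset.induction_on with
  | empty => simp
  | insert i T hi ih =>
    rw [Finset.prod_insert hi, Finset.prod_insert hi, Finset.sum_insert hi]
    have h1 := ih (fun j hj => ha j (Finset.mem_insert_of_mem hj))
      (fun j hj => hb j (Finset.mem_insert_of_mem hj))
    have h2 := prod_mem T a fun j hj => ha j (Finset.mem_insert_of_mem hj)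
    have h3 := hb i (Finset.mem_insert_self i T)
    have e : a i * ∏ j ∈ T, a j - b i * ∏ j ∈ T, b j =
        (a i - b i) * ∏ j ∈ T, a j + b i * (∏ j ∈ T, a j - ∏ j ∈ T, b j) := by ring
    rw [e]
    refine (abs_add_le _ _).trans (add_le_add ?_ ?_)
    · rw [abs_mul, abs_of_nonneg h2.1]
      exact mul_le_of_le_one_right (abs_nonneg _) h2.2
    · rw [abs_mul, abs_of_nonneg h3.1]
      exact (mul_le_of_le_one_left (abs_nonneg _) h3.2).trans h1

variable {Γ J : Type} {gap : J → Γ → ℝ} {θ : Finset J} {R a C : ℝ} {g h : Γ}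

/-- `1` where the gaps in `θ` are `≥ 2 a`, `0` unless they are `≥ a` -/
noncomputable def up (gap : J → Γ → ℝ) (θ : Finset J) (a : ℝ) (g : Γ) : ℝ :=
  ∏ j ∈ θ, clamp (gap j g / a - 1)

theorem up_mem (gap : J → Γ → ℝ) (θ : Finset J) (a : ℝ) (g : Γ) :
    0 ≤ up gap θ a g ∧ up gap θ a g ≤ 1 :=
  prod_mem θ _ fun j _ => ⟨clamp_nonneg _, clamp_le_one _⟩

theorem up_eq_one (ha : 0 < a) (h : ∀ j ∈ θ, 2 * a ≤ gap j g) : up gap θ a g = 1 := by
  refine Finset.prod_eq_one fun j hj => clamp_of_one_le ?_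
  have h1 : 2 ≤ gap j g / a := by rw [le_div_iff₀ ha]; exact h j hj
  linarith

theorem up_ne (ha : 0 < a) (h : up gap θ a g ≠ 0) : ∀ j ∈ θ, a ≤ gap j g := by
  intro j hj
  by_contra hcon
  push Not at hcon
  refine h (Finset.prod_eq_zero hj (clamp_of_nonpos ?_))
  have : gap j g / a < 1 := by rw [div_lt_one ha]; exact hcon
  linarith

theorem up_lip [Fintype J] (ha : 0 < a) (hC : 0 ≤ C) (h1 : ∀ j, |gap j h - gap j g| ≤ C) :
    |up gap θ a h - up gap θ a g| ≤ Fintype.card J * (C / a) := by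
  refine (abs_prod_sub_le θ _ _ (fun j _ => ⟨clamp_nonneg _, clamp_le_one _⟩)
    fun j _ => ⟨clamp_nonneg _, clamp_le_one _⟩).trans ?_
  have h2 : ∀ j ∈ θ, |clamp (gap j h / a - 1) - clamp (gap j g / a - 1)| ≤ C / a := by
    intro j _
    refine (abs_clamp_sub_le _ _).trans ?_
    have e : gap j h / a - 1 - (gap j g / a - 1) = (gap j h - gap j g) / a := by ring
    rw [e, abs_div, abs_of_pos ha]
    have := h1 j
    gcongr
  refine (Finset.sum_le_sum h2).trans ?_
  rw [Finset.sum_const, nsmul_eq_mul]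
  have : (θ.card : ℝ) ≤ Fintype.card J := by exact_mod_cast Finset.card_le_univ θ
  have : 0 ≤ C / a := by positivity
  gcongr

variable [Fintype J] [DecidableEq J]

/-- `1` where the gaps off `θ` are `≤ R`, `0` unless they are `≤ R + a` -/
noncomputable def lo (gap : J → Γ → ℝ) (θ : Finset J) (R a : ℝ) (g : Γ) : ℝ :=
  ∏ j ∈ θᶜ, clamp ((R + a - gap j g) / a)

theorem lo_mem (gap : J → Γ → ℝ) (θ : Finset J) (R a : ℝ) (g : Γ) :
    0 ≤ lo gap θ R a g ∧ lo gap θ R a g ≤ 1 :=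
  prod_mem θᶜ _ fun j _ => ⟨clamp_nonneg _, clamp_le_one _⟩

theorem lo_eq_one (ha : 0 < a) (h : ∀ j, j ∉ θ → gap j g ≤ R) : lo gap θ R a g = 1 := by
  refine Finset.prod_eq_one fun j hj => clamp_of_one_le ?_
  rw [one_le_div ha]
  have := h j (Finset.mem_compl.mp hj)
  linarith

theorem lo_ne (ha : 0 < a) (h : lo gap θ R a g ≠ 0) : ∀ j, j ∉ θ → gap j g ≤ R + a := by
  intro j hj
  by_contra hcon
  push Not at hcon
  refine h (Finset.prod_eq_zero (Finset.mem_compl.mpr hj) (clamp_of_nonpos ?_))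
  exact div_nonpos_of_nonpos_of_nonneg (by linarith) ha.le

theorem lo_lip (ha : 0 < a) (hC : 0 ≤ C) (h1 : ∀ j, |gap j h - gap j g| ≤ C) :
    |lo gap θ R a h - lo gap θ R a g| ≤ Fintype.card J * (C / a) := by
  refine (abs_prod_sub_le θᶜ _ _ (fun j _ => ⟨clamp_nonneg _, clamp_le_one _⟩)
    fun j _ => ⟨clamp_nonneg _, clamp_le_one _⟩).trans ?_
  have h2 : ∀ j ∈ θᶜ, |clamp ((R + a - gap j h) / a) - clamp ((R + a - gap j g) / a)| ≤ C / a := by
    intro j _
    refine (abs_clamp_sub_le _ _).trans ?_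
    have e : (R + a - gap j h) / a - (R + a - gap j g) / a = -(gap j h - gap j g) / a := by ring
    rw [e, abs_div, abs_neg, abs_of_pos ha]
    have := h1 j
    gcongr
  refine (Finset.sum_le_sum h2).trans ?_
  rw [Finset.sum_const, nsmul_eq_mul]
  have : (θᶜ.card : ℝ) ≤ Fintype.card J := by exact_mod_cast Finset.card_le_univ θᶜ
  have : 0 ≤ C / a := by positivity
  gcongr

end clamp

/-! ### Mass functions -/

section mass

variable {Γ Λ : Type} [Group Γ] [DecidableEq Γ] [Group Λ] {t : ℝ} {mass : Λ → (Γ → ℝ) → ℝ}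

theorem MassData.zero (h : MassData t mass) (w : Λ) : mass w (fun _ => 0) = 0 := by
  have := h.smul w (fun _ => 0) 0 0 (fun g => by simp)
  simpa using this

theorem MassData.nonneg (h : MassData t mass) (w : Λ) {F : Γ → ℝ} {C : ℝ} (hF : ∀ g, |F g| ≤ C)
    (h0 : ∀ g, 0 ≤ F g) : 0 ≤ mass w F := by
  rw [← h.zero w]
  have hC : 0 ≤ C := (abs_nonneg _).trans (hF 1)
  exact h.mono w _ _ C (fun g => by simpa using hC) hF h0

theorem MassData.sum (h : MassData t mass) (w : Λ) {α : Type} (T : Finset α) (f : α → Γ → ℝ)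
    {C : ℝ} (hf : ∀ i ∈ T, ∀ g, |f i g| ≤ C) :
    mass w (fun g => ∑ i ∈ T, f i g) = ∑ i ∈ T, mass w (f i) := by
  classical
  induction T using Finset.induction_on with
  | empty => simpa using h.zero w
  | insert i T hi ih =>
    have hC : 0 ≤ C := (abs_nonneg _).trans (hf i (Finset.mem_insert_self i T) 1)
    have h1 : ∀ g, |∑ j ∈ T, f j g| ≤ T.card * C + C := by
      intro g
      refine (Finset.abs_sum_le_sum_abs _ _).trans ?_
      refine (Finset.sum_le_sum fun j hj => hf j (Finset.mem_insert_of_mem hj) g).trans ?_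
      rw [Finset.sum_const, nsmul_eq_mul]
      linarith
    have h2 : ∀ g, |f i g| ≤ T.card * C + C := fun g => by
      have := hf i (Finset.mem_insert_self i T) g
      have : 0 ≤ (T.card : ℝ) * C := by positivity
      linarith
    have h3 := h.add w (f i) (fun g => ∑ j ∈ T, f j g) _ h2 h1
    rw [Finset.sum_insert hi, ← ih fun j hj => hf j (Finset.mem_insert_of_mem hj), ← h3]
    congr 1
    funext g
    rw [Finset.sum_insert hi]

end mass

/-! ### The families for the pairing lemma -/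

section fam

variable {Γ J : Type} [Group Γ] [DecidableEq Γ] [Fintype J] [DecidableEq J]
  {gap : J → Γ → ℝ} {r : ℕ} {cl : J → Fin r}

theorem Gaps.left (hg : Gaps gap cl) (s : Γ) : ∃ C : ℝ, 0 ≤ C ∧ ∀ j g, |gap j (s * g) - gap j g| ≤ C := by
  obtain ⟨C, hC⟩ := hg.quasi s 1
  refine ⟨|C|, abs_nonneg _, fun j g => ?_⟩
  have := hC j g
  rw [mul_one] at this
  exact this.trans (le_abs_self C)

theorem Gaps.right (hg : Gaps gap cl) (s : Γ) : ∃ C : ℝ, 0 ≤ C ∧ ∀ j g, |gap j (g * s) - gap j g| ≤ C := by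
  obtain ⟨C, hC⟩ := hg.quasi 1 s
  refine ⟨|C|, abs_nonneg _, fun j g => ?_⟩
  have := hC j g
  rw [one_mul] at this
  exact this.trans (le_abs_self C)

theorem tendsto_div_nat (c : ℝ) {U : Ultrafilter ℕ} (hU : (U : Filter ℕ) ≤ atTop) {δ : ℝ}
    (hδ : 0 < δ) : ∀ᶠ k : ℕ in U, c / ((k : ℝ) + 1) ≤ δ := by
  have h1 : Tendsto (fun k : ℕ => c / ((k : ℝ) + 1)) atTop (𝓝 0) := by
    have h2 := (tendsto_one_div_add_atTop_nhds_zero_nat (𝕜 := ℝ)).const_mul c
    rw [mul_zero] at h2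
    refine h2.congr fun k => ?_
    ring
  exact hU ((h1.eventually (gt_mem_nhds hδ)).mono fun k hk => hk.le)

theorem eventually_nat_ge (D : ℝ) {U : Ultrafilter ℕ} (hU : (U : Filter ℕ) ≤ atTop) :
    ∀ᶠ k : ℕ in U, D ≤ (k : ℝ) + 1 := by
  refine hU ((eventually_ge_atTop ⌈D⌉₊).mono fun k hk => ?_)
  have h1 : D ≤ (⌈D⌉₊ : ℝ) := Nat.le_ceil D
  have h2 : (⌈D⌉₊ : ℝ) ≤ k := by exact_mod_cast hk
  linarith

theorem sum_shift_le {B X : Finset Γ} {s : Γ} {f : Γ → ℝ} (h0 : ∀ b, 0 ≤ f b)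
    (hf : ∀ b, b ∉ B → f b = 0) : ∑ b ∈ X, f (s * b) ≤ ∑ b ∈ B, f b := by
  have h1 : ∑ b ∈ X, f (s * b) = ∑ b ∈ X.image (fun b => s * b), f b :=
    (Finset.sum_image fun x _ y _ h => mul_left_cancel h).symm
  rw [h1]
  have h2 : ∑ b ∈ B, f b = ∑ b ∈ X.image (fun b => s * b) ∪ B, f b :=
    Finset.sum_subset Finset.subset_union_right fun b _ hb => hf b hb
  rw [h2]
  exact Finset.sum_le_sum_of_subset_of_nonneg Finset.subset_union_left fun b _ _ => h0 b

theorem fam_of_geo (hg : Gaps gap cl) {θ : Finset J} (hθ : Geo gap θ) {U : Ultrafilter ℕ}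
    (hU : (U : Filter ℕ) ≤ atTop) (R : ℝ) : ∃ c : ℝ, 0 < c ∧
      ∀ (S : Finset Γ) (ε : ℝ), 0 < ε → ∃ (B : Finset Γ) (F H : ℕ → Γ → Γ → ℝ),
        PairFam U S ε B F H ∧ ∀ᶠ k : ℕ in U, ∀ g, (∀ j, j ∉ θ → gap j g ≤ R) →
          c * (up gap θ ((k : ℝ) + 1) g) ^ 2 ≤ ∑ b ∈ B, F k b g * H k b g := by
  obtain ⟨c, hc, hgeo⟩ := hθ R
  refine ⟨c, hc, fun S ε hε => ?_⟩
  choose CL hCL0 hCL using hg.left
  choose CR hCR0 hCR using hg.right
  obtain ⟨N, hN⟩ : ∃ N : ℝ, N = (Fintype.card J : ℝ) := ⟨_, rfl⟩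
  have hN0 : 0 ≤ N := by rw [hN]; positivity
  obtain ⟨C0, hC0⟩ : ∃ C0 : ℝ, C0 = ∑ s ∈ S, CL s := ⟨_, rfl⟩
  have hC00 : 0 ≤ C0 := by rw [hC0]; exact Finset.sum_nonneg fun s _ => hCL0 s
  have hCS : ∀ s ∈ S, ∀ j g, |gap j (s * g) - gap j g| ≤ C0 := by
    intro s hs j g
    refine (hCL s j g).trans ?_
    rw [hC0]
    exact Finset.single_le_sum (fun s _ => hCL0 s) hs
  obtain ⟨η, hη0, hη⟩ : ∃ η : ℝ, 0 < η ∧ 8 * η ^ 2 ≤ ε / 2 := by
    refine ⟨min 1 (ε / 16), lt_min one_pos (by positivity), ?_⟩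
    have h1 : min 1 (ε / 16) ≤ 1 := min_le_left _ _
    have h2 : min 1 (ε / 16) ≤ ε / 16 := min_le_right _ _
    have h3 : 0 < min 1 (ε / 16) := lt_min one_pos (by positivity)
    nlinarith
  obtain ⟨a, ha0, ha⟩ : ∃ a : ℝ, 0 < a ∧ N * (C0 / a) ≤ η := by
    refine ⟨(N * C0 + 1) / η, by positivity, ?_⟩
    rw [div_div_eq_mul_div, mul_div_assoc', div_le_iff₀ (by positivity)]
    nlinarith [mul_nonneg hN0 hC00]
  obtain ⟨B, F, H, D, hF0, hH0, hFB, hHB, hF2, hH2, hleft, hright, hov⟩ :=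
    hgeo S (ε / 4) (by positivity) (R + a)
  have hk0 : ∀ k : ℕ, (0 : ℝ) < (k : ℝ) + 1 := fun k => by positivity
  have hH1 : ∀ b g, H b g ≤ 1 := by
    intro b g
    by_cases hb : b ∈ B
    · have h1 : H b g ^ 2 ≤ 1 :=
        (Finset.single_le_sum (f := fun b => H b g ^ 2) (fun b _ => sq_nonneg _) hb).trans (hH2 g)
      nlinarith [hH0 b g]
    · rw [hHB b hb]; exact zero_le_one
  refine ⟨B, fun k b g => up gap θ ((k : ℝ) + 1) g * lo gap θ R a g * F b g,
    fun k b g => up gap θ ((k : ℝ) + 1) g * H b g, ⟨?_, ?_, ?_, ?_, ?_, ?_, ?_, ?_⟩, ?_⟩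
  · intro k b g
    exact mul_nonneg (mul_nonneg (up_mem _ _ _ _).1 (lo_mem _ _ _ _ _).1) (hF0 b g)
  · intro k b g
    exact mul_nonneg (up_mem _ _ _ _).1 (hH0 b g)
  · intro k b hb g
    rw [hFB b hb, mul_zero]
  · intro k b hb g
    rw [hHB b hb, mul_zero]
  · intro k g
    have h1 : ∑ b ∈ B, (up gap θ ((k : ℝ) + 1) g * lo gap θ R a g * F b g) ^ 2 =
        (up gap θ ((k : ℝ) + 1) g * lo gap θ R a g) ^ 2 * ∑ b ∈ B, F b g ^ 2 := by
      rw [Finset.mul_sum]
      exact Finset.sum_congr rfl fun b _ => by ring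
    rw [h1]
    have h2 := up_mem gap θ ((k : ℝ) + 1) g
    have h3 := lo_mem gap θ R a g
    have h4 : (up gap θ ((k : ℝ) + 1) g * lo gap θ R a g) ^ 2 ≤ 1 :=
      pow_le_one₀ (mul_nonneg h2.1 h3.1) (mul_le_one₀ h2.2 h3.1 h3.2)
    exact mul_le_one₀ h4 (Finset.sum_nonneg fun b _ => sq_nonneg _) (hF2 g)
  · intro k g
    have h1 : ∑ b ∈ B, (up gap θ ((k : ℝ) + 1) g * H b g) ^ 2 =
        (up gap θ ((k : ℝ) + 1) g) ^ 2 * ∑ b ∈ B, H b g ^ 2 := by
      rw [Finset.mul_sum]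
      exact Finset.sum_congr rfl fun b _ => by ring
    rw [h1]
    have h2 := up_mem gap θ ((k : ℝ) + 1) g
    exact mul_le_one₀ (pow_le_one₀ h2.1 h2.2) (Finset.sum_nonneg fun b _ => sq_nonneg _) (hH2 g)
  · intro s hs
    filter_upwards [eventually_nat_ge D hU, tendsto_div_nat (N * C0) hU hη0] with k hk1 hk2 g
    obtain ⟨κ, hκ⟩ : ∃ κ : ℝ, κ = up gap θ ((k : ℝ) + 1) g * lo gap θ R a g := ⟨_, rfl⟩
    obtain ⟨κ', hκ'⟩ : ∃ κ' : ℝ, κ' = up gap θ ((k : ℝ) + 1) (s * g) * lo gap θ R a (s * g) :=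
      ⟨_, rfl⟩
    rw [← hκ, ← hκ']
    have hu := up_mem gap θ ((k : ℝ) + 1) g
    have hl := lo_mem gap θ R a g
    have hu' := up_mem gap θ ((k : ℝ) + 1) (s * g)
    have hl' := lo_mem gap θ R a (s * g)
    have hκ0 : 0 ≤ κ := by rw [hκ]; exact mul_nonneg hu.1 hl.1
    have hκ1 : κ ≤ 1 := by rw [hκ]; exact mul_le_one₀ hu.2 hl.1 hl.2
    have hdiff : |κ' - κ| ≤ 2 * η := by
      have h1 := up_lip (θ := θ) (h := s * g) (g := g) (hk0 k) hC00 fun j => hCS s hs j g
      have h2 := lo_lip (θ := θ) (R := R) (h := s * g) (g := g) ha0 hC00 fun j => hCS s hs j g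
      rw [← hN] at h1 h2
      have h3 : N * (C0 / ((k : ℝ) + 1)) ≤ η := by rw [mul_div_assoc']; exact hk2
      have e : κ' - κ = (up gap θ ((k : ℝ) + 1) (s * g) - up gap θ ((k : ℝ) + 1) g) *
          lo gap θ R a (s * g) + up gap θ ((k : ℝ) + 1) g *
          (lo gap θ R a (s * g) - lo gap θ R a g) := by rw [hκ, hκ']; ring
      rw [e]
      refine (abs_add_le _ _).trans ?_
      rw [abs_mul, abs_mul, abs_of_nonneg hl'.1, abs_of_nonneg hu.1]
      have h4 : |up gap θ ((k : ℝ) + 1) (s * g) - up gap θ ((k : ℝ) + 1) g| *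
          lo gap θ R a (s * g) ≤ η :=
        (mul_le_of_le_one_right (abs_nonneg _) hl'.2).trans (h1.trans h3)
      have h5 : up gap θ ((k : ℝ) + 1) g * |lo gap θ R a (s * g) - lo gap θ R a g| ≤ η :=
        (mul_le_of_le_one_left (abs_nonneg _) hu.2).trans (h2.trans ha)
      linarith
    have hF' : ∑ b ∈ B ∪ B.image (fun b => s⁻¹ * b), F (s * b) (s * g) ^ 2 ≤ 1 :=
      (sum_shift_le (f := fun b => F b (s * g) ^ 2) (fun b => sq_nonneg _)
        (fun b hb => by rw [hFB b hb]; ring)).trans (hF2 _)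
    have hmain : κ ^ 2 * ∑ b ∈ B ∪ B.image (fun b => s⁻¹ * b), (F (s * b) (s * g) - F b g) ^ 2 ≤
        ε / 4 := by
      by_cases h0 : κ = 0
      · rw [h0, zero_pow two_ne_zero, zero_mul]; positivity
      · have h1 : up gap θ ((k : ℝ) + 1) g ≠ 0 := fun h => h0 (by rw [hκ, h, zero_mul])
        have h2 : lo gap θ R a g ≠ 0 := fun h => h0 (by rw [hκ, h, mul_zero])
        have h3 := hleft s hs g (fun j hj => hk1.trans (up_ne (hk0 k) h1 j hj)) (lo_ne ha0 h2)
        refine (mul_le_of_le_one_left (Finset.sum_nonneg fun b _ => sq_nonneg _) ?_).trans h3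
        exact pow_le_one₀ hκ0 hκ1
    calc ∑ b ∈ B ∪ B.image (fun b => s⁻¹ * b), (κ' * F (s * b) (s * g) - κ * F b g) ^ 2
        ≤ ∑ b ∈ B ∪ B.image (fun b => s⁻¹ * b), (2 * (κ ^ 2 * (F (s * b) (s * g) - F b g) ^ 2) +
            2 * ((κ' - κ) ^ 2 * F (s * b) (s * g) ^ 2)) := by
          refine Finset.sum_le_sum fun b _ => ?_
          have e : κ' * F (s * b) (s * g) - κ * F b g =
            κ * (F (s * b) (s * g) - F b g) + (κ' - κ) * F (s * b) (s * g) := by ring
          rw [e]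
          nlinarith [sq_nonneg (κ * (F (s * b) (s * g) - F b g) - (κ' - κ) * F (s * b) (s * g))]
      _ = 2 * (κ ^ 2 * ∑ b ∈ B ∪ B.image (fun b => s⁻¹ * b), (F (s * b) (s * g) - F b g) ^ 2) +
            2 * ((κ' - κ) ^ 2 * ∑ b ∈ B ∪ B.image (fun b => s⁻¹ * b), F (s * b) (s * g) ^ 2) := by
          rw [Finset.sum_add_distrib, ← Finset.mul_sum, ← Finset.mul_sum, ← Finset.mul_sum,
            ← Finset.mul_sum]
      _ ≤ 2 * (ε / 4) + 2 * (4 * η ^ 2 * 1) := by
          have h1 : (κ' - κ) ^ 2 ≤ 4 * η ^ 2 := by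
            rw [← sq_abs (κ' - κ)]
            nlinarith [abs_nonneg (κ' - κ)]
          have h2 : 0 ≤ ∑ b ∈ B ∪ B.image (fun b => s⁻¹ * b), F (s * b) (s * g) ^ 2 :=
            Finset.sum_nonneg fun b _ => sq_nonneg _
          gcongr
      _ ≤ ε := by linarith
  · intro b u δ hδ
    obtain ⟨D', hD'⟩ := hright u (δ / 2) (by positivity)
    filter_upwards [eventually_nat_ge D' hU, tendsto_div_nat (N * CR u) hU (half_pos hδ)]
      with k hk1 hk2 g
    have hu := up_mem gap θ ((k : ℝ) + 1) g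
    have e : up gap θ ((k : ℝ) + 1) (g * u) * H b (g * u) - up gap θ ((k : ℝ) + 1) g * H b g =
        up gap θ ((k : ℝ) + 1) g * (H b (g * u) - H b g) +
        (up gap θ ((k : ℝ) + 1) (g * u) - up gap θ ((k : ℝ) + 1) g) * H b (g * u) := by ring
    rw [e]
    refine (abs_add_le _ _).trans ?_
    rw [abs_mul, abs_mul, abs_of_nonneg hu.1, abs_of_nonneg (hH0 b (g * u))]
    have h1 : up gap θ ((k : ℝ) + 1) g * |H b (g * u) - H b g| ≤ δ / 2 := by
      by_cases h0 : up gap θ ((k : ℝ) + 1) g = 0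
      · rw [h0, zero_mul]; positivity
      · exact (mul_le_of_le_one_left (abs_nonneg _) hu.2).trans
          (hD' g (fun j hj => hk1.trans (up_ne (hk0 k) h0 j hj)) b)
    have h2 : |up gap θ ((k : ℝ) + 1) (g * u) - up gap θ ((k : ℝ) + 1) g| * H b (g * u) ≤
        δ / 2 := by
      refine (mul_le_of_le_one_right (abs_nonneg _) (hH1 _ _)).trans ?_
      have h3 := up_lip (θ := θ) (h := g * u) (g := g) (hk0 k) (hCR0 u) fun j => hCR u j g
      rw [← hN, mul_div_assoc'] at h3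
      exact h3.trans hk2
    linarith
  · filter_upwards [eventually_nat_ge D hU] with k hk g hgR
    have hlo : lo gap θ R a g = 1 := lo_eq_one ha0 hgR
    have e : ∑ b ∈ B, up gap θ ((k : ℝ) + 1) g * lo gap θ R a g * F b g *
        (up gap θ ((k : ℝ) + 1) g * H b g) =
        (up gap θ ((k : ℝ) + 1) g) ^ 2 * ∑ b ∈ B, F b g * H b g := by
      rw [Finset.mul_sum]
      refine Finset.sum_congr rfl fun b _ => ?_
      rw [hlo]; ring
    rw [e, mul_comm c]
    by_cases h0 : up gap θ ((k : ℝ) + 1) g = 0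
    · rw [h0, zero_pow two_ne_zero, zero_mul, zero_mul]
    · exact mul_le_mul_of_nonneg_left
        (hov g (fun j hj => hk.trans (up_ne (hk0 k) h0 j hj)) hgR) (sq_nonneg _)

end fam

/-! ### The induction -/

section step

variable {Γ Λ J : Type} [Group Γ] [DecidableEq Γ] [Group Λ] [Fintype J] [DecidableEq J] {t : ℝ}
  {mass : Λ → (Γ → ℝ) → ℝ} {r : ℕ} {gap : J → Γ → ℝ} {cl : J → Fin r}

open Classical in
/-- the classes which contain a gap `≥ R` -/
noncomputable def big (gap : J → Γ → ℝ) (cl : J → Fin r) (R : ℝ) (g : Γ) : Finset (Fin r) :=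
  Finset.univ.filter fun c => ∃ j, cl j = c ∧ R ≤ gap j g

theorem mem_big {R : ℝ} {g : Γ} {c : Fin r} :
    c ∈ big gap cl R g ↔ ∃ j, cl j = c ∧ R ≤ gap j g := by
  classical
  rw [big, Finset.mem_filter]; simp

/-- The elements commuting with the first `s` subgroups have little mass where more than `r - s`
classes of gaps are large. -/
def PP (mass : Λ → (Γ → ℝ) → ℝ) (gap : J → Γ → ℝ) (cl : J → Fin r) (K : Fin r → Subgroup Λ)
    (s : ℕ) : Prop :=
  ∀ ε : ℝ, 0 < ε → ∃ R : ℝ, ∀ w : Λ, (∀ i : Fin r, (i : ℕ) < s → ∀ v ∈ K i, w * v = v * w) →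
    mass w (ind fun g => r + 1 ≤ (big gap cl R g).card + s) ≤ ε

theorem pp_zero (h : MassData t mass) (K : Fin r → Subgroup Λ) : PP mass gap cl K 0 := by
  intro ε hε
  refine ⟨0, fun w _ => ?_⟩
  have e : (ind fun g => r + 1 ≤ (big gap cl 0 g).card + 0) = fun _ => 0 := by
    funext g
    refine ind_neg (P := fun g => r + 1 ≤ (big gap cl 0 g).card + 0) ?_
    have : (big gap cl 0 g).card ≤ r := by simpa using Finset.card_le_univ (big gap cl 0 g)
    omega
  rw [e, h.zero]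
  exact hε.le

theorem eventually_const {α : Type} [Finite α] (U : Ultrafilter ℕ) (f : ℕ → α) :
    ∃ a, ∀ᶠ k in U, f k = a := by
  by_contra hcon
  have h1 : ∀ a, ∀ᶠ k in U, f k ≠ a := fun a =>
    Ultrafilter.eventually_not.mpr fun ha => hcon ⟨a, ha⟩
  have h2 : ∀ᶠ k in U, ∀ a, f k ≠ a := Filter.eventually_all.mpr h1
  obtain ⟨k, hk⟩ := h2.exists
  exact hk _ rfl

theorem step (h : MassData t mass) (hg : Gaps gap cl)
    (hgeo : ∀ θ : Finset J, θ.Nonempty → (∀ i ∈ θ, ∀ j, cl i = cl j → j ∈ θ) → Geo gap θ)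
    (K : Fin r → Subgroup Λ) (hK : ∀ i, NoMean (K i))
    (hKK : ∀ i j, i ≠ j → ∀ v ∈ K i, ∀ w ∈ K j, v * w = w * v) (s : ℕ) (hs : s < r)
    (hP : PP mass gap cl K s) : PP mass gap cl K (s + 1) := by
  classical
  by_contra hcon
  rw [PP] at hcon
  push Not at hcon
  obtain ⟨ε, hε, hcon⟩ := hcon
  choose Rc hRc using hg.comp
  obtain ⟨ρ, hρ⟩ : ∃ ρ : ℕ → ℝ, ∀ k, ρ k = Rc (2 * ((k : ℝ) + 1)) + 1 := ⟨_, fun _ => rfl⟩
  choose w hwc hwm using fun k : ℕ => hcon (ρ k)
  obtain ⟨U, hU⟩ : ∃ U : Ultrafilter ℕ, (U : Filter ℕ) ≤ atTop :=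
    ⟨hyperfilter ℕ, Nat.hyperfilter_le_atTop⟩
  -- the family of all classes which are large
  obtain ⟨TT, hTT⟩ : ∃ TT : Finset (Finset (Fin r)),
      TT = Finset.univ.filter fun Θ : Finset (Fin r) => Θ.card + s = r := ⟨_, rfl⟩
  obtain ⟨M, hM⟩ : ∃ M : ℝ, M = (TT.card : ℝ) + 1 := ⟨_, rfl⟩
  have hM0 : 0 < M := by rw [hM]; positivity
  obtain ⟨δ, hδ⟩ : ∃ δ : ℝ, δ = ε / M := ⟨_, rfl⟩
  have hδ0 : 0 < δ := by rw [hδ]; positivity
  have hsel : ∀ k, ∃ Θ : Finset (Fin r), Θ.card + s = r ∧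
      δ < mass (w k) (ind fun g => Θ ⊆ big gap cl (ρ k) g) := by
    intro k
    by_contra hc
    push Not at hc
    have h1 : mass (w k) (ind fun g => r + 1 ≤ (big gap cl (ρ k) g).card + (s + 1)) ≤
        mass (w k) (fun g => ∑ Θ ∈ TT, ind (fun g => Θ ⊆ big gap cl (ρ k) g) g) := by
      refine h.mono (w k) _ _ (1 + TT.card) (fun g => ?_) (fun g => ?_) (fun g => ?_)
      · have h2 := abs_ind_le (fun g => r + 1 ≤ (big gap cl (ρ k) g).card + (s + 1)) g
        have h3 : (0 : ℝ) ≤ TT.card := by positivity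
        linarith
      · refine (Finset.abs_sum_le_sum_abs _ _).trans ?_
        refine (Finset.sum_le_sum fun Θ _ => abs_ind_le _ g).trans ?_
        rw [Finset.sum_const, nsmul_eq_mul]
        linarith
      · by_cases hg1 : r + 1 ≤ (big gap cl (ρ k) g).card + (s + 1)
        · rw [ind_pos (P := fun g => r + 1 ≤ (big gap cl (ρ k) g).card + (s + 1)) hg1]
          obtain ⟨Θ, hΘ1, hΘ2⟩ := Finset.exists_subset_card_eq
            (show r - s ≤ (big gap cl (ρ k) g).card by omega)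
          have hΘ : Θ ∈ TT := by
            rw [hTT, Finset.mem_filter]
            exact ⟨Finset.mem_univ _, by omega⟩
          refine le_trans ?_ (Finset.single_le_sum
            (f := fun Θ => ind (fun g => Θ ⊆ big gap cl (ρ k) g) g)
            (fun Θ _ => ind_nonneg _ g) hΘ)
          exact (ind_pos (P := fun g => Θ ⊆ big gap cl (ρ k) g) hΘ1).ge
        · rw [ind_neg (P := fun g => r + 1 ≤ (big gap cl (ρ k) g).card + (s + 1)) hg1]
          exact Finset.sum_nonneg fun Θ _ => ind_nonneg _ g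
    rw [h.sum (w k) TT (fun Θ => ind fun g => Θ ⊆ big gap cl (ρ k) g) (C := 1)
      fun Θ _ g => abs_ind_le _ g] at h1
    have h2 : ∑ Θ ∈ TT, mass (w k) (ind fun g => Θ ⊆ big gap cl (ρ k) g) ≤ TT.card * δ := by
      rw [← nsmul_eq_mul, ← Finset.sum_const]
      refine Finset.sum_le_sum fun Θ hΘ => hc Θ ?_
      rw [hTT, Finset.mem_filter] at hΘ
      exact hΘ.2
    have h3 : (TT.card : ℝ) * δ ≤ ε := by
      rw [hδ, mul_div_assoc', div_le_iff₀ hM0, hM]
      nlinarith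
    have h4 := hwm k
    linarith
  choose Θk hΘk1 hΘk2 using hsel
  obtain ⟨Θ, hΘ⟩ := eventually_const U Θk
  obtain ⟨θ, hθ⟩ : ∃ θ : Finset J, θ = Finset.univ.filter fun j => cl j ∈ Θ := ⟨_, rfl⟩
  have hmemθ : ∀ j, j ∈ θ ↔ cl j ∈ Θ := fun j => by rw [hθ, Finset.mem_filter]; simp
  obtain ⟨k0, hk0⟩ := hΘ.exists
  have hcard : Θ.card + s = r := by rw [← hk0]; exact hΘk1 k0
  -- on the support all the gaps in `θ` are large
  have hlarge : ∀ (k : ℕ) (g : Γ), Θ ⊆ big gap cl (ρ k) g →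
      ∀ j ∈ θ, 2 * ((k : ℝ) + 1) ≤ gap j g := by
    intro k g hsub j hj
    obtain ⟨i, hi1, hi2⟩ := mem_big.mp (hsub ((hmemθ j).mp hj))
    by_contra hc
    push Not at hc
    have h1 := hRc (2 * ((k : ℝ) + 1)) j i hi1.symm g hc.le
    rw [hρ] at hi2
    linarith
  -- the classes in `Θ` are not empty
  have hclass : ∀ c ∈ Θ, ∃ j, cl j = c := by
    have h1 : δ < mass (w k0) (ind fun g => Θ ⊆ big gap cl (ρ k0) g) := by
      rw [← hk0]; exact hΘk2 k0
    intro c hc
    by_contra hne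
    have h2 : (ind fun g => Θ ⊆ big gap cl (ρ k0) g) = fun _ : Γ => (0 : ℝ) := by
      funext g
      refine ind_neg (P := fun g => Θ ⊆ big gap cl (ρ k0) g) fun hsub => hne ?_
      obtain ⟨j, hj, _⟩ := mem_big.mp (hsub hc)
      exact ⟨j, hj⟩
    rw [h2, h.zero] at h1
    linarith
  have hθne : θ.Nonempty := by
    have h1 : Θ.Nonempty := Finset.card_pos.mp (by omega)
    obtain ⟨c, hc⟩ := h1
    obtain ⟨j, hj⟩ := hclass c hc
    exact ⟨j, (hmemθ j).mpr (by rw [hj]; exact hc)⟩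
  have hθcl : ∀ i ∈ θ, ∀ j, cl i = cl j → j ∈ θ := by
    intro i hi j hij
    rw [hmemθ] at hi ⊢
    rwa [← hij]
  obtain ⟨R, hR⟩ := hP (δ / 4) (by positivity)
  obtain ⟨c, hc0, hfam⟩ := fam_of_geo hg (hgeo θ hθne hθcl) hU R
  have hk1 : ∀ k : ℕ, (0 : ℝ) < (k : ℝ) + 1 := fun k => by positivity
  -- the cut-offs
  obtain ⟨χ, hχ⟩ : ∃ χ : ℕ → Γ → ℝ, ∀ k g, χ k g = (up gap θ ((k : ℝ) + 1) g) ^ 2 :=
    ⟨_, fun _ _ => rfl⟩
  have hχ01 : ∀ k g, 0 ≤ χ k g ∧ χ k g ≤ 1 := by
    intro k g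
    rw [hχ]
    have := up_mem gap θ ((k : ℝ) + 1) g
    exact ⟨sq_nonneg _, pow_le_one₀ this.1 this.2⟩
  have hχabs : ∀ k g, |χ k g| ≤ 1 := fun k g => by
    rw [abs_of_nonneg (hχ01 k g).1]; exact (hχ01 k g).2
  have hχr : ∀ u : Γ, Usm U (fun k g => χ k (g * u) - χ k g) := by
    intro u δ' hδ'
    obtain ⟨C, hC0, hC⟩ := hg.right u
    filter_upwards [tendsto_div_nat ((Fintype.card J : ℝ) * C) hU (half_pos hδ')] with k hk g
    have h1 := up_lip (θ := θ) (h := g * u) (g := g) (hk1 k) hC0 fun j => hC j g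
    rw [mul_div_assoc'] at h1
    have h2 := up_mem gap θ ((k : ℝ) + 1) g
    have h3 := up_mem gap θ ((k : ℝ) + 1) (g * u)
    rw [hχ, hχ]
    have e : up gap θ ((k : ℝ) + 1) (g * u) ^ 2 - up gap θ ((k : ℝ) + 1) g ^ 2 =
        (up gap θ ((k : ℝ) + 1) (g * u) - up gap θ ((k : ℝ) + 1) g) *
        (up gap θ ((k : ℝ) + 1) (g * u) + up gap θ ((k : ℝ) + 1) g) := by ring
    rw [e, abs_mul]
    have h4 : |up gap θ ((k : ℝ) + 1) (g * u) + up gap θ ((k : ℝ) + 1) g| ≤ 2 := by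
      rw [abs_of_nonneg (by linarith)]; linarith
    calc _ ≤ (δ' / 2) * 2 := mul_le_mul (h1.trans hk) h4 (abs_nonneg _) (by positivity)
      _ = δ' := by ring
  -- the subgroup
  obtain ⟨i0, hi0⟩ : ∃ i0 : Fin r, i0 = ⟨s, hs⟩ := ⟨_, rfl⟩
  have hwK : ∀ k, ∀ v ∈ K i0, w k * v = v * w k := fun k v hv =>
    hwc k i0 (by rw [hi0]; exact Nat.lt_succ_self s) v hv
  refine h.pair (K i0) (hK i0) U w hwK (c * (δ / 2)) (by positivity) fun S ε' hε' => ?_
  obtain ⟨B, F, H, hBFH, hlow⟩ := hfam S ε' hε'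
  refine ⟨B, F, H, hBFH, fun v hv => ?_⟩
  have hinv := h.inv U w v (fun k => hwK k v hv) χ hχ01 hχr
  have hinv' : ∀ᶠ k in U, |mass (w k * v) (χ k) - mass (w k) (χ k)| < δ / 4 := by
    have := Metric.tendsto_nhds.mp hinv (δ / 4) (by positivity)
    filter_upwards [this] with k hk
    rwa [Real.dist_eq, sub_zero] at hk
  filter_upwards [hΘ, hinv', hlow, eventually_nat_ge R hU] with k hk2 hk3 hk4 hk5
  -- mass of `w k`
  have h1 : δ < mass (w k) (χ k) := by
    have h2 : mass (w k) (ind fun g => Θ ⊆ big gap cl (ρ k) g) ≤ mass (w k) (χ k) := by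
      refine h.mono (w k) _ _ 1 (fun g => abs_ind_le _ g) (hχabs k) fun g => ?_
      by_cases hsub : Θ ⊆ big gap cl (ρ k) g
      · rw [ind_pos (P := fun g => Θ ⊆ big gap cl (ρ k) g) hsub, hχ,
          up_eq_one (hk1 k) (hlarge k g hsub), one_pow]
      · rw [ind_neg (P := fun g => Θ ⊆ big gap cl (ρ k) g) hsub]
        exact (hχ01 k g).1
    have h3 := hΘk2 k
    rw [hk2] at h3
    linarith
  have h2 : 3 / 4 * δ ≤ mass (w k * v) (χ k) := by
    have := (abs_lt.mp hk3).1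
    linarith
  -- the bad part
  have h3 : mass (w k * v) (ind fun g => r + 1 ≤ (big gap cl R g).card + s) ≤ δ / 4 := by
    refine hR (w k * v) fun i hi u hu => ?_
    have e1 : v * u = u * v := hKK i0 i (fun e => by rw [← e, hi0] at hi; exact lt_irrefl _ hi)
      v hv u hu
    have e2 := hwc k i (hi.trans (Nat.lt_succ_self s)) u hu
    rw [mul_assoc, e1, ← mul_assoc, e2, mul_assoc]
  obtain ⟨FH, hFH⟩ : ∃ FH : Γ → ℝ, ∀ g, FH g = ∑ b ∈ B, F k b g * H k b g := ⟨_, fun _ => rfl⟩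
  have hFH0 : ∀ g, 0 ≤ FH g := fun g => by
    rw [hFH]
    exact Finset.sum_nonneg fun b _ => mul_nonneg (hBFH.nonnegF _ _ _) (hBFH.nonnegH _ _ _)
  have hFH1 : ∀ g, FH g ≤ 1 := fun g => by
    rw [hFH]
    have h5 : ∀ b ∈ B, F k b g * H k b g ≤ 1 / 2 * F k b g ^ 2 + 1 / 2 * H k b g ^ 2 := by
      intro b _
      nlinarith [sq_nonneg (F k b g - H k b g)]
    refine (Finset.sum_le_sum h5).trans ?_
    rw [Finset.sum_add_distrib, ← Finset.mul_sum, ← Finset.mul_sum]
    have := hBFH.sumF k g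
    have := hBFH.sumH k g
    linarith
  have hmono : c * mass (w k * v) (χ k) ≤ mass (w k * v) FH +
      c * mass (w k * v) (ind fun g => r + 1 ≤ (big gap cl R g).card + s) := by
    have hb1 : ∀ g, |c * χ k g| ≤ 1 + c := fun g => by
      rw [abs_mul, abs_of_pos hc0]
      have := hχabs k g
      nlinarith
    have hb2 : ∀ g, |FH g| ≤ 1 + c := fun g => by
      rw [abs_of_nonneg (hFH0 g)]
      have := hFH1 g
      linarith
    have hb3 : ∀ g, |c * ind (fun g => r + 1 ≤ (big gap cl R g).card + s) g| ≤ 1 + c := fun g => by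
      rw [abs_mul, abs_of_pos hc0]
      have := abs_ind_le (fun g => r + 1 ≤ (big gap cl R g).card + s) g
      nlinarith
    rw [← h.smul _ _ 1 c (hχabs k), ← h.smul _ _ 1 c (fun g => abs_ind_le _ g),
      ← h.add _ _ _ (1 + c) hb2 hb3]
    refine h.mono _ _ _ (2 * (1 + c)) (fun g => ?_) (fun g => ?_) (fun g => ?_)
    · have := hb1 g
      linarith [abs_nonneg (c * χ k g)]
    · refine (abs_add_le _ _).trans ?_
      have := hb2 g
      have := hb3 g
      linarith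
    · by_cases hu : up gap θ ((k : ℝ) + 1) g = 0
      · rw [hχ, hu, zero_pow two_ne_zero, mul_zero]
        exact add_nonneg (hFH0 g) (mul_nonneg hc0.le (ind_nonneg _ g))
      · have hup := up_ne (hk1 k) hu
        by_cases hb : ∀ j, j ∉ θ → gap j g ≤ R
        · have h6 := hk4 g hb
          rw [← hFH, ← hχ] at h6
          have := mul_nonneg hc0.le (ind_nonneg (fun g => r + 1 ≤ (big gap cl R g).card + s) g)
          linarith
        · push Not at hb
          obtain ⟨j, hj1, hj2⟩ := hb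
          have hbad : r + 1 ≤ (big gap cl R g).card + s := by
            have h7 : insert (cl j) Θ ⊆ big gap cl R g := by
              intro x hx
              rw [Finset.mem_insert] at hx
              rcases hx with rfl | hx
              · exact mem_big.mpr ⟨j, rfl, hj2.le⟩
              · obtain ⟨i, hi⟩ := hclass x hx
                exact mem_big.mpr ⟨i, hi, hk5.trans (hup i ((hmemθ i).mpr (by rw [hi]; exact hx)))⟩
            have h8 : cl j ∉ Θ := fun h => hj1 ((hmemθ j).mpr h)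
            have h9 := Finset.card_le_card h7
            rw [Finset.card_insert_of_notMem h8] at h9
            omega
          rw [ind_pos (P := fun g => r + 1 ≤ (big gap cl R g).card + s) hbad]
          have := (hχ01 k g).2
          have := hFH0 g
          nlinarith
  have e : (fun g => ∑ b ∈ B, F k b g * H k b g) = FH := by funext g; rw [hFH]
  rw [e]
  nlinarith

/-- **[R3]**: the rank theorem, abstract form. -/
theorem rankAbs : RankAbs := by
  intro Γ Λ J _ _ _ _ _ t mass h r gap cl hg hgeo hM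
  classical
  obtain ⟨K, C, hK, hKK, hC, hKC⟩ := hM
  have hPP : ∀ s, s ≤ r → PP mass gap cl K s := by
    intro s
    induction s with
    | zero => intro _; exact pp_zero h K
    | succ s ih => intro hs; exact step h hg hgeo K hK hKK s hs (ih (by omega))
  obtain ⟨R, hR⟩ := hPP r le_rfl (t / 4) (by have := h.pos; positivity)
  have hfin := hg.fin R
  obtain ⟨T, hT⟩ : ∃ T : Finset Γ, T = hfin.toFinset := ⟨_, rfl⟩
  have hTmem : ∀ g, g ∈ T ↔ ∀ j, gap j g ≤ R := fun g => by rw [hT, Set.Finite.mem_toFinset]; rfl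
  have ht := h.pos
  -- every element of `C` has mass in `T`
  have h1 : ∀ w ∈ C, t / 2 ≤ ∑ g ∈ T, mass w (fun h => if h = g then 1 else 0) := by
    intro w hw
    have h2 := hR w fun i _ v hv => (hKC i v hv w hw).symm
    have hb1 : ∀ (g g' : Γ), |(if g' = g then (1 : ℝ) else 0)| ≤ 1 := fun g g' => by
      split_ifs <;> simp
    rw [← h.sum w T (fun g h => if h = g then 1 else 0) (C := 1) fun g _ g' => hb1 g g']
    have hb2 : ∀ g', |∑ g ∈ T, (if g' = g then (1 : ℝ) else 0)| ≤ T.card := fun g' => by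
      refine (Finset.abs_sum_le_sum_abs _ _).trans ?_
      refine (Finset.sum_le_sum fun g _ => hb1 g g').trans ?_
      rw [Finset.sum_const, nsmul_eq_mul, mul_one]
    have h3 : t ≤ mass w (fun g' => ∑ g ∈ T, (if g' = g then (1 : ℝ) else 0)) +
        mass w (ind fun g => r + 1 ≤ (big gap cl R g).card + r) := by
      rw [← h.one w, ← h.add w _ _ (T.card + 1)
        (fun g' => (hb2 g').trans (by linarith)) (fun g' => (abs_ind_le _ g').trans (by
          have : (0 : ℝ) ≤ T.card := by positivity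
          linarith))]
      refine h.mono w _ _ (T.card + 2) (fun g' => ?_) (fun g' => ?_) (fun g' => ?_)
      · rw [abs_one]
        have : (0 : ℝ) ≤ T.card := by positivity
        linarith
      · refine (abs_add_le _ _).trans ?_
        have h4 := hb2 g'
        have h5 := abs_ind_le (fun g => r + 1 ≤ (big gap cl R g).card + r) g'
        linarith
      · by_cases hg' : g' ∈ T
        · have h4 : (1 : ℝ) ≤ ∑ g ∈ T, (if g' = g then (1 : ℝ) else 0) := by
            refine le_trans ?_ (Finset.single_le_sum (f := fun g => if g' = g then (1 : ℝ) else 0)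
              (fun g _ => by split_ifs <;> norm_num) hg')
            simp
          have := ind_nonneg (fun g => r + 1 ≤ (big gap cl R g).card + r) g'
          linarith
        · have h4 : r + 1 ≤ (big gap cl R g').card + r := by
            rw [hTmem] at hg'
            push Not at hg'
            obtain ⟨j, hj⟩ := hg'
            have : 0 < (big gap cl R g').card :=
              Finset.card_pos.mpr ⟨cl j, mem_big.mpr ⟨j, rfl, hj.le⟩⟩
            omega
          rw [ind_pos (P := fun g => r + 1 ≤ (big gap cl R g).card + r) h4]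
          have h5 : (0 : ℝ) ≤ ∑ g ∈ T, (if g' = g then (1 : ℝ) else 0) :=
            Finset.sum_nonneg fun g _ => by split_ifs <;> norm_num
          linarith
    linarith
  -- escape
  have h2 : Tendsto (fun w => ∑ g ∈ T, mass w (fun h => if h = g then 1 else 0)) cofinite
      (𝓝 (∑ g ∈ T, (0 : ℝ))) := tendsto_finsetSum T fun g _ => h.esc g
  rw [Finset.sum_const_zero] at h2
  have h3 : ∀ᶠ w in cofinite, ∑ g ∈ T, mass w (fun h => if h = g then 1 else 0) < t / 2 :=
    h2.eventually (gt_mem_nhds (by positivity))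
  rw [eventually_cofinite] at h3
  have h4 : (C : Set Λ) ⊆ {w | ¬ ∑ g ∈ T, mass w (fun h => if h = g then 1 else 0) < t / 2} :=
    fun w hw => not_lt.mpr (h1 w hw)
  exact (Set.infinite_coe_iff.mp hC) (h3.subset h4)

end step

end Vale.Agent.P092.H761
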