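import Vale.Agent.P092.H538.S6
import Vale.Agent.P092.H200.Multi

/-!
P092 (helper761): common definitions for the rank theorem (class form, abstract mass functions).
-/

set_option linter.all false

open scoped InnerProductSpace
open Filter Topology ContinuousLinearMap

namespace Vale.Agent.P092.H761

open Vale.Agent.P092.H160 Vale.Agent.P092.H553 Vale.Agent.P092.H200 Vale.Agent.P092.H432
open Vale.Agent.P092.H538

/-- Gap functions on a group, grouped in `r` classes of comparable functions. -/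
structure Gaps {Γ J : Type} [Group Γ] {r : ℕ} (gap : J → Γ → ℝ) (cl : J → Fin r) : Prop where
  quasi : ∀ s t : Γ, ∃ C : ℝ, ∀ j g, |gap j (s * g * t) - gap j g| ≤ C
  fin : ∀ R : ℝ, {g : Γ | ∀ j, gap j g ≤ R}.Finite
  comp : ∀ R : ℝ, ∃ R' : ℝ, ∀ i j, cl i = cl j → ∀ g, gap i g ≤ R → gap j g ≤ R'

/-- The geometric functions `F` (asymptotically left equivariant where the gaps in `θ` are large
and the others bounded) and `H` (asymptotically right invariant where the gaps in `θ` are large),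
with overlap bounded below where the other gaps are `≤ R`, by a constant which depends only on
`R`. -/
def Geo {Γ J : Type} [Group Γ] [DecidableEq Γ] (gap : J → Γ → ℝ) (θ : Finset J) : Prop :=
  ∀ R : ℝ, ∃ c : ℝ, 0 < c ∧ ∀ (S : Finset Γ) (ε : ℝ), 0 < ε → ∀ R1 : ℝ,
    ∃ (B : Finset Γ) (F H : Γ → Γ → ℝ) (D : ℝ),
      (∀ b g, 0 ≤ F b g) ∧ (∀ b g, 0 ≤ H b g) ∧
      (∀ b ∉ B, ∀ g, F b g = 0) ∧ (∀ b ∉ B, ∀ g, H b g = 0) ∧
      (∀ g, ∑ b ∈ B, F b g ^ 2 ≤ 1) ∧ (∀ g, ∑ b ∈ B, H b g ^ 2 ≤ 1) ∧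
      (∀ s ∈ S, ∀ g, (∀ j ∈ θ, D ≤ gap j g) → (∀ j, j ∉ θ → gap j g ≤ R1) →
        ∑ b ∈ B ∪ B.image (fun b => s⁻¹ * b), (F (s * b) (s * g) - F b g) ^ 2 ≤ ε) ∧
      (∀ t : Γ, ∀ η : ℝ, 0 < η → ∃ D' : ℝ, ∀ g, (∀ j ∈ θ, D' ≤ gap j g) →
        ∀ b, |H b (g * t) - H b g| ≤ η) ∧
      (∀ g, (∀ j ∈ θ, D ≤ gap j g) → (∀ j, j ∉ θ → gap j g ≤ R) →
        c ≤ ∑ b ∈ B, F b g * H b g)

/-- Families of functions for the pairing lemma. -/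
structure PairFam {Γ : Type} [Group Γ] [DecidableEq Γ] (U : Ultrafilter ℕ) (S : Finset Γ) (ε : ℝ)
    (B : Finset Γ) (F H : ℕ → Γ → Γ → ℝ) : Prop where
  nonnegF : ∀ k b g, 0 ≤ F k b g
  nonnegH : ∀ k b g, 0 ≤ H k b g
  offF : ∀ k, ∀ b ∉ B, ∀ g, F k b g = 0
  offH : ∀ k, ∀ b ∉ B, ∀ g, H k b g = 0
  sumF : ∀ k g, ∑ b ∈ B, F k b g ^ 2 ≤ 1
  sumH : ∀ k g, ∑ b ∈ B, H k b g ^ 2 ≤ 1
  left : ∀ s ∈ S, ∀ᶠ k in U, ∀ g,
    ∑ b ∈ B ∪ B.image (fun b => s⁻¹ * b), (F k (s * b) (s * g) - F k b g) ^ 2 ≤ ε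
  right : ∀ b t : Γ, Usm U (fun k g => H k b (g * t) - H k b g)

/-- All that the induction needs to know about the vectors `R_w ε_i`: `mass w F` stands for
`∑ i, re ⟪R_w ε_i, F R_w ε_i⟫`. -/
structure MassData {Γ Λ : Type} [Group Γ] [DecidableEq Γ] [Group Λ] (t : ℝ)
    (mass : Λ → (Γ → ℝ) → ℝ) : Prop where
  pos : 0 < t
  one : ∀ w, mass w (fun _ => 1) = t
  mono : ∀ w (F F' : Γ → ℝ) (C : ℝ), (∀ g, |F g| ≤ C) → (∀ g, |F' g| ≤ C) →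
    (∀ g, F g ≤ F' g) → mass w F ≤ mass w F'
  add : ∀ w (F F' : Γ → ℝ) (C : ℝ), (∀ g, |F g| ≤ C) → (∀ g, |F' g| ≤ C) →
    mass w (fun g => F g + F' g) = mass w F + mass w F'
  smul : ∀ w (F : Γ → ℝ) (C c : ℝ), (∀ g, |F g| ≤ C) →
    mass w (fun g => c * F g) = c * mass w F
  inv : ∀ (U : Ultrafilter ℕ) (z : ℕ → Λ) (v : Λ), (∀ k, z k * v = v * z k) →
    ∀ χ : ℕ → Γ → ℝ, (∀ k g, 0 ≤ χ k g ∧ χ k g ≤ 1) →
    (∀ u : Γ, Usm U (fun k g => χ k (g * u) - χ k g)) →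
    Tendsto (fun k => mass (z k * v) (χ k) - mass (z k) (χ k)) U (𝓝 0)
  esc : ∀ g : Γ, Tendsto (fun w => mass w (fun h => if h = g then 1 else 0)) cofinite (𝓝 0)
  pair : ∀ K : Subgroup Λ, NoMean K → ∀ (U : Ultrafilter ℕ) (z : ℕ → Λ),
    (∀ k, ∀ v ∈ K, z k * v = v * z k) → ∀ c : ℝ, 0 < c →
    (∀ (S : Finset Γ) (ε : ℝ), 0 < ε → ∃ (B : Finset Γ) (F H : ℕ → Γ → Γ → ℝ),
      PairFam U S ε B F H ∧
      ∀ v ∈ K, ∀ᶠ k in U, c ≤ mass (z k * v) (fun g => ∑ b ∈ B, F k b g * H k b g)) → False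

/-- The masses in the row model. -/
noncomputable def massR {Γ Λ ι : Type} [Group Γ] [Group Λ] [Fintype ι]
    (R : Λ → (Ell2 (Γ × ι) →L[ℂ] Ell2 (Γ × ι))) (w : Λ) (F : Γ → ℝ) : ℝ :=
  ∑ i, (⟪R w (ep i), mp ι F (R w (ep i))⟫_ℂ).re

/-- **[R3]** The rank theorem, abstract form: a literal statement. -/
def RankAbs : Prop :=
  ∀ (Γ Λ J : Type) [Group Γ] [DecidableEq Γ] [Group Λ] [Fintype J] [DecidableEq J] (t : ℝ)
    (mass : Λ → (Γ → ℝ) → ℝ) (_ : MassData t mass) (r : ℕ) (gap : J → Γ → ℝ) (cl : J → Fin r)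
    (_ : Gaps gap cl)
    (_ : ∀ θ : Finset J, θ.Nonempty → (∀ i ∈ θ, ∀ j, cl i = cl j → j ∈ θ) → Geo gap θ)
    (_ : Multi r Λ), False

/-- **[R5]** The row model satisfies `MassData` (with `pair` from the pairing lemma): a literal
statement. -/
def RowMass : Prop :=
  ∀ (Γ Λ ι : Type) [Group Γ] [DecidableEq Γ] [Countable Γ] [Group Λ] [Fintype ι] [DecidableEq ι]
    (t : ℝ) (R : Λ → (Ell2 (Γ × ι) →L[ℂ] Ell2 (Γ × ι))) (_ : ARep t R), MassData t (massR R)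

end Vale.Agent.P092.H761
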