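import Vale.Agent.P092.H983.PairF
import Vale.Agent.P092.H132.EX
import Vale.Agent.P092.H790.BaseI
import Vale.Agent.P092.H156.UnifI
import Vale.Agent.P092.H85.CD
import Vale.Agent.P092.H261.SharpFinal

/-!
P092 (helper761): the instance of `SharpData` given by a lattice `Λ` in a second countable locally
compact group `E` represented in an amplification of the von Neumann algebra of a countable
group `Γ`.
-/

set_option linter.all false

open scoped InnerProductSpace
open Filter Topology ContinuousLinearMap MeasureTheory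

namespace Vale.Agent.P092.H761

open Vale.Agent.P092.H160 Vale.Agent.P092.H553 Vale.Agent.P092.H200 Vale.Agent.P092.H432
open Vale.Agent.P092.H538 Vale.Agent.P092.H790 Vale.Agent.P092.H132

section inst

variable {E : Type} [Group E] [TopologicalSpace E] [IsTopologicalGroup E] [LocallyCompactSpace E]
  [SecondCountableTopology E] [T2Space E] [MeasurableSpace E] [BorelSpace E]

/-- The Borel sets of `E` form an algebra stable under left translations. -/
theorem setAlg_borel : H983.SetAlg E {A : Set E | MeasurableSet A} where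
  univ_mem := MeasurableSet.univ
  compl_mem := fun A hA => MeasurableSet.compl hA
  union_mem := fun A hA A' hA' => MeasurableSet.union hA hA'
  smul_mem := fun v A hA => by
    have h1 : Measurable fun x : E => v⁻¹ • x := (continuous_const_smul v⁻¹).measurable
    exact h1 hA

variable (Λ : Subgroup E) [DiscreteTopology Λ] [MeasurableSpace (E ⧸ Λ)] [BorelSpace (E ⧸ Λ)]
  (ν : Measure (E ⧸ Λ)) [IsProbabilityMeasure ν] (hν : ∀ g : E, ν.map (fun x => g • x) = ν)
  {Γ ι : Type} [Group Γ] [DecidableEq Γ] [Countable Γ] [Fintype ι] {t : ℝ}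
  {R : Λ → (Ell2 (Γ × ι) →L[ℂ] Ell2 (Γ × ι))}

/-- The covariant family of the induced representation. -/
theorem exists_efam (hR : ARep t R) :
    ∃ F : Set E → (Lp (Ell2 (Γ × ι)) 2 (H85.cdat ν hν).μ →L[ℂ] Lp (Ell2 (Γ × ι)) 2 (H85.cdat ν hν).μ),
      EFamX (baseL (H85.cdat ν hν).μ Γ ι) (Ri (H85.cdat ν hν) R) {A : Set E | MeasurableSet A} F := by
  have : Countable Λ := countable_of_discrete Λ
  obtain ⟨F, h1, h2, h3, h4, h5⟩ := exists_efx hR (fun v => hR.opNorm_le v) (H85.cdat ν hν)
    (Y := E) (H85.thet (Λ := Λ)) (fun g x w => H85.thet_act g x w)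
    (Ms := {A : Set E | MeasurableSet A}) (fun A hA w => H85.thet_meas w hA)
    (setAlg_borel (E := E)).univ_mem (setAlg_borel (E := E)).compl_mem
    (fun A hA v => (setAlg_borel (E := E)).smul_mem v A hA) (setAlg_borel (E := E)).union_mem
  refine ⟨F, h1, h2, h3, h4, ?_⟩
  rintro A hA a ⟨S, hS, rfl⟩
  exact h5 A hA S hS

theorem sharpData (hR : ARep t R) :
    SharpData t (massX (baseL (H85.cdat ν hν).μ Γ ι) (Ri (H85.cdat ν hν) R))
      (fun K : Set E => IsCompact K) (H261.PingT E) := by
  classical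
  have : Countable Λ := countable_of_discrete Λ
  have hT := trep (H85.cdat ν hν) hR
  have hint : ∀ (g : E) (F : Γ → ℝ),
      massX (baseL (H85.cdat ν hν).μ Γ ι) (Ri (H85.cdat ν hν) R) g F =
        ∫ x, massR R ((H85.cdat ν hν).c g x) F ∂(H85.cdat ν hν).μ := fun g F =>
    H156.mass_int (H85.cdat ν hν) hR g F (fun i => ept (H85.cdat ν hν).μ i) (fun i => ept_ae i)
  refine ⟨hT.pos, fun w => massX_one hT w, fun w F F' C h h' hh => massX_mono _ _ w F F' C h h' hh,
    fun w F F' C h h' => massX_add _ _ w F F' C h h', fun w F C c h => massX_smul _ _ w F C c h,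
    fun U z v hv χ hχ hu => massX_inv hT U z v hv χ hχ hu, fun K hK ε hε => ?_, ?_⟩
  · obtain ⟨F, C, hC, h⟩ := H156.unif_int (H85.cdat ν hν) hR K
      (fun ε hε => H85.coc_tight ν hν hK hε) hε
    refine ⟨F, C, hC, fun κ hκ κ' hκ' g S => ?_⟩
    rw [hint, hint]
    exact h κ hκ κ' hκ' g S
  · obtain ⟨F, hF⟩ := exists_efam Λ ν hν hR
    obtain ⟨A, hA⟩ := H983.pairF_field hT (setAlg_borel (E := E)) hF
    refine ⟨A, fun p u hu U z hz c hc h => hA p u ?_ U z hz c hc h⟩
    exact hu

end inst

/-- **[INST]** -/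
theorem sharpInst : H261.SharpInst := by
  intro E _ _ _ _ _ _ _ _ Λ _ _ _ ν _ hν Γ ι _ _ _ _ t R hR
  exact ⟨_, sharpData Λ ν hν hR⟩

end Vale.Agent.P092.H761
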