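import Vale.Agent.P092.H761.CoefInd
import Vale.Agent.P092.H515.NonEsc

/-!
P092 (helper761), Engine E, coefficient version of non-escape: only the first leg of a
representation in an amplification of `L(Γ × Q) = L(Γ) ⊗ L(Q)` is looked at.
-/

set_option linter.all false

open Filter Topology MeasureTheory

namespace Vale.Agent.P092.H761

open Vale.Agent.P092.H200 Vale.Agent.P092.H515
open Vale.Agent.P092.H538 (ind ind_pos ind_neg ind_nonneg abs_ind_le)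
open Vale.Agent.P092.H160 Vale.Agent.P092.H432 Vale.Agent.P092.H132
open Vale.Agent.P092.H701 (HChain)

/-- Non-escape for abstract mass functions, for a target in a product of two groups. -/
theorem non_escape_abs {Γ 𝔾 : Type} [Group Γ] [DecidableEq Γ] [Group 𝔾] {t : ℝ}
    {mass : 𝔾 → (Γ → ℝ) → ℝ} {Cpt : Set 𝔾 → Prop} {Ping : (p : ℕ) → (Fin p → 𝔾) → Prop}
    {m : ℕ} {b : Fin m → ℕ → 𝔾} {𝒦 : Fin m → Set 𝔾}
    (hd : SharpData t mass Cpt Ping) (hch : GChain Cpt Ping m b 𝒦) (hm : 0 < m)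
    {G₁ G₂ : Type} [Group G₁] [TopologicalSpace G₁] [Group G₂] [TopologicalSpace G₂] {r₁ r₂ : ℕ}
    (h₁ : Tgt G₁ r₁) (h₂ : Tgt G₂ r₂) (hrm : r₁ + r₂ ≤ m) (φ : Γ →* G₁ × G₂)
    (hφ : ∀ K : Set (G₁ × G₂), IsCompact K → {x | φ x ∈ K}.Finite) {ε : ℝ} (hε : 0 < ε) :
    ∃ (K₁ : Set G₁) (K₂ : Set G₂), IsCompact K₁ ∧ IsCompact K₂ ∧ ∀ N,
      t - ε ≤ mass (b ⟨0, hm⟩ N) (ind fun g => (φ g).1 ∈ K₁) +
        mass (b ⟨0, hm⟩ N) (ind fun g => (φ g).2 ∈ K₂) := by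
  classical
  obtain ⟨A, hA, hN⟩ := all_but_one hd hch hm (I := Bool)
    (r := fun b => cond b r₁ r₂) (by rw [Fintype.sum_bool]; exact hrm)
    (fun b A => cond b (∃ K : Set G₁, IsCompact K ∧ ∀ g ∈ A, (φ g).1 ∈ K)
      (∃ K : Set G₂, IsCompact K ∧ ∀ g ∈ A, (φ g).2 ∈ K)) (fun A hA => by
        obtain ⟨K, hK, h1⟩ := hA true
        obtain ⟨K', hK', h2⟩ := hA false
        exact (hφ _ (hK.prod hK')).subset fun g hg => ⟨h1 g (hg true), h2 g (hg false)⟩)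
    (fun b => by
      cases b
      · obtain ⟨J, hJ, gp, w, cl, hs⟩ := h₂
        refine ⟨J, hJ, fun j g => gp j (φ g).2, fun g => w (φ g).2, cl,
          hs.sys.comap ((MonoidHom.snd G₁ G₂).comp φ), fun R => ?_, fun R => ?_⟩
        · obtain ⟨R', hR⟩ := hs.comp R
          exact ⟨R', fun i j hij g hg => hR i j hij _ hg⟩
        · obtain ⟨K, hK, h1⟩ := hs.proper R
          exact ⟨{g | w (φ g).2 ≤ R}, ⟨K, hK, fun g hg => h1 _ hg⟩, fun g hg => hg⟩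
      · obtain ⟨J, hJ, gp, w, cl, hs⟩ := h₁
        refine ⟨J, hJ, fun j g => gp j (φ g).1, fun g => w (φ g).1, cl,
          hs.sys.comap ((MonoidHom.fst G₁ G₂).comp φ), fun R => ?_, fun R => ?_⟩
        · obtain ⟨R', hR⟩ := hs.comp R
          exact ⟨R', fun i j hij g hg => hR i j hij _ hg⟩
        · obtain ⟨K, hK, h1⟩ := hs.proper R
          exact ⟨{g | w (φ g).1 ≤ R}, ⟨K, hK, fun g hg => h1 _ hg⟩, fun g hg => hg⟩) hε
  obtain ⟨K₁, hK₁, hA₁⟩ := hA true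
  obtain ⟨K₂, hK₂, hA₂⟩ := hA false
  refine ⟨K₁, K₂, hK₁, hK₂, fun N => (hN N).trans ?_⟩
  rw [← hd.add _ _ _ 1 (fun g => abs_ind_le _ g) (fun g => abs_ind_le _ g)]
  refine hd.mono _ _ _ 2 (fun g => (abs_ind_le _ g).trans (by norm_num)) (fun g => ?_) fun g => ?_
  · refine (abs_add_le _ _).trans ?_
    have h1 := abs_ind_le (fun g : Γ => (φ g).1 ∈ K₁) g
    have h2 := abs_ind_le (fun g : Γ => (φ g).2 ∈ K₂) g
    linarith
  · by_cases hg : ∃ i : Bool, ∀ i', i' ≠ i → g ∈ A i'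
    · rw [ind_pos (P := fun g => ∃ i : Bool, ∀ i', i' ≠ i → g ∈ A i') hg]
      obtain ⟨i, hi⟩ := hg
      cases i
      · rw [ind_pos (P := fun g => (φ g).1 ∈ K₁) (hA₁ g (hi true (by simp)))]
        linarith [ind_nonneg (fun g : Γ => (φ g).2 ∈ K₂) g]
      · rw [ind_pos (P := fun g => (φ g).2 ∈ K₂) (hA₂ g (hi false (by simp)))]
        linarith [ind_nonneg (fun g : Γ => (φ g).1 ∈ K₁) g]
    · rw [ind_neg (P := fun g => ∃ i : Bool, ∀ i', i' ≠ i → g ∈ A i') hg]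
      linarith [ind_nonneg (fun g : Γ => (φ g).1 ∈ K₁) g, ind_nonneg (fun g : Γ => (φ g).2 ∈ K₂) g]

section top

variable {E : Type} [Group E] [TopologicalSpace E] [IsTopologicalGroup E] [LocallyCompactSpace E]
  [SecondCountableTopology E] [T2Space E] [MeasurableSpace E] [BorelSpace E]
  (Λ : Subgroup E) [DiscreteTopology Λ] [MeasurableSpace (E ⧸ Λ)] [BorelSpace (E ⧸ Λ)]
  (ν : Measure (E ⧸ Λ)) [IsProbabilityMeasure ν] (hν : ∀ g : E, ν.map (fun x => g • x) = ν)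
  {Γ Q ι : Type} [Group Γ] [Countable Γ] [Group Q] [Countable Q] [Fintype ι] {t : ℝ}
  {R : Λ → (Ell2 ((Γ × Q) × ι) →L[ℂ] Ell2 ((Γ × Q) × ι))}
  {E0 : Set Λ → (Ell2 ((Γ × Q) × ι) →L[ℂ] Ell2 ((Γ × Q) × ι))}
  {G₁ G₂ : Type} [Group G₁] [TopologicalSpace G₁] [Group G₂] [TopologicalSpace G₂] {r₁ r₂ m : ℕ}

include hν in
/-- **(S1) NON-ESCAPE, coefficient version.** -/
theorem non_escape_coef (hR : ARep t R) (hE : CovFam R E0)
    (hq : ∀ A (q : Q), E0 A * lx ((1 : Γ), q) = lx ((1 : Γ), q) * E0 A)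
    (C : HChain E m) (hm : 0 < m) (h₁ : Tgt G₁ r₁)
    (h₂ : Tgt G₂ r₂) (hrm : r₁ + r₂ ≤ m) (φ : Γ →* G₁ × G₂)
    (hφ : ∀ K : Set (G₁ × G₂), IsCompact K → {x | φ x ∈ K}.Finite) {ε : ℝ} (hε : 0 < ε) :
    ∃ (K₁ : Set G₁) (K₂ : Set G₂), IsCompact K₁ ∧ IsCompact K₂ ∧ ∀ N,
      t - ε ≤ (∫ x, massR R (H85.coc Λ (C.b ⟨0, hm⟩ N) x)
        (ind fun g : Γ × Q => (φ g.1).1 ∈ K₁) ∂ν) +
        ∫ x, massR R (H85.coc Λ (C.b ⟨0, hm⟩ N) x) (ind fun g : Γ × Q => (φ g.1).2 ∈ K₂) ∂ν := by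
  classical
  have hd := sharpCoef Λ ν hν hR hE hq
  have : Countable Λ := H790.countable_of_discrete Λ
  have hint : ∀ (g : E) (F : Γ × Q → ℝ),
      massX (H790.baseL (H85.cdat ν hν).μ (Γ × Q) ι) (H790.Ri (H85.cdat ν hν) R) g F =
        ∫ x, massR R (H85.coc Λ g x) F ∂ν := fun g F =>
    H156.mass_int (H85.cdat ν hν) hR g F (fun i => H790.ept (H85.cdat ν hν).μ i) (fun i => H790.ept_ae i)
  obtain ⟨K₁, K₂, h1, h2, h3⟩ := non_escape_abs hd (H261.gchain_of_hchain C) hm h₁ h₂ hrm φ hφ hε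
  refine ⟨K₁, K₂, h1, h2, fun N => ?_⟩
  have h4 := h3 N
  rw [ind_fst, ind_fst, hint, hint] at h4
  exact h4

include hν in
/-- **(S1)**, coefficient version, sequence form. -/
theorem non_escape_coef_seq (hR : ARep t R) (hE : CovFam R E0)
    (hq : ∀ A (q : Q), E0 A * lx ((1 : Γ), q) = lx ((1 : Γ), q) * E0 A)
    (C : HChain E m) (hm : 0 < m) (h₁ : Tgt G₁ r₁)
    (h₂ : Tgt G₂ r₂) (hrm : r₁ + r₂ ≤ m) (φ : Γ →* G₁ × G₂)
    (hφ : ∀ K : Set (G₁ × G₂), IsCompact K → {x | φ x ∈ K}.Finite) :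
    ∃ s : ℕ → ℕ, StrictMono s ∧
      ((∃ K₁ : Set G₁, IsCompact K₁ ∧ ∀ N, t / 3 ≤
        ∫ x, massR R (H85.coc Λ (C.b ⟨0, hm⟩ (s N)) x)
          (ind fun g : Γ × Q => (φ g.1).1 ∈ K₁) ∂ν) ∨
      (∃ K₂ : Set G₂, IsCompact K₂ ∧ ∀ N, t / 3 ≤
        ∫ x, massR R (H85.coc Λ (C.b ⟨0, hm⟩ (s N)) x)
          (ind fun g : Γ × Q => (φ g.1).2 ∈ K₂) ∂ν)) := by
  obtain ⟨K₁, K₂, h1, h2, h3⟩ := non_escape_coef Λ ν hν hR hE hq C hm h₁ h₂ hrm φ hφ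
    (ε := t / 3) (by linarith [hR.pos])
  have h4 : (∃ᶠ N in atTop, t / 3 ≤
        ∫ x, massR R (H85.coc Λ (C.b ⟨0, hm⟩ N) x) (ind fun g : Γ × Q => (φ g.1).1 ∈ K₁) ∂ν) ∨
      (∃ᶠ N in atTop, t / 3 ≤
        ∫ x, massR R (H85.coc Λ (C.b ⟨0, hm⟩ N) x) (ind fun g : Γ × Q => (φ g.1).2 ∈ K₂) ∂ν) := by
    rw [← frequently_or_distrib]
    refine Eventually.frequently (Eventually.of_forall fun N => ?_)
    by_contra hc
    push Not at hc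
    have := h3 N
    have := hR.pos
    linarith [hc.1, hc.2]
  rcases h4 with h4 | h4
  · obtain ⟨s, hs, h5⟩ := extraction_of_frequently_atTop h4
    exact ⟨s, hs, Or.inl ⟨K₁, h1, h5⟩⟩
  · obtain ⟨s, hs, h5⟩ := extraction_of_frequently_atTop h4
    exact ⟨s, hs, Or.inr ⟨K₂, h2, h5⟩⟩

end top

end Vale.Agent.P092.H761
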