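import Vale.Agent.P092.H761.CovReg
import Vale.Agent.P092.H761.NonEscC

/-!
P092 (helper761), Engine E for the comultiplication: non-escape for the first leg of a unitary
representation `V` of a lattice `Γ < G₁ × G₂` on `ℓ²(Γ × Γ)` which commutes with the right
translations and is coarse through a unitary `T`.
-/

set_option linter.all false

open scoped InnerProductSpace
open Filter Topology MeasureTheory ContinuousLinearMap

namespace Vale.Agent.P092.H761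

open Vale.Agent.P092.H200 Vale.Agent.P092.H515
open Vale.Agent.P092.H160 Vale.Agent.P092.H432 Vale.Agent.P092.H132 Vale.Agent.P092.H553
open Vale.Agent.P092.H701 (HChain)

/-- inversion on `ℓ²(G)` -/
noncomputable def ivo (G : Type) [Group G] : Ell2 G →L[ℂ] Ell2 G := rei (Equiv.inv G)

section coarse

variable {A B Γ : Type} [Group A] [Group B] [Group Γ]

/-- the coarse structure: `T` turns `1 ⊗ λ(b)` into `λ(b) ⊗ 1` and the inverted `V g` into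
`1 ⊗ ρ(g)` -/
structure Coarse (V : Γ → (Ell2 (A × B) →L[ℂ] Ell2 (A × B)))
    (T : Ell2 (A × B) →L[ℂ] Ell2 (B × Γ)) : Prop where
  left : ∀ ξ, adjoint T (T ξ) = ξ
  right : ∀ ξ, T (adjoint T ξ) = ξ
  lam : ∀ (q : B) ξ, T (lam (1, q) ξ) = lam (q, 1) (T ξ)
  rho : ∀ (g : Γ) ξ, T (ivo _ (V g (ivo _ ξ))) = rho (1, g) (T ξ)

variable {V : Γ → (Ell2 (A × B) →L[ℂ] Ell2 (A × B))} {T : Ell2 (A × B) →L[ℂ] Ell2 (B × Γ)}

/-- `(x, ()) ↦ x` -/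
def pu (G : Type) : G × Unit ≃ G := Equiv.prodPUnit G

/-- the family of operators attached to a coarse structure -/
noncomputable def ET (T : Ell2 (A × B) →L[ℂ] Ell2 (B × Γ)) (S : Set Γ) :
    Ell2 ((A × B) × Unit) →L[ℂ] Ell2 ((A × B) × Unit) :=
  (rei (pu (A × B)).symm ∘L adjoint T) ∘L mo (iA (fun x : B × Γ => x.2) S) ∘L
    adjoint (rei (pu (A × B)).symm ∘L adjoint T)

theorem adj_Z : adjoint (rei (pu (A × B)).symm ∘L adjoint T) = T ∘L rei (pu (A × B)) := by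
  rw [adjoint_comp, adjoint_adjoint, adjoint_rei, Equiv.symm_symm]

theorem rei_pu (ξ : Ell2 (A × B)) : rei (pu (A × B)) (rei (pu (A × B)).symm ξ) = ξ := by
  apply ext_inner_dl
  intro x
  rw [rei_apply, rei_apply, Equiv.symm_symm, Equiv.apply_symm_apply]

theorem sg_iv (ξ : Ell2 (A × B)) :
    rei (sg (A × B)) ξ = rei (pu (A × B)).symm (ivo _ ξ) := by
  apply ext_inner_dl
  rintro ⟨x, ⟨⟩⟩
  rfl

theorem sg_symm_iv (ξ : Ell2 ((A × B) × Unit)) :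
    rei (sg (A × B)).symm ξ = ivo _ (rei (pu (A × B)) ξ) := by
  apply ext_inner_dl
  intro x
  rfl

theorem covFam_coarse (h : Coarse V T) : CovFam (fun g => cj (V g)) (ET T) := by
  have h0 : CovFam (fun g : Γ => (rei (Equiv.mulRight ((1 : B), g)⁻¹) :
      Ell2 (B × Γ) →L[ℂ] Ell2 (B × Γ))) (fun S => mo (iA (fun x : B × Γ => x.2) S)) := by
    refine covFam_rei (fun x : B × Γ => x.2) (fun g => Equiv.mulRight ((1 : B), g)⁻¹) ?_ ?_ ?_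
    · ext x <;> simp
    · intro v
      ext x <;> simp
    · intro v x
      rfl
  refine covFam_conj h0 (rei (pu (A × B)).symm ∘L adjoint T) (fun ξ => ?_) (fun v => ?_)
  · rw [adj_Z]
    change T (rei (pu (A × B)) (rei (pu (A × B)).symm (adjoint T ξ))) = ξ
    rw [rei_pu, h.right]
  · refine ContinuousLinearMap.ext fun ξ => ?_
    rw [adj_Z]
    change rei (sg (A × B)) (V v (rei (sg (A × B)).symm ξ)) =
      rei (pu (A × B)).symm (adjoint T (H160.rho (1, v) (T (rei (pu (A × B)) ξ))))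
    rw [sg_iv, sg_symm_iv, ← h.rho, h.left]

theorem et_lx (h : Coarse V T) (S : Set Γ) (q : B) :
    ET T S * lx ((1 : A), q) = lx ((1 : A), q) * ET T S := by
  have e1 : ∀ ξ : Ell2 ((A × B) × Unit), rei (pu (A × B)) (lx ((1 : A), q) ξ) =
      H160.lam (1, q) (rei (pu (A × B)) ξ) := fun ξ => by
    apply ext_inner_dl
    intro x
    rfl
  have e2 : ∀ ξ : Ell2 (A × B), rei (pu (A × B)).symm (H160.lam (1, q) ξ) =
      lx ((1 : A), q) (rei (pu (A × B)).symm ξ) := fun ξ => by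
    apply ext_inner_dl
    rintro ⟨x, ⟨⟩⟩
    rfl
  have e3 : ∀ ξ : Ell2 (B × Γ), adjoint T (H160.lam (q, 1) ξ) =
      H160.lam (1, q) (adjoint T ξ) := fun ξ => by
    have h1 := h.lam q (adjoint T ξ)
    rw [h.right] at h1
    rw [← h1, h.left]
  have e4 : ∀ ξ : Ell2 (B × Γ), mo (iA (fun x : B × Γ => x.2) S) (H160.lam (q, 1) ξ) =
      H160.lam (q, 1) (mo (iA (fun x : B × Γ => x.2) S) ξ) := fun ξ => by
    apply ext_inner_dl
    rintro ⟨x, y⟩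
    rw [iA_apply, lam_apply, lam_apply, iA_apply]
    have e : iA (fun x : B × Γ => x.2) S ((q, (1 : Γ))⁻¹ * (x, y)) =
        iA (fun x : B × Γ => x.2) S (x, y) := by
      have e1 : ((q, (1 : Γ))⁻¹ * (x, y)).2 = y := by simp
      exact congrArg (iA (fun y : Γ => y) S) e1
    rw [e]
  refine ContinuousLinearMap.ext fun ξ => ?_
  change ET T S (lx ((1 : A), q) ξ) = lx ((1 : A), q) (ET T S ξ)
  have e5 : ∀ ζ, ET T S ζ = rei (pu (A × B)).symm (adjoint T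
      (mo (iA (fun x : B × Γ => x.2) S) (T (rei (pu (A × B)) ζ)))) := fun ζ => by
    rw [ET, adj_Z]
    rfl
  rw [e5, e5, e1, h.lam, e4, e3, e2]

end coarse

section main

variable {G₁ G₂ : Type} [Group G₁] [TopologicalSpace G₁] [IsTopologicalGroup G₁]
  [LocallyCompactSpace G₁] [SecondCountableTopology G₁] [T2Space G₁] [MeasurableSpace G₁]
  [BorelSpace G₁] [Group G₂] [TopologicalSpace G₂] [IsTopologicalGroup G₂]
  [LocallyCompactSpace G₂] [SecondCountableTopology G₂] [T2Space G₂] [MeasurableSpace G₂]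
  [BorelSpace G₂] {r₁ r₂ m : ℕ}
  (Γ : Subgroup (G₁ × G₂)) [DiscreteTopology Γ] [MeasurableSpace ((G₁ × G₂) ⧸ Γ)]
  [BorelSpace ((G₁ × G₂) ⧸ Γ)] (ν : Measure ((G₁ × G₂) ⧸ Γ)) [IsProbabilityMeasure ν]
  (hν : ∀ g : G₁ × G₂, ν.map (fun x => g • x) = ν)
  {Q : Type} [Group Q] [Countable Q]
  {V : Γ → (Ell2 (Γ × Q) →L[ℂ] Ell2 (Γ × Q))} {T : Ell2 (Γ × Q) →L[ℂ] Ell2 (Q × Γ)}

/-- The mass of the first leg of `V v` on a set. -/
noncomputable def mass1 (V : Γ → (Ell2 (Γ × Q) →L[ℂ] Ell2 (Γ × Q))) (v : Γ)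
    (P : Γ → Prop) : ℝ :=
  ∑' x : Γ × Q, H538.ind (fun x : Γ × Q => P x.1) x * ‖V v (dl 1) x‖ ^ 2

theorem massR_mass1 (v : Γ) (P : Γ → Prop) :
    massR (fun v => cj (V v)) v (H538.ind fun x : Γ × Q => P x.1) = mass1 Γ V v fun g => P g⁻¹ := by
  rw [massR_cj_tsum V v (H538.abs_ind_le _), mass1]
  refine tsum_congr fun x => ?_
  congr 1

include hν in
/-- **[B-S1]** for a chain in `G₁ × G₂`. -/
theorem s1_gen (h1 : V 1 = 1) (hmul : ∀ v w, V (v * w) = V v * V w)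
    (hadj : ∀ v, adjoint (V v) = V v⁻¹) (hrho : ∀ v s, V v * rho s = rho s * V v)
    (htr : ∀ v, v ≠ 1 → ⟪(dl 1 : Ell2 (Γ × Q)), V v (dl 1)⟫_ℂ = 0) (hT : Coarse V T)
    (C : HChain (G₁ × G₂) m) (hm : 0 < m) (h₁ : Tgt G₁ r₁) (h₂ : Tgt G₂ r₂) (hrm : r₁ + r₂ ≤ m) :
    ∃ s : ℕ → ℕ, StrictMono s ∧
      ((∃ K : Set G₁, IsCompact K ∧ ∀ N, 1 / 3 ≤
        ∫ y, mass1 Γ V (H85.coc Γ (C.b ⟨0, hm⟩ (s N)) y) (fun g => (g : G₁ × G₂).1 ∈ K) ∂ν) ∨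
      (∃ K : Set G₂, IsCompact K ∧ ∀ N, 1 / 3 ≤
        ∫ y, mass1 Γ V (H85.coc Γ (C.b ⟨0, hm⟩ (s N)) y) (fun g => (g : G₁ × G₂).2 ∈ K) ∂ν)) := by
  have : Countable Γ := H790.countable_of_discrete Γ
  have hR := arep_cj h1 hmul hadj hrho htr
  have hφ : ∀ K : Set (G₁ × G₂), IsCompact K → {x : Γ | Γ.subtype x ∈ K}.Finite := fun K hK =>
    H790.finite_inter Γ hK
  obtain ⟨s, hs, h⟩ := non_escape_coef_seq Γ ν hν hR (covFam_coarse hT)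
    (fun A q => et_lx hT A q) C hm h₁ h₂ hrm Γ.subtype hφ
  refine ⟨s, hs, ?_⟩
  rcases h with ⟨K, hK, h⟩ | ⟨K, hK, h⟩
  · refine Or.inl ⟨K⁻¹, hK.inv, fun N => (h N).trans_eq ?_⟩
    congr 1
    funext y
    rw [massR_mass1 Γ _ fun g : Γ => (Γ.subtype g).1 ∈ K]
    congr 1
  · refine Or.inr ⟨K⁻¹, hK.inv, fun N => (h N).trans_eq ?_⟩
    congr 1
    funext y
    rw [massR_mass1 Γ _ fun g : Γ => (Γ.subtype g).2 ∈ K]
    congr 1

include hν in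
/-- **[B-S1]** along the first factor. -/
theorem s1_fst (h1 : V 1 = 1) (hmul : ∀ v w, V (v * w) = V v * V w)
    (hadj : ∀ v, adjoint (V v) = V v⁻¹) (hrho : ∀ v s, V v * rho s = rho s * V v)
    (htr : ∀ v, v ≠ 1 → ⟪(dl 1 : Ell2 (Γ × Q)), V v (dl 1)⟫_ℂ = 0) (hT : Coarse V T)
    (C₁ : HChain G₁ r₁) (C₂ : HChain G₂ r₂) (hr : 0 < r₁) (h₁ : Tgt G₁ r₁) (h₂ : Tgt G₂ r₂) :
    ∃ s : ℕ → ℕ, StrictMono s ∧
      ((∃ K : Set G₁, IsCompact K ∧ ∀ N, 1 / 3 ≤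
        ∫ y, mass1 Γ V (H85.coc Γ (C₁.b ⟨0, hr⟩ (s N), 1) y) (fun g => (g : G₁ × G₂).1 ∈ K) ∂ν) ∨
      (∃ K : Set G₂, IsCompact K ∧ ∀ N, 1 / 3 ≤
        ∫ y, mass1 Γ V (H85.coc Γ (C₁.b ⟨0, hr⟩ (s N), 1) y) (fun g => (g : G₁ × G₂).2 ∈ K) ∂ν)) := by
  obtain ⟨s, hs, h⟩ := s1_gen Γ ν hν h1 hmul hadj hrho htr hT (C₁.prod C₂) (by omega) h₁ h₂ le_rfl
  simp only [HChain.prod_zero C₁ C₂ hr] at h
  exact ⟨s, hs, h⟩

include hν in
/-- **[B-S1]** along the second factor. -/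
theorem s1_snd (h1 : V 1 = 1) (hmul : ∀ v w, V (v * w) = V v * V w)
    (hadj : ∀ v, adjoint (V v) = V v⁻¹) (hrho : ∀ v s, V v * rho s = rho s * V v)
    (htr : ∀ v, v ≠ 1 → ⟪(dl 1 : Ell2 (Γ × Q)), V v (dl 1)⟫_ℂ = 0) (hT : Coarse V T)
    (C₁ : HChain G₁ r₁) (C₂ : HChain G₂ r₂) (hr : 0 < r₂) (h₁ : Tgt G₁ r₁) (h₂ : Tgt G₂ r₂) :
    ∃ s : ℕ → ℕ, StrictMono s ∧
      ((∃ K : Set G₁, IsCompact K ∧ ∀ N, 1 / 3 ≤
        ∫ y, mass1 Γ V (H85.coc Γ (1, C₂.b ⟨0, hr⟩ (s N)) y) (fun g => (g : G₁ × G₂).1 ∈ K) ∂ν) ∨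
      (∃ K : Set G₂, IsCompact K ∧ ∀ N, 1 / 3 ≤
        ∫ y, mass1 Γ V (H85.coc Γ (1, C₂.b ⟨0, hr⟩ (s N)) y) (fun g => (g : G₁ × G₂).2 ∈ K) ∂ν)) := by
  obtain ⟨s, hs, h⟩ := s1_gen Γ ν hν h1 hmul hadj hrho htr hT (HChain.prodSnd C₁ C₂) (by omega)
    h₁ h₂ (by omega)
  simp only [HChain.prodSnd_zero C₁ C₂ hr] at h
  exact ⟨s, hs, h⟩

end main

end Vale.Agent.P092.H761
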