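import Vale.Agent.P092.H931.DeltaR
import Vale.Agent.P092.H761.S1Delta

/-!
P092 (helper761): the comultiplication `V hβ` of helper931 is coarse in the sense of `S1Delta`, and
the non-escape theorem for its first leg.
-/

set_option linter.all false

open scoped InnerProductSpace
open Filter Topology MeasureTheory ContinuousLinearMap

namespace Vale.Agent.P092.H761

open Vale.Agent.P092.H200 Vale.Agent.P092.H515
open Vale.Agent.P092.H160 Vale.Agent.P092.H432 Vale.Agent.P092.H132 Vale.Agent.P092.H553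
open Vale.Agent.P092.H701 (HChain)

section inst

variable {Γ Λ : Type} [Group Γ] [Group Λ] {β : Λ →* (Ell2 Γ →L[ℂ] Ell2 Γ)}

/-- the coarse unitary of helper931 in the form of `Coarse` -/
noncomputable def TD (hβ : Frame β) : Ell2 (Γ × Γ) →L[ℂ] Ell2 (Γ × Γ) :=
  rei (Equiv.prodComm Γ Γ) * adjoint (H931.Z hβ)

theorem ivo_eq (G : Type) [Group G] : ivo G = H885.iv G := rfl

theorem adjoint_TD (hβ : Frame β) :
    adjoint (TD hβ) = H931.Z hβ * rei (Equiv.prodComm Γ Γ) := by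
  rw [TD, ← star_eq_adjoint, star_mul, star_eq_adjoint, star_eq_adjoint, adjoint_adjoint,
    adjoint_rei]
  rfl

theorem rei_comm_mul : (rei (Equiv.prodComm Γ Γ) * rei (Equiv.prodComm Γ Γ) :
    Ell2 (Γ × Γ) →L[ℂ] Ell2 (Γ × Γ)) = 1 := rfl

theorem flip_lam (a b : Γ) : (rei (Equiv.prodComm Γ Γ) * lam (a, b) :
    Ell2 (Γ × Γ) →L[ℂ] Ell2 (Γ × Γ)) = lam (b, a) * rei (Equiv.prodComm Γ Γ) := by
  apply op_ext
  rintro ⟨x, y⟩
  change rei (Equiv.prodComm Γ Γ) (lam (a, b) (dl (x, y))) =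
    lam (b, a) (rei (Equiv.prodComm Γ Γ) (dl (x, y)))
  rw [lam_dl, rei_dl, rei_dl, lam_dl]
  rfl

theorem flip_rho (a b : Γ) : (rei (Equiv.prodComm Γ Γ) * rho (a, b) :
    Ell2 (Γ × Γ) →L[ℂ] Ell2 (Γ × Γ)) = rho (b, a) * rei (Equiv.prodComm Γ Γ) := by
  apply op_ext
  rintro ⟨x, y⟩
  change rei (Equiv.prodComm Γ Γ) (rho (a, b) (dl (x, y))) =
    rho (b, a) (rei (Equiv.prodComm Γ Γ) (dl (x, y)))
  rw [rho_dl, rei_dl, rei_dl, rho_dl]
  rfl

/-- `V hβ` is coarse. -/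
theorem coarse_V (hβ : Frame β) : Coarse (fun g => H931.V hβ g) (TD hβ) where
  left ξ := by
    have h : adjoint (TD hβ) * TD hβ = 1 := by
      have e : H931.Z hβ * rei (Equiv.prodComm Γ Γ) * (rei (Equiv.prodComm Γ Γ) *
          adjoint (H931.Z hβ)) = H931.Z hβ * (rei (Equiv.prodComm Γ Γ) *
          rei (Equiv.prodComm Γ Γ)) * adjoint (H931.Z hβ) := by simp only [mul_assoc]
      rw [adjoint_TD, TD, e, rei_comm_mul, mul_one, H931.Z_adjZ]
    exact congrArg (fun S : Ell2 (Γ × Γ) →L[ℂ] Ell2 (Γ × Γ) => S ξ) h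
  right ξ := by
    have h : TD hβ * adjoint (TD hβ) = 1 := by
      have e : rei (Equiv.prodComm Γ Γ) * adjoint (H931.Z hβ) * (H931.Z hβ *
          rei (Equiv.prodComm Γ Γ)) = rei (Equiv.prodComm Γ Γ) * (adjoint (H931.Z hβ) *
          H931.Z hβ) * rei (Equiv.prodComm Γ Γ) := by simp only [mul_assoc]
      rw [adjoint_TD, TD, e, H931.adjZ_Z, mul_one, rei_comm_mul]
    exact congrArg (fun S : Ell2 (Γ × Γ) →L[ℂ] Ell2 (Γ × Γ) => S ξ) h
  lam q ξ := by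
    have h0 : adjoint (H931.Z hβ) * H160.lam ((1 : Γ), q) =
        H160.lam ((1 : Γ), q) * adjoint (H931.Z hβ) := by
      have h1 := H931.Z_lam hβ q
      calc adjoint (H931.Z hβ) * H160.lam ((1 : Γ), q)
          = adjoint (H931.Z hβ) * H160.lam ((1 : Γ), q) * (H931.Z hβ * adjoint (H931.Z hβ)) := by
            rw [H931.Z_adjZ, mul_one]
        _ = adjoint (H931.Z hβ) * (H160.lam ((1 : Γ), q) * H931.Z hβ) * adjoint (H931.Z hβ) := by
            simp only [mul_assoc]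
        _ = adjoint (H931.Z hβ) * H931.Z hβ * H160.lam ((1 : Γ), q) * adjoint (H931.Z hβ) := by
            rw [← h1]; simp only [mul_assoc]
        _ = _ := by rw [H931.adjZ_Z, one_mul]
    have h : TD hβ * H160.lam ((1 : Γ), q) = H160.lam (q, (1 : Γ)) * TD hβ := by
      rw [TD, mul_assoc, h0, ← mul_assoc, flip_lam, mul_assoc]
    exact congrArg (fun S : Ell2 (Γ × Γ) →L[ℂ] Ell2 (Γ × Γ) => S ξ) h
  rho g ξ := by
    have h0 : adjoint (H931.Z hβ) * H931.R0 hβ g = H160.rho (g, (1 : Γ)) * adjoint (H931.Z hβ) := by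
      rw [H931.R0_eq, ← mul_assoc, ← mul_assoc, H931.adjZ_Z, one_mul]
    have h : TD hβ * H931.R0 hβ g = H160.rho ((1 : Γ), g) * TD hβ := by
      rw [TD, mul_assoc, h0, ← mul_assoc, flip_rho, mul_assoc]
    exact congrArg (fun S : Ell2 (Γ × Γ) →L[ℂ] Ell2 (Γ × Γ) => S ξ) h

end inst

section main

variable {G₁ G₂ : Type} [Group G₁] [TopologicalSpace G₁] [IsTopologicalGroup G₁]
  [LocallyCompactSpace G₁] [SecondCountableTopology G₁] [T2Space G₁] [MeasurableSpace G₁]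
  [BorelSpace G₁] [Group G₂] [TopologicalSpace G₂] [IsTopologicalGroup G₂]
  [LocallyCompactSpace G₂] [SecondCountableTopology G₂] [T2Space G₂] [MeasurableSpace G₂]
  [BorelSpace G₂] {r₁ r₂ m : ℕ}
  (Γ : Subgroup (G₁ × G₂)) [DiscreteTopology Γ] [MeasurableSpace ((G₁ × G₂) ⧸ Γ)]
  [BorelSpace ((G₁ × G₂) ⧸ Γ)] (ν : Measure ((G₁ × G₂) ⧸ Γ)) [IsProbabilityMeasure ν]
  (hν : ∀ g : G₁ × G₂, ν.map (fun x => g • x) = ν)
  {Λ : Type} [Group Λ] {β : Λ →* (Ell2 Γ →L[ℂ] Ell2 Γ)}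

include hν in
/-- **[B-S1]** for the comultiplication, along the first factor. -/
theorem s1_delta_fst (hβ : Frame β) (C₁ : HChain G₁ r₁) (C₂ : HChain G₂ r₂) (hr : 0 < r₁)
    (h₁ : Tgt G₁ r₁) (h₂ : Tgt G₂ r₂) :
    ∃ s : ℕ → ℕ, StrictMono s ∧
      ((∃ K : Set G₁, IsCompact K ∧ ∀ N, 1 / 3 ≤
        ∫ y, mass1 Γ (fun g => H931.V hβ g) (H85.coc Γ (C₁.b ⟨0, hr⟩ (s N), 1) y)
          (fun g => (g : G₁ × G₂).1 ∈ K) ∂ν) ∨
      (∃ K : Set G₂, IsCompact K ∧ ∀ N, 1 / 3 ≤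
        ∫ y, mass1 Γ (fun g => H931.V hβ g) (H85.coc Γ (C₁.b ⟨0, hr⟩ (s N), 1) y)
          (fun g => (g : G₁ × G₂).2 ∈ K) ∂ν)) := by
  have : Countable Γ := H790.countable_of_discrete Γ
  exact s1_fst Γ ν hν (map_one _) (fun v w => map_mul _ v w) (fun v => H931.V_adj hβ v)
    (fun v s => H931.V_rho hβ v s) (fun v hv => H931.inner_V hβ v hv) (coarse_V hβ) C₁ C₂ hr h₁ h₂

include hν in
/-- **[B-S1]** for the comultiplication, along the second factor. -/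
theorem s1_delta_snd (hβ : Frame β) (C₁ : HChain G₁ r₁) (C₂ : HChain G₂ r₂) (hr : 0 < r₂)
    (h₁ : Tgt G₁ r₁) (h₂ : Tgt G₂ r₂) :
    ∃ s : ℕ → ℕ, StrictMono s ∧
      ((∃ K : Set G₁, IsCompact K ∧ ∀ N, 1 / 3 ≤
        ∫ y, mass1 Γ (fun g => H931.V hβ g) (H85.coc Γ (1, C₂.b ⟨0, hr⟩ (s N)) y)
          (fun g => (g : G₁ × G₂).1 ∈ K) ∂ν) ∨
      (∃ K : Set G₂, IsCompact K ∧ ∀ N, 1 / 3 ≤
        ∫ y, mass1 Γ (fun g => H931.V hβ g) (H85.coc Γ (1, C₂.b ⟨0, hr⟩ (s N)) y)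
          (fun g => (g : G₁ × G₂).2 ∈ K) ∂ν)) := by
  have : Countable Γ := H790.countable_of_discrete Γ
  exact s1_snd Γ ν hν (map_one _) (fun v w => map_mul _ v w) (fun v => H931.V_adj hβ v)
    (fun v s => H931.V_rho hβ v s) (fun v hv => H931.inner_V hβ v hv) (coarse_V hβ) C₁ C₂ hr h₁ h₂

end main

end Vale.Agent.P092.H761
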