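import Vale.Agent.P092.H761.GlueT
import Vale.Agent.P092.H655.Tor
import Vale.Agent.P092.H515.LatSl
import Vale.Agent.P092.H933.TgtLoc
import Vale.Agent.P092.H793.KapSL

/-!
P092 (helper761), the block [FIN] for two factors and all amplifications.
-/

set_option linter.all false

open scoped InnerProductSpace ENNReal
open Set Filter Topology MeasureTheory ContinuousLinearMap

namespace Vale.Agent.P092.H761

open Vale.Agent.P092.H85 Vale.Agent.P092.H160 Vale.Agent.P092.H553 Vale.Agent.P092.H103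

/-- the two orders of the frame index -/
theorem pf_of_tri {ι Γ ℋ : Type} [Fintype ι] [Group Γ] [NormedAddCommGroup ℋ]
    [InnerProductSpace ℂ ℋ] [CompleteSpace ℋ] {V R₁ R₂ : Γ →* (ℋ →L[ℂ] ℋ)} {ξ : ι → ℋ}
    (h : SR.Tri V R₁ R₂ ξ) : PF R₁ R₂ ξ := fun η =>
  ((Equiv.prodComm (Γ × Γ) ι).hasSum_iff
    (f := fun p : ι × Γ × Γ => ‖⟪R₁ p.2.1 (R₂ p.2.2 (ξ p.1)), η⟫_ℂ‖ ^ 2)).2 (h.frame η)

section gam

variable {G₁ G₂ : Type} [Group G₁] [TopologicalSpace G₁] [IsTopologicalGroup G₁]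
  [LocallyCompactSpace G₁] [SecondCountableTopology G₁] [T2Space G₁] [MeasurableSpace G₁]
  [BorelSpace G₁] [Group G₂] [TopologicalSpace G₂] [IsTopologicalGroup G₂]
  [LocallyCompactSpace G₂] [SecondCountableTopology G₂] [T2Space G₂] [MeasurableSpace G₂]
  [BorelSpace G₂] {r₁ r₂ : ℕ}
  {Γ : Subgroup (G₁ × G₂)} [DiscreteTopology Γ] [MeasurableSpace ((G₁ × G₂) ⧸ Γ)]
  [BorelSpace ((G₁ × G₂) ⧸ Γ)] {ν : Measure ((G₁ × G₂) ⧸ Γ)} [IsProbabilityMeasure ν]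
  (hν : ∀ g : G₁ × G₂, ν.map (fun x => g • x) = ν)
  {ι ι' ℋ : Type} [Fintype ι] [Fintype ι'] [NormedAddCommGroup ℋ] [InnerProductSpace ℂ ℋ]
  [CompleteSpace ℋ] {V R₁ R₂ : Γ →* (ℋ →L[ℂ] ℋ)} {ξ : ι → ℋ} {ξ' : ι' → ℋ}

/-- the first projection -/
abbrev q1 (Γ : Subgroup (G₁ × G₂)) : Γ →* G₁ := (MonoidHom.fst G₁ G₂).comp Γ.subtype

/-- the second projection -/
abbrev q2 (Γ : Subgroup (G₁ × G₂)) : Γ →* G₂ := (MonoidHom.snd G₁ G₂).comp Γ.subtype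

include hν in
/-- **[FIN-T]** for abstract factors. -/
theorem fin_t_gen (hT : SR.Tri V R₁ R₂ ξ) (h' : PF V R₂ ξ')
    (htr : ∀ v, v ≠ 1 → ∑ k, ⟪ξ k, V v (ξ k)⟫_ℂ = 0)
    (C₁ : H701.HChain G₁ r₁) (C₂ : H701.HChain G₂ r₂)
    (hr₁ : 0 < r₁) (hr₂ : 0 < r₂) (h₁ : H515.Tgt G₁ r₁) (h₂ : H515.Tgt G₂ r₂)
    (hb₁ : Tendsto (C₁.b ⟨0, hr₁⟩) atTop (cocompact G₁))
    (hb₂ : Tendsto (C₂.b ⟨0, hr₂⟩) atTop (cocompact G₂))
    (ho₁ : CptOpenBasis G₁) (ho₂ : CptOpenBasis G₂) (hw₁ : WFix G₁) (hw₂ : WFix G₂) :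
    (SR.FinN (q1 Γ) (q1 Γ) V R₁ (Set.range R₂) ∨ SR.FinN (q1 Γ) (q2 Γ) V R₁ (Set.range R₂)) ∧
    (SR.FinN (q2 Γ) (q1 Γ) V R₁ (Set.range R₂) ∨ SR.FinN (q2 Γ) (q2 Γ) V R₁ (Set.range R₂)) := by
  haveI : Countable Γ := H790.countable_of_discrete Γ
  have h := pf_of_tri hT
  have hφ : ∀ K : Set (G₁ × G₂), IsCompact K → {x : Γ | Γ.subtype x ∈ K}.Finite := fun K hK =>
    H790.finite_inter Γ hK
  constructor
  · obtain ⟨s, c, hs, hc, h3⟩ := eng_t_seq Γ ν hν h h' hT.comm₁₂ hT.adj₁ hT.adj₂ hT.adjV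
      hT.comm₁ hT.comm₂ hT.ne htr (H515.HChain.prodSnd C₁ C₂) (by omega) h₁ h₂ (by omega)
      Γ.subtype hφ
    simp only [H515.HChain.prodSnd_zero C₁ C₂ hr₂] at h3
    have hb : Tendsto (fun N => C₂.b ⟨0, hr₂⟩ (s N)) atTop (cocompact G₂) :=
      hb₂.comp hs.tendsto_atTop
    rcases h3 with ⟨C, hC, h3⟩ | ⟨C, hC, h3⟩
    · exact Or.inl (finN_of_massT (Ga := G₁) (Gb := G₂) hν h hT.adjV hT.adj₁ hT.adj₂ hT.comm₁₂
        hT.comm₁ hT.comm₂ hT.ne ho₁ hw₂ ho₁ (MulEquiv.refl (G₁ × G₂)) continuous_id (q1 Γ) hC hb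
        hc h3)
    · exact Or.inr (finN_of_massT (Ga := G₁) (Gb := G₂) hν h hT.adjV hT.adj₁ hT.adj₂ hT.comm₁₂
        hT.comm₁ hT.comm₂ hT.ne ho₁ hw₂ ho₂ (MulEquiv.refl (G₁ × G₂)) continuous_id (q2 Γ) hC hb
        hc h3)
  · obtain ⟨s, c, hs, hc, h3⟩ := eng_t_seq Γ ν hν h h' hT.comm₁₂ hT.adj₁ hT.adj₂ hT.adjV
      hT.comm₁ hT.comm₂ hT.ne htr (C₁.prod C₂) (by omega) h₁ h₂ (by omega)
      Γ.subtype hφ
    simp only [H515.HChain.prod_zero C₁ C₂ hr₁] at h3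
    have hb : Tendsto (fun N => C₁.b ⟨0, hr₁⟩ (s N)) atTop (cocompact G₁) :=
      hb₁.comp hs.tendsto_atTop
    rcases h3 with ⟨C, hC, h3⟩ | ⟨C, hC, h3⟩
    · exact Or.inl (finN_of_massT (Ga := G₂) (Gb := G₁) hν h hT.adjV hT.adj₁ hT.adj₂ hT.comm₁₂
        hT.comm₁ hT.comm₂ hT.ne ho₂ hw₁ ho₁ (MulEquiv.prodComm (M := G₂) (N := G₁))
        continuous_swap (q1 Γ) hC hb hc h3)
    · exact Or.inr (finN_of_massT (Ga := G₂) (Gb := G₁) hν h hT.adjV hT.adj₁ hT.adj₂ hT.comm₁₂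
        hT.comm₁ hT.comm₂ hT.ne ho₂ hw₁ ho₂ (MulEquiv.prodComm (M := G₂) (N := G₁))
        continuous_swap (q2 Γ) hC hb hc h3)

end gam

theorem cptOpen_sl' {N : ℕ} {k : Type} [NontriviallyNormedField k] [IsUltrametricDist k]
    [ProperSpace k] : CptOpenBasis (Matrix.SpecialLinearGroup (Fin N) k) := by
  intro U hU
  obtain ⟨K, hK, hKU⟩ := H793.basis_sl U hU
  exact ⟨K, hK.2, hK.1, hKU⟩

/-- **[FIN-T]** for lattices in `SL_{n₁}(k₁) × SL_{n₂}(k₂)`, for all models. -/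
theorem fin_t (n₁ n₂ : ℕ) (k₁ k₂ : Type) [NontriviallyNormedField k₁] [NontriviallyNormedField k₂]
    [IsUltrametricDist k₁] [IsUltrametricDist k₂] [ProperSpace k₁] [ProperSpace k₂]
    (Γ : Subgroup (Matrix.SpecialLinearGroup (Fin n₁) k₁ × Matrix.SpecialLinearGroup (Fin n₂) k₂))
    (hn₁ : 2 ≤ n₁) (hn₂ : 2 ≤ n₂) (hL : H515.St.IsLattice Γ)
    {ι ι' ℋ : Type} [Fintype ι] [Fintype ι'] [NormedAddCommGroup ℋ] [InnerProductSpace ℂ ℋ]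
    [CompleteSpace ℋ] {V R₁ R₂ : Γ →* (ℋ →L[ℂ] ℋ)} {ξ : ι → ℋ} {ξ' : ι' → ℋ}
    (hT : SR.Tri V R₁ R₂ ξ) (hT' : SR.Tri R₁ V R₂ ξ')
    (htr : ∀ v, v ≠ 1 → ∑ k, ⟪ξ k, V v (ξ k)⟫_ℂ = 0) :
    (SR.FinN (SR.pj₁ Γ) (SR.pj₁ Γ) V R₁ (Set.range R₂) ∨
      SR.FinN (SR.pj₁ Γ) (SR.pj₂ Γ) V R₁ (Set.range R₂)) ∧
    (SR.FinN (SR.pj₂ Γ) (SR.pj₁ Γ) V R₁ (Set.range R₂) ∨
      SR.FinN (SR.pj₂ Γ) (SR.pj₂ Γ) V R₁ (Set.range R₂)) := by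
  obtain ⟨m₁, rfl⟩ : ∃ m, n₁ = m + 1 := ⟨n₁ - 1, by omega⟩
  obtain ⟨m₂, rfl⟩ : ∃ m, n₂ = m + 1 := ⟨n₂ - 1, by omega⟩
  haveI hdisc : DiscreteTopology Γ := hL.disc
  letI : MeasurableSpace ((Matrix.SpecialLinearGroup (Fin (m₁ + 1)) k₁ ×
    Matrix.SpecialLinearGroup (Fin (m₂ + 1)) k₂) ⧸ Γ) := borel _
  haveI : BorelSpace ((Matrix.SpecialLinearGroup (Fin (m₁ + 1)) k₁ ×
    Matrix.SpecialLinearGroup (Fin (m₂ + 1)) k₂) ⧸ Γ) := ⟨rfl⟩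
  letI : MeasurableSpace (Matrix.SpecialLinearGroup (Fin (m₁ + 1)) k₁) := borel _
  haveI : BorelSpace (Matrix.SpecialLinearGroup (Fin (m₁ + 1)) k₁) := ⟨rfl⟩
  letI : MeasurableSpace (Matrix.SpecialLinearGroup (Fin (m₂ + 1)) k₂) := borel _
  haveI : BorelSpace (Matrix.SpecialLinearGroup (Fin (m₂ + 1)) k₂) := ⟨rfl⟩
  haveI : LocallyCompactSpace (Matrix.SpecialLinearGroup (Fin (m₁ + 1)) k₁) :=
    H303.locallyCompact_SL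
  haveI : LocallyCompactSpace (Matrix.SpecialLinearGroup (Fin (m₂ + 1)) k₂) :=
    H303.locallyCompact_SL
  haveI : SecondCountableTopology (Matrix.SpecialLinearGroup (Fin (m₁ + 1)) k₁) :=
    H303.secondCountable_SL
  haveI : SecondCountableTopology (Matrix.SpecialLinearGroup (Fin (m₂ + 1)) k₂) :=
    H303.secondCountable_SL
  obtain ⟨ν, hν1, hν⟩ := H515.IsLattice.exists_prob (Λ := Γ) ⟨hL.disc, hL.covol⟩
  haveI := hν1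
  have hk₁ : H933.LocK k₁ := H933.LocK.ultra inferInstance
  have hk₂ : H933.LocK k₂ := H933.LocK.ultra inferInstance
  exact fin_t_gen hν hT (pf_of_tri hT') htr (H701.slChain k₁ m₁) (H701.slChain k₂ m₂)
    (by omega) (by omega) (H933.tgt_sl_loc hk₁ m₁) (H933.tgt_sl_loc hk₂ m₂)
    (H655.tendsto_slChain k₁ m₁ ⟨0, by omega⟩) (H655.tendsto_slChain k₂ m₂ ⟨0, by omega⟩)
    cptOpen_sl' cptOpen_sl' (wfix_sl hk₁ (by omega)) (wfix_sl hk₂ (by omega))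

end Vale.Agent.P092.H761
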