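import Vale.Agent.P092.H761.EngR
import Vale.Agent.P092.H761.FinT
import Vale.Agent.P092.H739.Mau

/-!
P092 (helper761), the block [FIN] for any finite number of factors and all amplifications, abstract
factors.
-/

set_option linter.all false

open scoped InnerProductSpace ENNReal
open Set Filter Topology MeasureTheory ContinuousLinearMap

namespace Vale.Agent.P092.H761

open Vale.Agent.P092.H85 Vale.Agent.P092.H160 Vale.Agent.P092.H553 Vale.Agent.P092.H103

/-- Mautner sequences: weak limits of translates are fixed. -/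
theorem wfixS_of_mau {H : Type} [Group H] [TopologicalSpace H] {b : ℕ → H} (h : H739.Mau H b) :
    WFixS b := by
  intro 𝓗 _ _ _ σ hσ ξ
  obtain ⟨U, hU⟩ : ∃ U : Ultrafilter ℕ, (U : Filter ℕ) ≤ atTop :=
    ⟨Ultrafilter.of atTop, Ultrafilter.of_le _⟩
  obtain ⟨w, hw⟩ := H201.exists_weak U (fun N => σ (b N) ξ) ‖ξ‖
    (Eventually.of_forall fun N => (hσ.iso _ _).le)
  refine ⟨U, inferInstance, hU, w, ?_, hw⟩
  have hinv : ∀ u (x y : 𝓗), ⟪x, σ u y⟫_ℂ = ⟪σ u⁻¹ x, y⟫_ℂ := by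
    intro u x y
    have e1 : ⟪σ u (σ u⁻¹ x), σ u y⟫_ℂ = ⟪σ u⁻¹ x, y⟫_ℂ := hσ.inner_map _ _ _
    have e2 : σ u (σ u⁻¹ x) = x := by
      have e3 : (σ u * σ u⁻¹) x = x := by rw [← map_mul, mul_inv_cancel, map_one]; rfl
      exact e3
    rwa [e2] at e1
  have hfix : ∀ u, Tendsto (fun N => (b N)⁻¹ * u * b N) atTop (𝓝 1) → σ u w = w := by
    intro u hu
    refine ext_inner_left ℂ fun z => ?_
    have e1 : Tendsto (fun N => ⟪z, σ u (σ (b N) ξ)⟫_ℂ) U (𝓝 ⟪z, σ u w⟫_ℂ) := by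
      rw [hinv]
      exact (hw (σ u⁻¹ z)).congr fun N => (hinv _ _ _).symm
    have e2 : Tendsto (fun N => ⟪z, σ u (σ (b N) ξ) - σ (b N) ξ⟫_ℂ) U (𝓝 0) := by
      rw [tendsto_zero_iff_norm_tendsto_zero]
      have e3 : Tendsto (fun N => ‖z‖ * ‖σ ((b N)⁻¹ * u * b N) ξ - ξ‖) U (𝓝 0) := by
        have e4 := (((hσ.cont ξ).comp (hu.mono_left hU)).sub_const ξ).norm.const_mul ‖z‖
        rw [sub_self, norm_zero, mul_zero] at e4
        exact e4
      refine squeeze_zero (fun N => norm_nonneg _) (fun N => ?_) e3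
      refine (norm_inner_le_norm _ _).trans ?_
      have e5 : σ u (σ (b N) ξ) = σ (b N) (σ ((b N)⁻¹ * u * b N) ξ) := by
        have e7 : (σ u * σ (b N)) ξ = (σ (b N) * σ ((b N)⁻¹ * u * b N)) ξ := by
          rw [← map_mul, ← map_mul]
          have e8 : u * b N = b N * ((b N)⁻¹ * u * b N) := by group
          rw [← e8]
        exact e7
      rw [e5, ← map_sub, hσ.iso]
    have e8 : Tendsto (fun N => ⟪z, σ u (σ (b N) ξ)⟫_ℂ) U (𝓝 ⟪z, w⟫_ℂ) := by
      have e9 := e2.add (hw z)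
      rw [zero_add] at e9
      refine e9.congr fun N => ?_
      rw [inner_sub_right]
      ring
    exact tendsto_nhds_unique e1 e8
  have hlen : H933.Len fun g => dist (σ g w) w := by
    refine H933.Len.ofAction (fun g x => σ g x) (fun g g' x => ?_) w ?_ (fun g x y => ?_) ?_
    · rw [map_mul]; rfl
    · rw [map_one]; rfl
    · rw [dist_eq_norm, dist_eq_norm, ← map_sub, hσ.iso]
    · exact hσ.cont w
  intro g
  exact dist_eq_zero.1 (h _ hlen (fun u hu => by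
    show dist (σ u w) w = 0
    rw [hfix u hu, dist_self]) g)

section split

variable {I : Type} [DecidableEq I] (A : I → Type) [∀ i, Group (A i)] (i : I)

/-- Splitting off one factor. -/
def spl : A i × (∀ s : {j // j ≠ i}, A s) ≃* ∀ j, A j :=
  MulEquiv.symm { Equiv.piSplitAt i A with map_mul' := fun _ _ => rfl }

theorem spl_symm (x : ∀ j, A j) : (spl A i).symm x = (x i, fun s : {j // j ≠ i} => x s) := rfl

theorem continuous_spl [∀ i, TopologicalSpace (A i)] : Continuous (spl A i) :=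
  (Homeomorph.piSplitAt i A).symm.continuous

end split

section gam

variable {I : Type} [Fintype I] [DecidableEq I] {A : I → Type} [∀ i, Group (A i)]
  [∀ i, TopologicalSpace (A i)] [∀ i, IsTopologicalGroup (A i)] [∀ i, LocallyCompactSpace (A i)]
  [∀ i, SecondCountableTopology (A i)] [∀ i, T2Space (A i)] [∀ i, MeasurableSpace (A i)]
  [∀ i, BorelSpace (A i)]

/-- the projection to the factor `i` -/
abbrev pjA (Γ : Subgroup (∀ i, A i)) (i : I) : Γ →* A i := (Pi.evalMonoidHom A i).comp Γ.subtype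

variable {m : I → ℕ}
  {Γ : Subgroup (∀ i, A i)} [DiscreteTopology Γ] [MeasurableSpace ((∀ i, A i) ⧸ Γ)]
  [BorelSpace ((∀ i, A i) ⧸ Γ)] {ν : Measure ((∀ i, A i) ⧸ Γ)} [IsProbabilityMeasure ν]
  (hν : ∀ g : ∀ i, A i, ν.map (fun x => g • x) = ν)
  {ι ι' ℋ : Type} [Fintype ι] [Fintype ι'] [NormedAddCommGroup ℋ] [InnerProductSpace ℂ ℋ]
  [CompleteSpace ℋ] {V R₁ R₂ : Γ →* (ℋ →L[ℂ] ℋ)} {ξ : ι → ℋ} {ξ' : ι' → ℋ}

include hν in
/-- **[FIN-R]** for a finite family of abstract factors. -/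
theorem fin_r_gen (hT : SR.Tri V R₁ R₂ ξ) (h' : PF V R₂ ξ')
    (htr : ∀ v, v ≠ 1 → ∑ k, ⟪ξ k, V v (ξ k)⟫_ℂ = 0)
    (C : ∀ i, H701.HChain (A i) (m i)) (hm : ∀ i, 0 < m i) (hG : ∀ i, H515.Tgt (A i) (m i))
    (ho : ∀ i, CptOpenBasis (A i)) (i : I)
    (hW : ∀ s : ℕ → ℕ, StrictMono s →
      WFixS fun (N : ℕ) (j : {j // j ≠ i}) => (C j).b ⟨0, hm j⟩ (s N)) :
    ∃ j, SR.FinN (pjA Γ i) (pjA Γ j) V R₁ (Set.range R₂) := by
  haveI : Countable Γ := H790.countable_of_discrete Γ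
  haveI : Nonempty I := ⟨i⟩
  have h := pf_of_tri hT
  obtain ⟨D, hD⟩ := H739.exists_piChain C hm (Finset.univ.erase i)
  have hcard : (Finset.univ.erase i).card < Fintype.card I := by
    rw [← Finset.card_univ]
    exact Finset.card_erase_lt_of_mem (Finset.mem_univ i)
  have hle : (Finset.univ.erase i).card ≤ ∑ i, m i := by
    calc (Finset.univ.erase i).card ≤ (Finset.univ : Finset I).card :=
          Finset.card_le_card (Finset.erase_subset _ _)
      _ = ∑ x : I, 1 := by simp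
      _ ≤ ∑ i, m i := Finset.sum_le_sum fun i _ => hm i
  obtain ⟨z, hz⟩ : ∃ z : ℕ → ∀ i, A i, ∀ N, z N = fun j =>
      if j ∈ Finset.univ.erase i then (C j).b ⟨0, hm j⟩ N else 1 := ⟨_, fun _ => rfl⟩
  have hz1 : ∀ N, z N = spl A i (1, fun s => (C s).b ⟨0, hm s⟩ N) := by
    intro N
    apply (spl A i).symm.injective
    rw [MulEquiv.symm_apply_apply, spl_symm, hz]
    refine Prod.ext ?_ ?_
    · simp
    · funext s
      have hs : (s : I) ∈ Finset.univ.erase i := Finset.mem_erase.2 ⟨s.2, Finset.mem_univ _⟩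
      show (if (s : I) ∈ Finset.univ.erase i then (C s).b ⟨0, hm s⟩ N else 1) = _
      rw [if_pos hs]
  obtain ⟨j, s, K, c, hs, hK, hc, h3⟩ := eng_r_seq Γ ν hν h h' hT.comm₁₂ hT.adj₁ hT.adj₂ hT.adjV
    hT.comm₁ hT.comm₂ hT.ne htr D hle hcard hG le_rfl (fun j => pjA Γ j)
    (fun K hK => (H790.finite_inter Γ (isCompact_univ_pi hK)).subset fun x hx j _ => hx j) z
    (fun N => by rw [hz]; exact hD fun _ => N)
  refine ⟨j, ?_⟩
  simp only [hz1] at h3
  exact finN_of_massS (Ga := A i) (Gb := ∀ s : {j // j ≠ i}, A s) hν h hT.adjV hT.adj₁ hT.adj₂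
    hT.comm₁₂ hT.comm₁ hT.comm₂ hT.ne (ho i) (ho j) (spl A i) (continuous_spl A i) (pjA Γ j) hK
    (hW s hs) hc h3

include hν in
/-- **[FIN-R]** for a finite family of abstract factors with Mautner sequences. -/
theorem fin_r_mau (hT : SR.Tri V R₁ R₂ ξ) (h' : PF V R₂ ξ')
    (htr : ∀ v, v ≠ 1 → ∑ k, ⟪ξ k, V v (ξ k)⟫_ℂ = 0)
    (C : ∀ i, H701.HChain (A i) (m i)) (hm : ∀ i, 0 < m i) (hG : ∀ i, H515.Tgt (A i) (m i))
    (ho : ∀ i, CptOpenBasis (A i)) (hM : ∀ i, H739.Mau (A i) ((C i).b ⟨0, hm i⟩)) (i : I) :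
    ∃ j, SR.FinN (pjA Γ i) (pjA Γ j) V R₁ (Set.range R₂) :=
  fin_r_gen hν hT h' htr C hm hG ho i fun s hs => wfixS_of_mau
    (H739.mau_pi fun j : {j // j ≠ i} => (hM j).comp hs.tendsto_atTop)

end gam

end Vale.Agent.P092.H761
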