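import Vale.Agent.P092.H132.MassX

/-!
P092 (helper761), coefficient version of the engine, part 1: a row model for `Γ × Q` gives a row
model for `Γ`, the left translations by `Q` becoming scalars; the right algebra does not change.
In use: `L(Γ) ⊗ N` with `N = L(Q)`, only the first leg is used as target coordinate.
-/

set_option linter.all false

open scoped InnerProductSpace
open Filter Topology ContinuousLinearMap

namespace Vale.Agent.P092.H761

open Vale.Agent.P092.H160 Vale.Agent.P092.H553 Vale.Agent.P092.H132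

section coef

variable {Γ Q ι H D : Type} [Group Γ] [Group Q] [Group D] [Fintype ι] [NormedAddCommGroup H]
  [InnerProductSpace ℂ H] [CompleteSpace H]

/-- real part of the left translation by `(1, q)` -/
noncomputable def reP (B : Base (Γ × Q) ι H) (q : Q) : H →L[ℂ] H :=
  (1 / 2 : ℂ) • (B.lx (1, q) + B.lx (1, q⁻¹))

/-- imaginary part of the left translation by `(1, q)` -/
noncomputable def imP (B : Base (Γ × Q) ι H) (q : Q) : H →L[ℂ] H :=
  (-(Complex.I / 2)) • (B.lx (1, q) - B.lx (1, q⁻¹))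

/-- the scalars of the coefficient model -/
def csc (B : Base (Γ × Q) ι H) : Set (H →L[ℂ] H) :=
  {x | ∃ a ∈ B.sc, ∃ q, x = a * reP B q ∨ x = a * imP B q}

/-- the left translations of the coefficient model -/
def clx (B : Base (Γ × Q) ι H) (s : Γ) : H →L[ℂ] H := B.lx (s, 1)

variable (B : Base (Γ × Q) ι H)

theorem lx_eq_re_im (q : Q) : B.lx (1, q) = reP B q + Complex.I • imP B q := by
  rw [reP, imP, smul_smul]
  have h1 : Complex.I * -(Complex.I / 2) = 1 / 2 := by
    have := Complex.I_mul_I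
    linear_combination (-1 / 2 : ℂ) * this
  rw [h1, ← smul_add]
  have h2 : B.lx (1, q) + B.lx (1, q⁻¹) + (B.lx (1, q) - B.lx (1, q⁻¹)) =
      (2 : ℂ) • B.lx (1, q) := by
    rw [two_smul]; abel
  rw [h2, smul_smul]
  norm_num

theorem reP_one : reP B 1 = 1 := by
  rw [reP, inv_one]
  have h1 : B.lx ((1 : Γ), (1 : Q)) = 1 := B.lx_one
  rw [h1, ← two_smul ℂ (1 : H →L[ℂ] H), smul_smul]
  norm_num

theorem adj_lq (q : Q) : adjoint (B.lx (1, q)) = B.lx (1, q⁻¹) := by
  rw [B.lx_adj]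
  congr 1
  ext <;> simp

theorem adj_reP (q : Q) : adjoint (reP B q) = reP B q := by
  have h1 : star (reP B q) = reP B q := by
    rw [reP, star_smul, star_add]
    have e1 : star (B.lx ((1 : Γ), q)) = B.lx (1, q⁻¹) := adj_lq B q
    have e2 : star (B.lx ((1 : Γ), q⁻¹)) = B.lx (1, q) := by
      have := adj_lq B q⁻¹
      rw [inv_inv] at this
      exact this
    rw [e1, e2, add_comm (B.lx (1, q⁻¹))]
    congr 1
    simp
  exact h1

theorem adj_imP (q : Q) : adjoint (imP B q) = imP B q := by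
  have h1 : star (imP B q) = imP B q := by
    rw [imP, star_smul, star_sub]
    have e1 : star (B.lx ((1 : Γ), q)) = B.lx (1, q⁻¹) := adj_lq B q
    have e2 : star (B.lx ((1 : Γ), q⁻¹)) = B.lx (1, q) := by
      have := adj_lq B q⁻¹
      rw [inv_inv] at this
      exact this
    have e3 : star (-(Complex.I / 2)) = -(-(Complex.I / 2)) := by
      apply Complex.ext
      · simp
      · simp
        norm_num
    rw [e1, e2, e3, neg_smul, ← smul_neg, neg_sub]
  exact h1

theorem norm_lx_le (s : Γ × Q) : ‖B.lx s‖ ≤ 1 :=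
  ContinuousLinearMap.opNorm_le_bound _ zero_le_one fun ξ => by rw [B.norm_lx, one_mul]

theorem norm_reP_le (q : Q) : ‖reP B q‖ ≤ 1 := by
  rw [reP]
  refine (norm_smul_le _ _).trans ?_
  have h1 := (norm_add_le (B.lx ((1 : Γ), q)) (B.lx (1, q⁻¹)))
  have h2 := norm_lx_le B (1, q)
  have h3 := norm_lx_le B (1, q⁻¹)
  have h4 : ‖(1 / 2 : ℂ)‖ = 1 / 2 := by norm_num
  rw [h4]
  linarith

theorem norm_imP_le (q : Q) : ‖imP B q‖ ≤ 1 := by
  rw [imP]
  refine (norm_smul_le _ _).trans ?_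
  have h1 := (norm_sub_le (B.lx ((1 : Γ), q)) (B.lx (1, q⁻¹)))
  have h2 := norm_lx_le B (1, q)
  have h3 := norm_lx_le B (1, q⁻¹)
  have h4 : ‖(-(Complex.I / 2) : ℂ)‖ = 1 / 2 := by
    rw [norm_neg, norm_div, Complex.norm_I]; norm_num
  rw [h4]
  linarith

theorem commute_re_im {T : H →L[ℂ] H} {q : Q} (h : ∀ q, T * B.lx (1, q) = B.lx (1, q) * T) :
    T * reP B q = reP B q * T ∧ T * imP B q = imP B q * T := by
  constructor
  · rw [reP, mul_smul_comm, smul_mul_assoc, mul_add, add_mul, h, h]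
  · rw [imP, mul_smul_comm, smul_mul_assoc, mul_sub, sub_mul, h, h]

theorem raof_iff (T : H →L[ℂ] H) : RAof (clx B) (csc B) T ↔ B.RA T := by
  constructor
  · rintro ⟨h1, h2⟩
    have h3 : ∀ q, T * B.lx (1, q) = B.lx (1, q) * T := by
      intro q
      have e1 := h2 (1 * reP B q) ⟨1, B.sc_one, q, Or.inl rfl⟩
      have e2 := h2 (1 * imP B q) ⟨1, B.sc_one, q, Or.inr rfl⟩
      rw [one_mul] at e1 e2
      rw [lx_eq_re_im, mul_add, add_mul, e1, mul_smul_comm, smul_mul_assoc, e2]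
    refine ⟨?_, fun a ha => ?_⟩
    · rintro ⟨s, q⟩
      have e : ((s, q) : Γ × Q) = (s, 1) * (1, q) := by
        ext <;> simp
      rw [e, B.lx_mul, ← mul_assoc]
      have e1 : T * B.lx (s, 1) = B.lx (s, 1) * T := h1 s
      rw [e1, mul_assoc, h3, mul_assoc]
    · have e1 := h2 (a * reP B 1) ⟨a, ha, 1, Or.inl rfl⟩
      rwa [reP_one, mul_one] at e1
  · rintro ⟨h1, h2⟩
    refine ⟨fun s => h1 (s, 1), ?_⟩
    rintro x ⟨a, ha, q, rfl | rfl⟩
    · rw [← mul_assoc, h2 a ha, mul_assoc, (commute_re_im B fun q => h1 (1, q)).1, mul_assoc]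
    · rw [← mul_assoc, h2 a ha, mul_assoc, (commute_re_im B fun q => h1 (1, q)).2, mul_assoc]

theorem csc_comm {x T : H →L[ℂ] H} (hx : x ∈ csc B) (h1 : ∀ a ∈ B.sc, a * T = T * a)
    (h2 : ∀ q, T * B.lx (1, q) = B.lx (1, q) * T) : x * T = T * x := by
  obtain ⟨a, ha, q, rfl | rfl⟩ := hx
  · rw [mul_assoc, ← (commute_re_im B h2).1, ← mul_assoc, h1 a ha, mul_assoc]
  · rw [mul_assoc, ← (commute_re_im B h2).2, ← mul_assoc, h1 a ha, mul_assoc]

theorem lq_lx (q : Q) (s : Γ) : B.lx (s, 1) * B.lx (1, q) = B.lx (1, q) * B.lx (s, 1) := by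
  rw [← B.lx_mul, ← B.lx_mul]
  congr 1
  ext <;> simp

theorem sc_lq {a : H →L[ℂ] H} (ha : a ∈ B.sc) (q : Q) : a * B.lx (1, q) = B.lx (1, q) * a :=
  B.sc_lx a ha _

/-- **The coefficient model.** -/
noncomputable def coef (B : Base (Γ × Q) ι H) : Base Γ ι H where
  lx := clx B
  mp := fun F => B.mp fun x => F x.1
  sc := csc B
  ep := B.ep
  lx_mul := fun s t => by
    rw [clx, clx, clx, ← B.lx_mul]
    congr 1
    ext <;> simp
  lx_one := B.lx_one
  lx_adj := fun s => by
    rw [clx, clx, B.lx_adj]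
    congr 1
    ext <;> simp
  mp_one := B.mp_one
  mp_add := fun hF hG => B.mp_add (fun x => hF x.1) (fun x => hG x.1)
  mp_smul := fun c F C hF => B.mp_smul c (fun x => hF x.1)
  mp_mul := fun hF hG => B.mp_mul (fun x => hF x.1) (fun x => hG x.1)
  mp_adj := fun hF => B.mp_adj (fun x => hF x.1)
  lx_mp := fun {F C} hF s => by
    have h := B.lx_mp (F := fun x => F x.1) (C := C) (fun x => hF x.1) (s, 1)
    exact h
  sc_one := ⟨1, B.sc_one, 1, Or.inl (by rw [reP_one, one_mul])⟩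
  sc_adj := by
    rintro x ⟨a, ha, q, rfl | rfl⟩
    · rw [adj_mul, adj_reP, B.sc_adj a ha]
      exact (commute_re_im B (fun q => B.sc_lx a ha _)).1.symm
    · rw [adj_mul, adj_imP, B.sc_adj a ha]
      exact (commute_re_im B (fun q => B.sc_lx a ha _)).2.symm
  sc_le := by
    rintro x ⟨a, ha, q, rfl | rfl⟩
    · exact (norm_mul_le _ _).trans (mul_le_one₀ (B.sc_le a ha) (norm_nonneg _) (norm_reP_le B q))
    · exact (norm_mul_le _ _).trans (mul_le_one₀ (B.sc_le a ha) (norm_nonneg _) (norm_imP_le B q))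
  sc_lx := fun x hx s => csc_comm B hx (fun a ha => B.sc_lx a ha _) fun q => lq_lx B q s
  sc_mp := fun x hx {F C} hF => csc_comm B hx (fun a ha => B.sc_mp a ha fun x => hF x.1) fun q => by
    have h := B.lx_mp (F := fun x => F x.1) (C := C) (fun x => hF x.1) (1, q)
    rw [h]
    have e : (fun g : Γ × Q => F (((1 : Γ), q)⁻¹ * g).1) = fun x => F x.1 := by
      funext g
      simp
    rw [e]
  total := fun ξ h => B.total ξ fun s a ha i => by
    obtain ⟨s, q⟩ := s
    have e : B.lx (s, q) (a (B.ep i)) = B.lx (s, 1) ((a * reP B q) (B.ep i)) +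
        Complex.I • B.lx (s, 1) ((a * imP B q) (B.ep i)) := by
      have e1 : ((s, q) : Γ × Q) = (s, 1) * (1, q) := by ext <;> simp
      rw [e1, B.lx_mul]
      have e2 : B.lx ((1 : Γ), q) (a (B.ep i)) = a (B.lx (1, q) (B.ep i)) :=
        (congrArg (fun X : H →L[ℂ] H => X (B.ep i)) (B.sc_lx a ha (1, q))).symm
      rw [mul_ap, e2, lx_eq_re_im, mul_ap, mul_ap, add_apply, smul_apply, map_add, map_add,
        map_smul, map_smul]
    rw [e, inner_add_left, inner_smul_left]
    have h1 : ⟪B.lx (s, 1) ((a * reP B q) (B.ep i)), ξ⟫_ℂ = 0 :=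
      h s (a * reP B q) ⟨a, ha, q, Or.inl rfl⟩ i
    have h2 : ⟪B.lx (s, 1) ((a * imP B q) (B.ep i)), ξ⟫_ℂ = 0 :=
      h s (a * imP B q) ⟨a, ha, q, Or.inr rfl⟩ i
    rw [h1, h2, mul_zero, add_zero]
  exch := fun {S T} hS hT {q C} hq =>
    B.exch ((raof_iff B S).1 hS) ((raof_iff B T).1 hT) (q := fun x => q x.1) (C := C)
      fun x => hq x.1
  appr := fun {T} hT {ε} hε => by
    obtain ⟨n, X, u, h1, h2, h3⟩ := B.appr ((raof_iff B T).1 hT) hε
    refine ⟨n, X, fun j => (u j).1, fun j => (raof_iff B _).2 (h1 j), fun j {F C} hF => ?_, h3⟩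
    exact h2 j (F := fun x => F x.1) (C := C) fun x => hF x.1

theorem coef_ra {T : H →L[ℂ] H} : (coef B).RA T ↔ B.RA T := raof_iff B T

variable {B}

theorem koop_coef {K : H →L[ℂ] H} (h : Koop B K) : Koop (coef B) K where
  left := h.left
  right := h.right
  lx := fun s => h.lx (s, 1)
  mp := fun hF => h.mp fun x => hF x.1
  ep := h.ep
  sc := by
    have key : ∀ X : H →L[ℂ] H, (∀ q, K * B.lx (1, q) = B.lx (1, q) * K) := fun _ q => h.lx _
    rintro x ⟨a, ha, q, rfl | rfl⟩
    · refine ⟨K * a * adjoint K, h.sc a ha, q, Or.inl ?_⟩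
      have e := (commute_re_im B (q := q) (T := adjoint K) fun q => h.adj_lx _).1
      simp only [mul_assoc]
      rw [e]
    · refine ⟨K * a * adjoint K, h.sc a ha, q, Or.inr ?_⟩
      have e := (commute_re_im B (q := q) (T := adjoint K) fun q => h.adj_lx _).2
      simp only [mul_assoc]
      rw [e]
  sc' := by
    rintro x ⟨a, ha, q, rfl | rfl⟩
    · refine ⟨adjoint K * a * K, h.sc' a ha, q, Or.inl ?_⟩
      have e := (commute_re_im B (q := q) (T := K) fun q => h.lx _).1
      simp only [mul_assoc]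
      rw [e]
    · refine ⟨adjoint K * a * K, h.sc' a ha, q, Or.inr ?_⟩
      have e := (commute_re_im B (q := q) (T := K) fun q => h.lx _).2
      simp only [mul_assoc]
      rw [e]

theorem nr_coef {T : H →L[ℂ] H} (h : NR B T) : NR (coef B) T := by
  obtain ⟨X, K, hX, hK, e⟩ := h
  exact ⟨X, K, (coef_ra B).2 hX, koop_coef hK, e⟩

theorem trep_coef {t : ℝ} {R : D → (H →L[ℂ] H)} (h : TRep B t R) : TRep (coef B) t R where
  nr := fun v => nr_coef (h.nr v)
  mul := h.mul
  adj := h.adj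
  one := (coef_ra B).2 h.one
  pos := h.pos
  tr_one := h.tr_one

theorem massX_coef (R : D → (H →L[ℂ] H)) (w : D) (F : Γ → ℝ) :
    massX (coef B) R w F = massX B R w (fun x => F x.1) := rfl

theorem efamX_coef {Y : Type} [MulAction D Y] {R : D → (H →L[ℂ] H)} {Ms : Set (Set Y)}
    {E : Set Y → (H →L[ℂ] H)} (h : EFamX B R Ms E)
    (hq : ∀ A ∈ Ms, ∀ q : Q, E A * B.lx (1, q) = B.lx (1, q) * E A) : EFamX (coef B) R Ms E where
  nonneg := h.nonneg
  add := h.add
  univ := h.univ
  cov := h.cov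
  sc := fun A hA x hx => (csc_comm B hx (fun a ha => (h.sc A hA a ha).symm) (hq A hA)).symm

end coef

end Vale.Agent.P092.H761
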