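import Vale.Agent.P092.H761.CoefInd

/-!
P092 (helper761), coefficient version of the engine, part 3: covariant families of regular
representations and of their conjugates; the passage from a unitary representation commuting with
the right translations of `ℓ²(G)` to the row model.
-/

set_option linter.all false

open scoped InnerProductSpace ComplexOrder
open Filter Topology ContinuousLinearMap

namespace Vale.Agent.P092.H761

open Vale.Agent.P092.H160 Vale.Agent.P092.H553 Vale.Agent.P092.H432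

section reg

/-- indicator function of a set, pulled back by `f` -/
noncomputable def iA {X Λ : Type} (f : X → Λ) (A : Set Λ) : X → ℝ := by
  classical
  exact fun x => if f x ∈ A then 1 else 0

theorem abs_iA_le {X Λ : Type} (f : X → Λ) (A : Set Λ) (x : X) : |iA f A x| ≤ 1 := by
  unfold iA; split_ifs <;> simp

theorem iA_apply {X Λ : Type} (f : X → Λ) (A : Set Λ) (ξ : Ell2 X) (x : X) :
    mo (iA f A) ξ x = (iA f A x : ℂ) * ξ x := mo_apply (abs_iA_le f A) ξ x

theorem iA_sq {X Λ : Type} (f : X → Λ) (A : Set Λ) : (fun x => iA f A x * iA f A x) = iA f A := by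
  funext x
  unfold iA; split_ifs <;> simp

theorem mo_iA_nonneg {X Λ : Type} (f : X → Λ) (A : Set Λ) :
    0 ≤ (mo (iA f A) : Ell2 X →L[ℂ] Ell2 X) := by
  refine H108.nonneg_of_inner ?_ fun ζ => ?_
  · rw [IsSelfAdjoint, star_eq_adjoint, adjoint_mo (abs_iA_le f A)]
  · have h1 : mo (iA f A) ζ = mo (iA f A) (mo (iA f A) ζ) := by
      rw [← mo_mul (abs_iA_le f A) (abs_iA_le f A), iA_sq]
    rw [h1, ← adjoint_inner_left, adjoint_mo (abs_iA_le f A), inner_self_eq_norm_sq_to_K]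
    have h2 : ((‖mo (iA f A) ζ‖ : ℂ) ^ 2).re = ‖mo (iA f A) ζ‖ ^ 2 := by norm_cast
    exact (sq_nonneg _).trans_eq h2.symm

/-- the tails of a square summable function -/
theorem tail_lim {X Λ : Type} (f : X → Λ) (A : Set Λ) (y : Ell2 X) :
    Tendsto (fun s : Finset Λ => mo (iA f (A ∩ (s : Set Λ))) y) atTop (𝓝 (mo (iA f A) y)) := by
  classical
  -- basis vectors
  have h1 : ∀ x : X, ∀ᶠ s : Finset Λ in atTop,
      mo (iA f (A ∩ (s : Set Λ))) (dl x : Ell2 X) = mo (iA f A) (dl x) := by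
    intro x
    filter_upwards [eventually_ge_atTop {f x}] with s hs
    have hx : f x ∈ s := hs (Finset.mem_singleton_self _)
    apply ext_inner_dl
    intro z
    rw [iA_apply, iA_apply]
    by_cases hz : z = x
    · subst hz
      congr 2
      unfold iA
      simp [hx]
    · rw [dl_ne hz, mul_zero, mul_zero]
  have hb : ∀ (A : Set Λ) (ξ : Ell2 X), ‖mo (iA f A) ξ‖ ≤ ‖ξ‖ := fun A ξ => by
    have := norm_mo_le (abs_iA_le f A) ξ
    rwa [one_mul] at this
  rw [Metric.tendsto_nhds]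
  intro ε hε
  obtain ⟨T, hT⟩ := (((hasSum_dl y).eventually (Metric.ball_mem_nhds y
    (show (0 : ℝ) < ε / 4 by positivity))).exists)
  obtain ⟨η, hη⟩ : ∃ η : Ell2 X, η = ∑ x ∈ T, y x • dl x := ⟨_, rfl⟩
  rw [← hη] at hT
  have h2 : ∀ᶠ s : Finset Λ in atTop, mo (iA f (A ∩ (s : Set Λ))) η = mo (iA f A) η := by
    have h3 : ∀ᶠ s : Finset Λ in atTop, ∀ x ∈ T,
        mo (iA f (A ∩ (s : Set Λ))) (dl x : Ell2 X) = mo (iA f A) (dl x) := by
      rw [Filter.eventually_all_finset]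
      exact fun x _ => h1 x
    filter_upwards [h3] with s hs
    rw [hη]
    simp only [map_sum, map_smul]
    exact Finset.sum_congr rfl fun x hx => by rw [hs x hx]
  filter_upwards [h2] with s hs
  have hd : ‖y - η‖ < ε / 4 := by
    rw [← dist_eq_norm, dist_comm]
    exact hT
  have e : mo (iA f (A ∩ (s : Set Λ))) y - mo (iA f A) y =
      mo (iA f (A ∩ (s : Set Λ))) (y - η) - mo (iA f A) (y - η) := by
    rw [map_sub, map_sub, hs]; abel
  rw [dist_eq_norm, e]
  refine (norm_sub_le _ _).trans_lt ?_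
  have h5 := hb (A ∩ (s : Set Λ)) (y - η)
  have h6 := hb A (y - η)
  linarith

/-- Covariant family of a permutation representation with an equivariant map to `Λ`. -/
theorem covFam_rei {X Λ : Type} [Group Λ] (f : X → Λ) (τ : Λ → X ≃ X) (h1 : τ 1 = Equiv.refl X)
    (hinv : ∀ v, τ v⁻¹ = (τ v).symm) (hf : ∀ v x, f (τ v x) = f x * v⁻¹) :
    CovFam (fun v => (rei (τ v) : Ell2 X →L[ℂ] Ell2 X)) (fun A => mo (iA f A)) where
  nonneg := fun A => mo_iA_nonneg f A
  add := fun A A' hd => by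
    refine ContinuousLinearMap.ext fun ξ => ext_inner_dl fun x => ?_
    change mo (iA f (A ∪ A')) ξ x = (mo (iA f A) ξ + mo (iA f A') ξ : Ell2 X) x
    rw [iA_apply]
    change _ = mo (iA f A) ξ x + mo (iA f A') ξ x
    rw [iA_apply, iA_apply, ← add_mul]
    congr 1
    unfold iA
    by_cases h1 : f x ∈ A
    · have h2 : f x ∉ A' := fun h2 => Set.disjoint_left.mp hd h1 h2
      simp [h1, h2]
    · by_cases h2 : f x ∈ A' <;> simp [h1, h2]
  univ := by
    refine ContinuousLinearMap.ext fun ξ => ext_inner_dl fun x => ?_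
    rw [iA_apply, rei_apply, h1]
    simp [iA]
  lim := fun A y => tail_lim f A y
  cov := fun v A => by
    refine ContinuousLinearMap.ext fun ξ => ext_inner_dl fun x => ?_
    rw [mul_ap, mul_ap, rei_apply, iA_apply, rei_apply, iA_apply, hinv, Equiv.symm_symm,
      Equiv.apply_symm_apply]
    congr 2
    have e : f ((τ v).symm x) = f x * v := by
      have := hf v ((τ v).symm x)
      rw [Equiv.apply_symm_apply] at this
      rw [this, inv_mul_cancel_right]
    unfold iA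
    rw [e]
    rfl

/-- Conjugation of a covariant family by an isometry. -/
theorem covFam_conj {Λ F K : Type} [Group Λ] [NormedAddCommGroup F] [InnerProductSpace ℂ F]
    [CompleteSpace F] [NormedAddCommGroup K] [InnerProductSpace ℂ K] [CompleteSpace K]
    {R0 : Λ → (F →L[ℂ] F)} {P : Set Λ → (F →L[ℂ] F)} (h : CovFam R0 P) (Z : F →L[ℂ] K)
    (hZ : ∀ ξ, adjoint Z (Z ξ) = ξ) {R : Λ → (K →L[ℂ] K)}
    (hR : ∀ v, R v = Z ∘L R0 v ∘L adjoint Z) :
    CovFam R (fun A => Z ∘L P A ∘L adjoint Z) where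
  nonneg := fun A => by
    have hs := (IsSelfAdjoint.of_nonneg (h.nonneg A))
    refine H108.nonneg_of_inner ?_ fun ζ => ?_
    · rw [isSelfAdjoint_iff', adjoint_comp, adjoint_comp, adjoint_adjoint]
      rw [isSelfAdjoint_iff'] at hs
      rw [hs]
      rfl
    · change 0 ≤ (⟪ζ, Z (P A (adjoint Z ζ))⟫_ℂ).re
      rw [← adjoint_inner_left]
      exact H108.inner_nonneg_of_nonneg (h.nonneg A) _
  add := fun A A' hd => by
    rw [h.add A A' hd]
    ext ξ
    simp
  univ := by rw [h.univ, hR]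
  lim := fun A y => by
    change Tendsto (fun s : Finset Λ => Z (P (A ∩ (s : Set Λ)) (adjoint Z y))) atTop
      (𝓝 (Z (P A (adjoint Z y))))
    exact (Z.continuous.tendsto _).comp (h.lim A (adjoint Z y))
  cov := fun v A => by
    refine ContinuousLinearMap.ext fun ξ => ?_
    rw [← h.cov v A, hR, hR]
    change Z (R0 v (adjoint Z (Z (P A (adjoint Z (Z (R0 v⁻¹ (adjoint Z ξ)))))))) =
      Z (R0 v (P A (R0 v⁻¹ (adjoint Z ξ))))
    rw [hZ, hZ]

end reg

section row

variable {G : Type} [Group G]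

/-- `g ↦ (g⁻¹, ())` -/
def sg (G : Type) [Group G] : G ≃ G × Unit where
  toFun g := (g⁻¹, ())
  invFun x := x.1⁻¹
  left_inv g := inv_inv g
  right_inv := by
    rintro ⟨x, ⟨⟩⟩
    simp

/-- transport of an operator on `ℓ²(G)` to the row model, exchanging left and right -/
noncomputable def cj (T : Ell2 G →L[ℂ] Ell2 G) : Ell2 (G × Unit) →L[ℂ] Ell2 (G × Unit) :=
  rei (sg G) ∘L T ∘L rei (sg G).symm

theorem rei_sg_symm (ξ : Ell2 G) : rei (sg G).symm (rei (sg G) ξ) = ξ := by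
  apply ext_inner_dl
  intro x
  rw [rei_apply, rei_apply, Equiv.symm_symm, Equiv.symm_apply_apply]

theorem rei_sg (ξ : Ell2 (G × Unit)) : rei (sg G) (rei (sg G).symm ξ) = ξ := by
  apply ext_inner_dl
  intro x
  rw [rei_apply, rei_apply, Equiv.symm_symm, Equiv.apply_symm_apply]

theorem cj_apply (T : Ell2 G →L[ℂ] Ell2 G) (ξ : Ell2 (G × Unit)) :
    cj T ξ = rei (sg G) (T (rei (sg G).symm ξ)) := rfl

theorem cj_mul (S T : Ell2 G →L[ℂ] Ell2 G) : cj (S * T) = cj S * cj T := by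
  refine ContinuousLinearMap.ext fun ξ => ?_
  rw [mul_ap, cj_apply, cj_apply, cj_apply, rei_sg_symm]
  rfl

theorem cj_one : cj (1 : Ell2 G →L[ℂ] Ell2 G) = 1 := by
  refine ContinuousLinearMap.ext fun ξ => ?_
  rw [cj_apply]
  exact rei_sg ξ

theorem adjoint_cj (T : Ell2 G →L[ℂ] Ell2 G) : adjoint (cj T) = cj (adjoint T) := by
  rw [cj, adjoint_comp, adjoint_comp, adjoint_rei, adjoint_rei, Equiv.symm_symm]
  rfl

theorem sg_symm_ep (i : Unit) : rei (sg G).symm (ep i : Ell2 (G × Unit)) = dl 1 := by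
  rw [ep, rei_dl]
  congr 1
  exact inv_one

theorem cj_ep (T : Ell2 G →L[ℂ] Ell2 G) (i : Unit) :
    cj T (ep i) = rei (sg G) (T (dl 1)) := by
  rw [cj_apply, sg_symm_ep]

theorem lx_sg (s : G) (ξ : Ell2 G) : lx s (rei (sg G) ξ) = rei (sg G) (rho s ξ) := by
  apply ext_inner_dl
  rintro ⟨x, ⟨⟩⟩
  rw [lx_apply, rei_apply, rei_apply, rho_apply]
  change ξ ((s⁻¹ * x)⁻¹) = ξ (x⁻¹ * s)
  rw [mul_inv_rev, inv_inv]

theorem ra_cj {T : Ell2 G →L[ℂ] Ell2 G} (hT : ∀ s, T * rho s = rho s * T) : RA (cj T) := by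
  intro s
  refine ContinuousLinearMap.ext fun ξ => ?_
  change cj T (lx s ξ) = lx s (cj T ξ)
  have h1 : rei (sg G).symm (lx s ξ) = rho s (rei (sg G).symm ξ) := by
    have h2 := lx_sg s (rei (sg G).symm ξ)
    rw [rei_sg] at h2
    rw [h2, rei_sg_symm]
  rw [cj_apply, cj_apply, h1, lx_sg]
  congr 1
  exact congrArg (fun X : Ell2 G →L[ℂ] Ell2 G => X (rei (sg G).symm ξ)) (hT s)

theorem inner_cj (T : Ell2 G →L[ℂ] Ell2 G) (i : Unit) :
    ⟪(ep i : Ell2 (G × Unit)), cj T (ep i)⟫_ℂ = ⟪(dl 1 : Ell2 G), T (dl 1)⟫_ℂ := by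
  have h1 : (ep i : Ell2 (G × Unit)) = rei (sg G) (dl 1) := by
    rw [← sg_symm_ep i, rei_sg]
  rw [cj_ep, h1, inner_rei]

/-- **A unitary representation commuting with the right translations gives a row model.** -/
theorem arep_cj {Λ : Type} [Group Λ] {V : Λ → (Ell2 G →L[ℂ] Ell2 G)} (h1 : V 1 = 1)
    (hmul : ∀ v w, V (v * w) = V v * V w) (hadj : ∀ v, adjoint (V v) = V v⁻¹)
    (hrho : ∀ v s, V v * rho s = rho s * V v)
    (htr : ∀ v, v ≠ 1 → ⟪(dl 1 : Ell2 G), V v (dl 1)⟫_ℂ = 0) : ARep 1 (fun v => cj (V v)) where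
  ra := fun v => ra_cj (hrho v)
  mul := fun v w => by rw [hmul, cj_mul]
  adj := fun v => by rw [adjoint_cj, hadj]
  pos := one_pos
  tr_one := by
    rw [Fintype.sum_unique, inner_cj, h1]
    change ⟪(dl 1 : Ell2 G), dl 1⟫_ℂ = _
    rw [inner_dl, dl_self]
    norm_num
  tr_zero := fun v hv => by rw [Fintype.sum_unique, inner_cj, htr v hv]

theorem mp_sg {F : G → ℝ} {C : ℝ} (hF : ∀ g, |F g| ≤ C) (ξ : Ell2 G) :
    mp Unit F (rei (sg G) ξ) = rei (sg G) (mo (fun x => F x⁻¹) ξ) := by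
  apply ext_inner_dl
  rintro ⟨x, ⟨⟩⟩
  rw [mp, mo_apply (F := fun x : G × Unit => F x.1) (C := C) (fun x => hF _), rei_apply, rei_apply,
    mo_apply (F := fun x : G => F x⁻¹) (C := C) (fun x => hF _)]
  change (F x : ℂ) * ξ x⁻¹ = (F (x⁻¹)⁻¹ : ℂ) * ξ x⁻¹
  rw [inv_inv]

/-- the masses in the row model -/
theorem massR_cj {Λ : Type} [Group Λ] (V : Λ → (Ell2 G →L[ℂ] Ell2 G)) (v : Λ) {F : G → ℝ} {C : ℝ}
    (hF : ∀ g, |F g| ≤ C) : massR (fun v => cj (V v)) v F =
      (⟪V v (dl 1), mo (fun x => F x⁻¹) (V v (dl 1))⟫_ℂ).re := by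
  rw [massR, Fintype.sum_unique, cj_ep, mp_sg hF, inner_rei]

theorem massR_cj_tsum {Λ : Type} [Group Λ] (V : Λ → (Ell2 G →L[ℂ] Ell2 G)) (v : Λ) {F : G → ℝ}
    {C : ℝ} (hF : ∀ g, |F g| ≤ C) : massR (fun v => cj (V v)) v F =
      ∑' x, F x⁻¹ * ‖V v (dl 1) x‖ ^ 2 := by
  rw [massR_cj V v hF, inner_mo (fun x => hF x⁻¹), Complex.ofReal_re]

end row

end Vale.Agent.P092.H761
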