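import Vale.Agent.P092.H761.Chain

/-!
P092 (helper761): the chain argument of the sharp rank theorem (#2397) as pure real analysis.
-/

set_option linter.all false

open Filter Topology

namespace Vale.Agent.P092.H761

open Vale.Agent.P092.H200 Vale.Agent.P092.H538 Vale.Agent.P092.H553

/-- Mass functions of a group `𝔾` (in use: the induced representation of the big group), with the
uniform quasi-invariance `unif` and the finite-family pairing lemma `pairF`.  `Cpt` and `Ping` are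
predicates supplied by the application (compact sets, ping-pong families). -/
structure SharpData {Γ 𝔾 : Type} [Group Γ] [DecidableEq Γ] [Group 𝔾] (t : ℝ)
    (mass : 𝔾 → (Γ → ℝ) → ℝ) (Cpt : Set 𝔾 → Prop) (Ping : (p : ℕ) → (Fin p → 𝔾) → Prop) :
    Prop where
  pos : 0 < t
  one : ∀ w, mass w (fun _ => 1) = t
  mono : ∀ w (F F' : Γ → ℝ) (C : ℝ), (∀ g, |F g| ≤ C) → (∀ g, |F' g| ≤ C) →
    (∀ g, F g ≤ F' g) → mass w F ≤ mass w F'
  add : ∀ w (F F' : Γ → ℝ) (C : ℝ), (∀ g, |F g| ≤ C) → (∀ g, |F' g| ≤ C) →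
    mass w (fun g => F g + F' g) = mass w F + mass w F'
  smul : ∀ w (F : Γ → ℝ) (C c : ℝ), (∀ g, |F g| ≤ C) →
    mass w (fun g => c * F g) = c * mass w F
  inv : ∀ (U : Ultrafilter ℕ) (z : ℕ → 𝔾) (v : 𝔾), (∀ k, z k * v = v * z k) →
    ∀ χ : ℕ → Γ → ℝ, (∀ k g, 0 ≤ χ k g ∧ χ k g ≤ 1) →
    (∀ u : Γ, Usm U (fun k g => χ k (g * u) - χ k g)) →
    Tendsto (fun k => mass (z k * v) (χ k) - mass (z k) (χ k)) U (𝓝 0)
  unif : ∀ 𝒦, Cpt 𝒦 → ∀ ε : ℝ, 0 < ε → ∃ (F : Finset Γ) (C : ℝ), 0 ≤ C ∧ ∀ κ ∈ 𝒦, ∀ κ' ∈ 𝒦,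
    ∀ (g : 𝔾) (S : Γ → Prop), mass (κ * g * κ') (ind S) ≤
      C * mass g (ind fun x => ∃ a ∈ F, ∃ b ∈ F, S (a * x * b)) + ε
  pairF : ∃ A : ℝ, ∀ (p : ℕ) (u : Fin p → 𝔾), Ping p u → ∀ (U : Ultrafilter ℕ) (z : ℕ → 𝔾),
    (∀ k l, z k * u l = u l * z k) → ∀ c : ℝ, 0 < c →
    (∀ (S : Finset Γ) (ε : ℝ), 0 < ε → ∃ (B : Finset Γ) (F H : ℕ → Γ → Γ → ℝ),
      PairFam U S ε B F H ∧
      ∀ l, ∀ᶠ k in U, c ≤ mass (z k * u l) (fun g => ∑ b ∈ B, F k b g * H k b g)) →
    (p : ℝ) * c ≤ A * Real.sqrt p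

/-- A chain of `m` commuting torus directions `b j N`, with compact sets `𝒦 j` of elements which
commute with the directions before `j` and move `b j N` to ping-pong families. -/
structure GChain {𝔾 : Type} [Group 𝔾] (Cpt : Set 𝔾 → Prop)
    (Ping : (p : ℕ) → (Fin p → 𝔾) → Prop) (m : ℕ) (b : Fin m → ℕ → 𝔾) (𝒦 : Fin m → Set 𝔾) :
    Prop where
  cpt : ∀ j, Cpt (𝒦 j)
  comm_b : ∀ i j, i < j → ∀ N M, b i N * b j M = b j M * b i N
  comm_K : ∀ i j, i < j → ∀ N, ∀ κ ∈ 𝒦 j, b i N * κ = κ * b i N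
  ping : ∀ j p, ∃ (N : ℕ) (κ κ' : Fin p → 𝔾), (∀ l, κ l ∈ 𝒦 j) ∧ (∀ l, κ' l ∈ 𝒦 j) ∧
    Ping p (fun l => κ l * b j N * κ' l)

/-! ### The case of no large gap -/

section empty

variable {Γ J : Type} [Group Γ] [DecidableEq Γ] [Fintype J] [DecidableEq J]
  {gap : J → Γ → ℝ} {r : ℕ} {cl : J → Fin r}

theorem geo_empty (hg : Gaps gap cl) : Geo gap ∅ := by
  classical
  intro R
  obtain ⟨T, hT⟩ : ∃ T : Finset Γ, T = (hg.fin R).toFinset := ⟨_, rfl⟩
  have hTmem : ∀ g, g ∈ T ↔ ∀ j, gap j g ≤ R := fun g => by rw [hT, Set.Finite.mem_toFinset]; rfl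
  obtain ⟨c, hc⟩ : ∃ c : ℝ, c = 1 / ((T.card : ℝ) + 1) := ⟨_, rfl⟩
  have hc0 : 0 < c := by rw [hc]; positivity
  have hc1 : c ≤ 1 := by
    rw [hc, div_le_one (by positivity)]
    have : (0 : ℝ) ≤ T.card := by positivity
    linarith
  refine ⟨c, hc0, fun S ε hε R1 => ?_⟩
  choose CL hCL0 hCL using hg.left
  obtain ⟨C0, hC0⟩ : ∃ C0 : ℝ, C0 = ∑ s ∈ S, CL s := ⟨_, rfl⟩
  have hC00 : 0 ≤ C0 := by rw [hC0]; exact Finset.sum_nonneg fun s _ => hCL0 s
  have hCS : ∀ s ∈ S, ∀ j g, |gap j (s * g) - gap j g| ≤ C0 := by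
    intro s hs j g
    refine (hCL s j g).trans ?_
    rw [hC0]
    exact Finset.single_le_sum (fun s _ => hCL0 s) hs
  obtain ⟨B, hB⟩ : ∃ B : Finset Γ, B = (hg.fin (max R R1 + C0)).toFinset := ⟨_, rfl⟩
  have hBmem : ∀ g, g ∈ B ↔ ∀ j, gap j g ≤ max R R1 + C0 := fun g => by
    rw [hB, Set.Finite.mem_toFinset]; rfl
  have hTB : T ⊆ B := by
    intro g hg'
    rw [hTmem] at hg'
    rw [hBmem]
    intro j
    have := hg' j
    have := le_max_left R R1
    linarith
  refine ⟨B, fun b g => if b = g ∧ b ∈ B then 1 else 0, fun b g => if b ∈ T then c else 0, 0,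
    ?_, ?_, ?_, ?_, ?_, ?_, ?_, ?_, ?_⟩
  · intro b g; dsimp only; split_ifs <;> norm_num
  · intro b g; dsimp only; split_ifs
    · exact hc0.le
    · exact le_rfl
  · intro b hb g; dsimp only; rw [if_neg fun h => hb h.2]
  · intro b hb g; dsimp only; rw [if_neg fun h => hb (hTB h)]
  · intro g
    have h1 : ∀ b ∈ B, (if b = g ∧ b ∈ B then (1 : ℝ) else 0) ^ 2 = if b = g then 1 else 0 := by
      intro b hb
      by_cases h : b = g
      · rw [if_pos ⟨h, hb⟩, if_pos h, one_pow]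
      · rw [if_neg fun h' => h h'.1, if_neg h]; norm_num
    rw [Finset.sum_congr rfl h1, Finset.sum_ite_eq']
    split_ifs <;> norm_num
  · intro g
    have h1 : ∑ b ∈ B, (if b ∈ T then c else 0) ^ 2 = ∑ b ∈ T, c ^ 2 := by
      rw [← Finset.sum_subset hTB]
      · exact Finset.sum_congr rfl fun b hb => by rw [if_pos hb]
      · intro b _ hb; rw [if_neg hb]; norm_num
    rw [h1, Finset.sum_const, nsmul_eq_mul]
    have h2 : (T.card : ℝ) * c ≤ 1 := by
      rw [hc, mul_one_div, div_le_one (by positivity)]; linarith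
    have h3 : (0 : ℝ) ≤ T.card * c := by positivity
    nlinarith
  · intro s hs g _ hgR
    have hgB : g ∈ B := by
      rw [hBmem]
      intro j
      have := hgR j (Finset.notMem_empty j)
      have := le_max_right R R1
      linarith
    have hsgB : s * g ∈ B := by
      rw [hBmem]
      intro j
      have h1 := hgR j (Finset.notMem_empty j)
      have h2 := le_max_right R R1
      have h3 := (abs_le.mp (hCS s hs j g)).2
      linarith
    have h1 : ∀ b, ((if s * b = s * g ∧ s * b ∈ B then (1 : ℝ) else 0) -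
        if b = g ∧ b ∈ B then 1 else 0) ^ 2 = 0 := by
      intro b
      by_cases h : b = g
      · subst h
        rw [if_pos ⟨rfl, hsgB⟩, if_pos ⟨rfl, hgB⟩]; norm_num
      · rw [if_neg fun h' => h (mul_left_cancel h'.1), if_neg fun h' => h h'.1]; norm_num
    rw [Finset.sum_congr rfl fun b _ => h1 b, Finset.sum_const_zero]
    exact hε.le
  · intro u η hη
    refine ⟨0, fun g _ b => ?_⟩
    rw [sub_self, abs_zero]
    exact hη.le
  · intro g _ hgR
    have hgT : g ∈ T := (hTmem g).mpr fun j => hgR j (Finset.notMem_empty j)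
    refine le_trans ?_ (Finset.single_le_sum
      (f := fun b => (if b = g ∧ b ∈ B then (1 : ℝ) else 0) * if b ∈ T then c else 0)
      (fun b _ => mul_nonneg (by split_ifs <;> norm_num) (by split_ifs <;> linarith)) (hTB hgT))
    rw [if_pos ⟨rfl, hTB hgT⟩, if_pos hgT, one_mul]

end empty

/-! ### Mass functions -/

section base

variable {Γ 𝔾 : Type} [Group Γ] [DecidableEq Γ] [Group 𝔾] {t : ℝ} {mass : 𝔾 → (Γ → ℝ) → ℝ}
  {Cpt : Set 𝔾 → Prop} {Ping : (p : ℕ) → (Fin p → 𝔾) → Prop}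

theorem SharpData.zero (h : SharpData t mass Cpt Ping) (w : 𝔾) : mass w (fun _ => 0) = 0 := by
  have := h.smul w (fun _ => 0) 0 0 (fun g => by simp)
  simpa using this

theorem SharpData.sum (h : SharpData t mass Cpt Ping) (w : 𝔾) {α : Type} (T : Finset α)
    (f : α → Γ → ℝ) {C : ℝ} (hf : ∀ i ∈ T, ∀ g, |f i g| ≤ C) :
    mass w (fun g => ∑ i ∈ T, f i g) = ∑ i ∈ T, mass w (f i) := by
  classical
  induction T using Finset.induction_on with
  | empty => simpa using h.zero w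
  | insert i T hi ih =>
    have hC : 0 ≤ C := (abs_nonneg _).trans (hf i (Finset.mem_insert_self i T) 1)
    have h1 : ∀ g, |∑ j ∈ T, f j g| ≤ T.card * C + C := by
      intro g
      refine (Finset.abs_sum_le_sum_abs _ _).trans ?_
      refine (Finset.sum_le_sum fun j hj => hf j (Finset.mem_insert_of_mem hj) g).trans ?_
      rw [Finset.sum_const, nsmul_eq_mul]
      linarith
    have h2 : ∀ g, |f i g| ≤ T.card * C + C := fun g => by
      have := hf i (Finset.mem_insert_self i T) g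
      have : 0 ≤ (T.card : ℝ) * C := by positivity
      linarith
    have h3 := h.add w (f i) (fun g => ∑ j ∈ T, f j g) _ h2 h1
    rw [Finset.sum_insert hi, ← ih fun j hj => hf j (Finset.mem_insert_of_mem hj), ← h3]
    congr 1
    funext g
    rw [Finset.sum_insert hi]

/-- union bound -/
theorem SharpData.union (h : SharpData t mass Cpt Ping) (w : 𝔾) {α : Type} (T : Finset α)
    (P : Γ → Prop) (Q : α → Γ → Prop) (hPQ : ∀ g, P g → ∃ i ∈ T, Q i g) :
    mass w (ind P) ≤ ∑ i ∈ T, mass w (ind (Q i)) := by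
  rw [← h.sum w T (fun i => ind (Q i)) (C := 1) fun i _ g => abs_ind_le _ g]
  refine h.mono w _ _ (1 + T.card) (fun g => ?_) (fun g => ?_) (fun g => ?_)
  · have h2 := abs_ind_le P g
    have h3 : (0 : ℝ) ≤ T.card := by positivity
    linarith
  · refine (Finset.abs_sum_le_sum_abs _ _).trans ?_
    refine (Finset.sum_le_sum fun i _ => abs_ind_le (Q i) g).trans ?_
    rw [Finset.sum_const, nsmul_eq_mul]
    linarith
  · by_cases hg : P g
    · obtain ⟨i, hi, hQ⟩ := hPQ g hg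
      rw [ind_pos (P := P) hg]
      refine le_trans ?_ (Finset.single_le_sum (f := fun i => ind (Q i) g)
        (fun i _ => ind_nonneg _ g) hi)
      exact (ind_pos (P := Q i) hQ).ge
    · rw [ind_neg (P := P) hg]
      exact Finset.sum_nonneg fun i _ => ind_nonneg _ g

theorem SharpData.ind_mono (h : SharpData t mass Cpt Ping) (w : 𝔾) {P Q : Γ → Prop}
    (hPQ : ∀ g, P g → Q g) : mass w (ind P) ≤ mass w (ind Q) := by
  refine h.mono w _ _ 1 (fun g => abs_ind_le _ g) (fun g => abs_ind_le _ g) fun g => ?_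
  by_cases hg : P g
  · rw [ind_pos (P := P) hg, ind_pos (P := Q) (hPQ g hg)]
  · rw [ind_neg (P := P) hg]; exact ind_nonneg _ g

end base

/-! ### The chain -/

section chain

variable {Γ 𝔾 J : Type} [Group Γ] [DecidableEq Γ] [Group 𝔾] [Fintype J] [DecidableEq J] {t : ℝ}
  {mass : 𝔾 → (Γ → ℝ) → ℝ} {Cpt : Set 𝔾 → Prop} {Ping : (p : ℕ) → (Fin p → 𝔾) → Prop}
  {r : ℕ} {gap : J → Γ → ℝ} {cl : J → Fin r} {m : ℕ} {b : Fin m → ℕ → 𝔾} {𝒦 : Fin m → Set 𝔾}

/-- products of elements `b i N`, `i < j` -/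
inductive HS (b : Fin m → ℕ → 𝔾) : ℕ → 𝔾 → Prop
  | one : HS b 0 1
  | step {j : ℕ} {h : 𝔾} (hj : j < m) (N : ℕ) (hh : HS b j h) : HS b (j + 1) (h * b ⟨j, hj⟩ N)

theorem HS.comm_b (hch : GChain Cpt Ping m b 𝒦) {j : ℕ} {h : 𝔾} (hh : HS b j h) :
    ∀ i : Fin m, j ≤ (i : ℕ) → ∀ N, h * b i N = b i N * h := by
  induction hh with
  | one => intro i _ N; rw [one_mul, mul_one]
  | step hj M hh ih =>
    intro i hi N
    rw [mul_assoc, hch.comm_b ⟨_, hj⟩ i (Fin.mk_lt_of_lt_val (by omega)) M N, ← mul_assoc,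
      ih i (by omega) N, mul_assoc]

theorem HS.comm_K (hch : GChain Cpt Ping m b 𝒦) {j : ℕ} {h : 𝔾} (hh : HS b j h) :
    ∀ i : Fin m, j ≤ (i : ℕ) → ∀ κ ∈ 𝒦 i, h * κ = κ * h := by
  induction hh with
  | one => intro i _ κ _; rw [one_mul, mul_one]
  | step hj M hh ih =>
    intro i hi κ hκ
    rw [mul_assoc, hch.comm_K ⟨_, hj⟩ i (Fin.mk_lt_of_lt_val (by omega)) M κ hκ, ← mul_assoc,
      ih i (by omega) κ hκ, mul_assoc]

/-- The statement of the chain: some set of at least `j` classes of gaps is simultaneously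
unbounded, with mass bounded below, along the products `HS b j`. -/
def TT (mass : 𝔾 → (Γ → ℝ) → ℝ) (gap : J → Γ → ℝ) (cl : J → Fin r) (b : Fin m → ℕ → 𝔾)
    (j : ℕ) : Prop :=
  ∃ (c : ℝ) (Θ : Finset (Fin r)), 0 < c ∧ j ≤ Θ.card ∧ ∀ R : ℝ, ∃ h, HS b j h ∧
    c ≤ mass h (ind fun g => Θ ⊆ big gap cl R g)

theorem big_anti {R R' : ℝ} (hR : R ≤ R') (g : Γ) : big gap cl R' g ⊆ big gap cl R g := by
  intro c hc
  obtain ⟨j, h1, h2⟩ := mem_big.mp hc
  exact mem_big.mpr ⟨j, h1, hR.trans h2⟩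

theorem tt_zero (h : SharpData t mass Cpt Ping) : TT mass gap cl b 0 := by
  refine ⟨t, ∅, h.pos, Nat.zero_le _, fun R => ⟨1, HS.one, ?_⟩⟩
  rw [← h.one 1]
  have e : (ind fun g => (∅ : Finset (Fin r)) ⊆ big gap cl R g) = fun _ : Γ => (1 : ℝ) := by
    funext g
    exact ind_pos (P := fun g => (∅ : Finset (Fin r)) ⊆ big gap cl R g) (Finset.empty_subset _)
  rw [e]

theorem tt_step (h : SharpData t mass Cpt Ping) (hg : Gaps gap cl)
    (hgeo : ∀ θ : Finset J, θ.Nonempty → (∀ i ∈ θ, ∀ j, cl i = cl j → j ∈ θ) → Geo gap θ)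
    (hch : GChain Cpt Ping m b 𝒦) {j : ℕ} (hj : j < m) (hT : TT mass gap cl b j) :
    TT mass gap cl b (j + 1) := by
  classical
  by_contra hcon
  obtain ⟨c0, Θ, hc0, hΘcard, hTm⟩ := hT
  choose Rc hRc using hg.comp
  obtain ⟨ρ, hρ⟩ : ∃ ρ : ℕ → ℝ, ∀ k, ρ k = Rc (2 * ((k : ℝ) + 1)) + 1 := ⟨_, fun _ => rfl⟩
  choose w hwH hwm using fun k : ℕ => hTm (ρ k)
  obtain ⟨U, hU⟩ : ∃ U : Ultrafilter ℕ, (U : Filter ℕ) ≤ atTop :=
    ⟨hyperfilter ℕ, Nat.hyperfilter_le_atTop⟩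
  obtain ⟨j0, hj0⟩ : ∃ j0 : Fin m, j0 = ⟨j, hj⟩ := ⟨_, rfl⟩
  obtain ⟨θ, hθ⟩ : ∃ θ : Finset J, θ = Finset.univ.filter fun j => cl j ∈ Θ := ⟨_, rfl⟩
  have hmemθ : ∀ j, j ∈ θ ↔ cl j ∈ Θ := fun j => by rw [hθ, Finset.mem_filter]; simp
  have hlarge : ∀ (k : ℕ) (g : Γ), Θ ⊆ big gap cl (ρ k) g →
      ∀ j ∈ θ, 2 * ((k : ℝ) + 1) ≤ gap j g := by
    intro k g hsub j hj
    obtain ⟨i, hi1, hi2⟩ := mem_big.mp (hsub ((hmemθ j).mp hj))
    by_contra hc
    push Not at hc
    have h1 := hRc (2 * ((k : ℝ) + 1)) j i hi1.symm g hc.le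
    rw [hρ] at hi2
    linarith
  have hclass : ∀ c ∈ Θ, ∃ j, cl j = c := by
    intro c hc
    by_contra hne
    have h2 : (ind fun g => Θ ⊆ big gap cl (ρ 0) g) = fun _ : Γ => (0 : ℝ) := by
      funext g
      refine ind_neg (P := fun g => Θ ⊆ big gap cl (ρ 0) g) fun hsub => hne ?_
      obtain ⟨j, hj, _⟩ := mem_big.mp (hsub hc)
      exact ⟨j, hj⟩
    have h1 := hwm 0
    rw [h2, h.zero] at h1
    linarith
  have hθgeo : Geo gap θ := by
    rcases θ.eq_empty_or_nonempty with h1 | h1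
    · rw [h1]; exact geo_empty hg
    · refine hgeo θ h1 fun i hi j hij => ?_
      rw [hmemθ] at hi ⊢
      rwa [← hij]
  -- a uniform bound for the other classes
  obtain ⟨δ, hδ0, hδ⟩ : ∃ δ : ℝ, 0 < δ ∧ (r : ℝ) * (2 * δ) ≤ c0 / 4 := by
    refine ⟨c0 / (8 * ((r : ℝ) + 1)), by positivity, ?_⟩
    rw [mul_div_assoc', mul_div_assoc', div_le_div_iff₀ (by positivity) (by positivity)]
    nlinarith
  obtain ⟨F0, C1, hC1, hF0⟩ := h.unif (𝒦 j0) (hch.cpt j0) δ hδ0
  obtain ⟨δ1, hδ1, hδ10⟩ : ∃ δ1 : ℝ, δ1 = δ / (C1 + 1) ∧ 0 < δ1 := ⟨_, rfl, by positivity⟩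
  have hR1 : ∀ x : Fin r, ∃ R : ℝ, x ∉ Θ → ∀ h, HS b (j + 1) h →
      mass h (ind fun g => insert x Θ ⊆ big gap cl R g) ≤ δ1 := by
    intro x
    by_contra hx
    push Not at hx
    refine hcon ⟨δ1, insert x Θ, hδ10, ?_, fun R => ?_⟩
    · rw [Finset.card_insert_of_notMem (hx 0).1]; omega
    · obtain ⟨_, h', h1, h2⟩ := hx R
      exact ⟨h', h1, h2.le⟩
  choose Rx hRx using hR1
  obtain ⟨R', hR'⟩ : ∃ R' : ℝ, ∀ x, Rx x ≤ R' := by
    refine ⟨∑ x, |Rx x|, fun x => (le_abs_self _).trans ?_⟩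
    exact Finset.single_le_sum (f := fun x => |Rx x|) (fun x _ => abs_nonneg _) (Finset.mem_univ x)
  choose Cq hCq using hg.quasi
  obtain ⟨CF, hCF⟩ : ∃ CF : ℝ, ∀ a ∈ F0, ∀ b ∈ F0, Cq a b ≤ CF := by
    refine ⟨∑ a ∈ F0, ∑ b ∈ F0, |Cq a b|, fun a ha b hb => (le_abs_self _).trans ?_⟩
    refine le_trans ?_ (Finset.single_le_sum (f := fun a => ∑ b ∈ F0, |Cq a b|)
      (fun a _ => Finset.sum_nonneg fun b _ => abs_nonneg _) ha)
    exact Finset.single_le_sum (f := fun b => |Cq a b|) (fun b _ => abs_nonneg _) hb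
  obtain ⟨R, hR⟩ : ∃ R : ℝ, R = R' + CF := ⟨_, rfl⟩
  -- the bad set
  obtain ⟨bad, hbad⟩ : ∃ bad : Γ → Prop, ∀ g, bad g ↔ ∃ x, x ∉ Θ ∧ insert x Θ ⊆ big gap cl R g :=
    ⟨_, fun _ => Iff.rfl⟩
  have hbadm : ∀ h', HS b (j + 1) h' → ∀ κ ∈ 𝒦 j0, ∀ κ' ∈ 𝒦 j0,
      mass (κ * h' * κ') (ind bad) ≤ c0 / 4 := by
    intro h' hh' κ hκ κ' hκ'
    refine (h.union (κ * h' * κ') (Finset.univ.filter fun x => x ∉ Θ) bad
      (fun x g => insert x Θ ⊆ big gap cl R g) fun g hg' => ?_).trans ?_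
    · obtain ⟨x, hx1, hx2⟩ := (hbad g).mp hg'
      exact ⟨x, by simp [hx1], hx2⟩
    · have h1 : ∀ x ∈ (Finset.univ.filter fun x => x ∉ Θ),
          mass (κ * h' * κ') (ind fun g => insert x Θ ⊆ big gap cl R g) ≤ 2 * δ := by
        intro x hx
        rw [Finset.mem_filter] at hx
        refine (hF0 κ hκ κ' hκ' h' _).trans ?_
        have h2 : mass h' (ind fun g => ∃ a ∈ F0, ∃ b ∈ F0, insert x Θ ⊆ big gap cl R (a * g * b)) ≤
            mass h' (ind fun g => insert x Θ ⊆ big gap cl (Rx x) g) := by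
          refine h.ind_mono h' fun g hg' => ?_
          obtain ⟨a, ha, b', hb', hab⟩ := hg'
          intro c hc
          obtain ⟨i, hi1, hi2⟩ := mem_big.mp (hab hc)
          refine mem_big.mpr ⟨i, hi1, ?_⟩
          have h3 := (abs_le.mp (hCq a b' i g)).2
          have h4 := hCF a ha b' hb'
          have h5 := hR' x
          linarith
        have h3 := h2.trans (hRx x hx.2 h' hh')
        have h4 := mul_le_mul_of_nonneg_left h3 hC1
        have h5 : C1 * δ1 ≤ δ := by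
          rw [hδ1, mul_div_assoc', div_le_iff₀ (by positivity)]
          nlinarith
        linarith
      refine (Finset.sum_le_sum h1).trans ?_
      rw [Finset.sum_const, nsmul_eq_mul]
      refine le_trans ?_ hδ
      have : (((Finset.univ : Finset (Fin r)).filter fun x => x ∉ Θ).card : ℝ) ≤ r := by
        have := Finset.card_le_univ ((Finset.univ : Finset (Fin r)).filter fun x => x ∉ Θ)
        rw [Fintype.card_fin] at this
        exact_mod_cast this
      gcongr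
  obtain ⟨c, hcpos, hfam⟩ := fam_of_geo hg hθgeo hU R
  have hk1 : ∀ k : ℕ, (0 : ℝ) < (k : ℝ) + 1 := fun k => by positivity
  obtain ⟨χ, hχ⟩ : ∃ χ : ℕ → Γ → ℝ, ∀ k g, χ k g = (up gap θ ((k : ℝ) + 1) g) ^ 2 :=
    ⟨_, fun _ _ => rfl⟩
  have hχ01 : ∀ k g, 0 ≤ χ k g ∧ χ k g ≤ 1 := by
    intro k g
    rw [hχ]
    have := up_mem gap θ ((k : ℝ) + 1) g
    exact ⟨sq_nonneg _, pow_le_one₀ this.1 this.2⟩
  have hχabs : ∀ k g, |χ k g| ≤ 1 := fun k g => by
    rw [abs_of_nonneg (hχ01 k g).1]; exact (hχ01 k g).2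
  have hχr : ∀ u : Γ, Usm U (fun k g => χ k (g * u) - χ k g) := by
    intro u δ' hδ'
    obtain ⟨C, hC0, hC⟩ := hg.right u
    filter_upwards [tendsto_div_nat ((Fintype.card J : ℝ) * C) hU (half_pos hδ')] with k hk g
    have h1 := up_lip (θ := θ) (h := g * u) (g := g) (hk1 k) hC0 fun j => hC j g
    rw [mul_div_assoc'] at h1
    have h2 := up_mem gap θ ((k : ℝ) + 1) g
    have h3 := up_mem gap θ ((k : ℝ) + 1) (g * u)
    rw [hχ, hχ]
    have e : up gap θ ((k : ℝ) + 1) (g * u) ^ 2 - up gap θ ((k : ℝ) + 1) g ^ 2 =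
        (up gap θ ((k : ℝ) + 1) (g * u) - up gap θ ((k : ℝ) + 1) g) *
        (up gap θ ((k : ℝ) + 1) (g * u) + up gap θ ((k : ℝ) + 1) g) := by ring
    rw [e, abs_mul]
    have h4 : |up gap θ ((k : ℝ) + 1) (g * u) + up gap θ ((k : ℝ) + 1) g| ≤ 2 := by
      rw [abs_of_nonneg (by linarith)]; linarith
    calc _ ≤ (δ' / 2) * 2 := mul_le_mul (h1.trans hk) h4 (abs_nonneg _) (by positivity)
      _ = δ' := by ring
  -- the pairing lemma for `p` elements
  obtain ⟨A, hA⟩ := h.pairF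
  obtain ⟨c2, hc2, hc20⟩ : ∃ c2 : ℝ, c2 = c * (c0 / 2) ∧ 0 < c2 := ⟨_, rfl, by positivity⟩
  have hmain : ∀ p : ℕ, (p : ℝ) * c2 ≤ A * Real.sqrt p := by
    intro p
    obtain ⟨N, κ, κ', hκ, hκ', hping⟩ := hch.ping j0 p
    have hwu : ∀ k l, w k * (κ l * b j0 N * κ' l) = (κ l * b j0 N * κ' l) * w k := by
      intro k l
      have e1 := (hwH k).comm_K hch j0 (by rw [hj0]) (κ l) (hκ l)
      have e2 := (hwH k).comm_K hch j0 (by rw [hj0]) (κ' l) (hκ' l)
      have e3 := (hwH k).comm_b hch j0 (by rw [hj0]) N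
      calc w k * (κ l * b j0 N * κ' l) = (w k * κ l) * b j0 N * κ' l := by group
        _ = κ l * (w k * b j0 N) * κ' l := by rw [e1]; group
        _ = κ l * b j0 N * (w k * κ' l) := by rw [e3]; group
        _ = _ := by rw [e2]; group
    refine hA p _ hping U w hwu c2 hc20 fun S ε' hε' => ?_
    obtain ⟨B, F, H, hBFH, hlow⟩ := hfam S ε' hε'
    refine ⟨B, F, H, hBFH, fun l => ?_⟩
    have hinv := h.inv U w (κ l * b j0 N * κ' l) (fun k => hwu k l) χ hχ01 hχr
    have hinv' : ∀ᶠ k in U,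
        |mass (w k * (κ l * b j0 N * κ' l)) (χ k) - mass (w k) (χ k)| < c0 / 4 := by
      have := Metric.tendsto_nhds.mp hinv (c0 / 4) (by positivity)
      filter_upwards [this] with k hk
      rwa [Real.dist_eq, sub_zero] at hk
    filter_upwards [hinv', hlow, eventually_nat_ge R hU] with k hk3 hk4 hk5
    obtain ⟨x, hx⟩ : ∃ x : 𝔾, x = w k * (κ l * b j0 N * κ' l) := ⟨_, rfl⟩
    rw [← hx] at hk3 ⊢
    have h1 : c0 ≤ mass (w k) (χ k) := by
      refine (hwm k).trans (h.mono (w k) _ _ 1 (fun g => abs_ind_le _ g) (hχabs k) fun g => ?_)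
      by_cases hsub : Θ ⊆ big gap cl (ρ k) g
      · rw [ind_pos (P := fun g => Θ ⊆ big gap cl (ρ k) g) hsub, hχ,
          up_eq_one (hk1 k) (hlarge k g hsub), one_pow]
      · rw [ind_neg (P := fun g => Θ ⊆ big gap cl (ρ k) g) hsub]
        exact (hχ01 k g).1
    have h2 : 3 / 4 * c0 ≤ mass x (χ k) := by
      have := (abs_lt.mp hk3).1
      linarith
    have h3 : mass x (ind bad) ≤ c0 / 4 := by
      have e : x = κ l * (w k * b j0 N) * κ' l := by
        have e1 := (hwH k).comm_K hch j0 (by rw [hj0]) (κ l) (hκ l)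
        rw [hx]
        calc w k * (κ l * b j0 N * κ' l) = (w k * κ l) * b j0 N * κ' l := by group
          _ = _ := by rw [e1]; group
      rw [e]
      refine hbadm _ ?_ (κ l) (hκ l) (κ' l) (hκ' l)
      rw [hj0]
      exact HS.step hj N (hwH k)
    obtain ⟨FH, hFH⟩ : ∃ FH : Γ → ℝ, ∀ g, FH g = ∑ b ∈ B, F k b g * H k b g := ⟨_, fun _ => rfl⟩
    have hFH0 : ∀ g, 0 ≤ FH g := fun g => by
      rw [hFH]
      exact Finset.sum_nonneg fun b _ => mul_nonneg (hBFH.nonnegF _ _ _) (hBFH.nonnegH _ _ _)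
    have hFH1 : ∀ g, FH g ≤ 1 := fun g => by
      rw [hFH]
      have h5 : ∀ b ∈ B, F k b g * H k b g ≤ 1 / 2 * F k b g ^ 2 + 1 / 2 * H k b g ^ 2 := by
        intro b _
        nlinarith [sq_nonneg (F k b g - H k b g)]
      refine (Finset.sum_le_sum h5).trans ?_
      rw [Finset.sum_add_distrib, ← Finset.mul_sum, ← Finset.mul_sum]
      have := hBFH.sumF k g
      have := hBFH.sumH k g
      linarith
    have hmono : c * mass x (χ k) ≤ mass x FH + c * mass x (ind bad) := by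
      have hb1 : ∀ g, |c * χ k g| ≤ 1 + c := fun g => by
        rw [abs_mul, abs_of_pos hcpos]
        have := hχabs k g
        nlinarith
      have hb2 : ∀ g, |FH g| ≤ 1 + c := fun g => by
        rw [abs_of_nonneg (hFH0 g)]
        have := hFH1 g
        linarith
      have hb3 : ∀ g, |c * ind bad g| ≤ 1 + c := fun g => by
        rw [abs_mul, abs_of_pos hcpos]
        have := abs_ind_le bad g
        nlinarith
      rw [← h.smul _ _ 1 c (hχabs k), ← h.smul _ _ 1 c (fun g => abs_ind_le _ g),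
        ← h.add _ _ _ (1 + c) hb2 hb3]
      refine h.mono _ _ _ (2 * (1 + c)) (fun g => ?_) (fun g => ?_) (fun g => ?_)
      · have := hb1 g
        linarith [abs_nonneg (c * χ k g)]
      · refine (abs_add_le _ _).trans ?_
        have := hb2 g
        have := hb3 g
        linarith
      · by_cases hu : up gap θ ((k : ℝ) + 1) g = 0
        · rw [hχ, hu, zero_pow two_ne_zero, mul_zero]
          exact add_nonneg (hFH0 g) (mul_nonneg hcpos.le (ind_nonneg _ g))
        · have hup := up_ne (hk1 k) hu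
          by_cases hb : ∀ j, j ∉ θ → gap j g ≤ R
          · have h6 := hk4 g hb
            rw [← hFH, ← hχ] at h6
            have := mul_nonneg hcpos.le (ind_nonneg bad g)
            linarith
          · push Not at hb
            obtain ⟨i, hi1, hi2⟩ := hb
            have hbg : bad g := by
              rw [hbad]
              refine ⟨cl i, fun h => hi1 ((hmemθ i).mpr h), ?_⟩
              intro y hy
              rw [Finset.mem_insert] at hy
              rcases hy with rfl | hy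
              · exact mem_big.mpr ⟨i, rfl, hi2.le⟩
              · obtain ⟨i', hi'⟩ := hclass y hy
                exact mem_big.mpr ⟨i', hi',
                  hk5.trans (hup i' ((hmemθ i').mpr (by rw [hi']; exact hy)))⟩
            rw [ind_pos (P := bad) hbg]
            have := (hχ01 k g).2
            have := hFH0 g
            nlinarith
    have e : (fun g => ∑ b ∈ B, F k b g * H k b g) = FH := by funext g; rw [hFH]
    rw [e, hc2]
    nlinarith
  -- `p` large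
  obtain ⟨n, hn⟩ := exists_nat_gt (|A| / c2)
  have h1 := hmain ((n + 1) ^ 2)
  have h2 : Real.sqrt (((n + 1) ^ 2 : ℕ) : ℝ) = (n : ℝ) + 1 := by
    push_cast
    exact Real.sqrt_sq (by positivity)
  rw [h2] at h1
  push_cast at h1
  have h3 : |A| < n * c2 := by rwa [div_lt_iff₀ hc20] at hn
  have h4 : A ≤ |A| := le_abs_self A
  have h5 : (0 : ℝ) ≤ n := by positivity
  nlinarith [mul_pos (show (0 : ℝ) < (n : ℝ) + 1 by positivity) hc20]

/-- **The sharp rank theorem, abstract form.** -/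
theorem sharpAbs (h : SharpData t mass Cpt Ping) (hg : Gaps gap cl)
    (hgeo : ∀ θ : Finset J, θ.Nonempty → (∀ i ∈ θ, ∀ j, cl i = cl j → j ∈ θ) → Geo gap θ)
    (hch : GChain Cpt Ping m b 𝒦) (hrm : r < m) : False := by
  have hTT : ∀ j, j ≤ m → TT mass gap cl b j := by
    intro j
    induction j with
    | zero => intro _; exact tt_zero h
    | succ j ih => intro hj; exact tt_step h hg hgeo hch hj (ih (by omega))
  obtain ⟨c, Θ, _, h2, _⟩ := hTT m le_rfl
  have h3 : Θ.card ≤ r := by simpa using Finset.card_le_univ Θ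
  omega

end chain

end Vale.Agent.P092.H761
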