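import Vale.Agent.P092.H761.Coef
import Vale.Agent.P092.H761.SharpInst

/-!
P092 (helper761), coefficient version of the engine, part 2: covariant families on the fibre, the
induced covariant families, and the instance of `SharpData` in which the target coordinate is the
first leg of a representation in (an amplification of) `L(Γ × Q) = L(Γ) ⊗ L(Q)`.
-/

set_option linter.all false

open scoped InnerProductSpace ComplexOrder
open Filter Topology ContinuousLinearMap MeasureTheory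

namespace Vale.Agent.P092.H761

open Vale.Agent.P092.H160 Vale.Agent.P092.H553 Vale.Agent.P092.H200 Vale.Agent.P092.H432
open Vale.Agent.P092.H538 Vale.Agent.P092.H132
open Vale.Agent.P092.H790 (CData Fld fop fop_spec fld_one fld_comp Ri ri_ae ae_comp act_inv c_inv
  ri_one baseL trep lxt)

/-- Normal additive covariant families of positive operators on the subsets of `Λ`. -/
structure CovFam {Λ K : Type} [Group Λ] [NormedAddCommGroup K] [InnerProductSpace ℂ K]
    [CompleteSpace K] (R : Λ → (K →L[ℂ] K)) (E0 : Set Λ → (K →L[ℂ] K)) : Prop where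
  nonneg : ∀ A, 0 ≤ E0 A
  add : ∀ A A', Disjoint A A' → E0 (A ∪ A') = E0 A + E0 A'
  univ : E0 Set.univ = R 1
  lim : ∀ A y, Tendsto (fun s : Finset Λ => E0 (A ∩ (s : Set Λ)) y) atTop (𝓝 (E0 A y))
  cov : ∀ v A, R v * E0 A * R v⁻¹ = E0 {w | w * v ∈ A}

section fib

variable {Λ K : Type} [Group Λ] [NormedAddCommGroup K] [InnerProductSpace ℂ K]
    [CompleteSpace K] {R : Λ → (K →L[ℂ] K)} {E0 : Set Λ → (K →L[ℂ] K)}

theorem CovFam.le (h : CovFam R E0) (A : Set Λ) : E0 A ≤ R 1 := by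
  have h1 := h.add A Aᶜ disjoint_compl_right
  rw [Set.union_compl_self, h.univ] at h1
  rw [h1]
  exact le_add_of_nonneg_right (h.nonneg _)

theorem CovFam.norm_le (h : CovFam R E0) (A : Set Λ) : ‖E0 A‖ ≤ ‖R 1‖ :=
  CStarAlgebra.norm_le_norm_of_nonneg_of_le (h.nonneg A) (h.le A)

theorem CovFam.empty (h : CovFam R E0) : E0 ∅ = 0 := by
  have h1 := h.add ∅ ∅ disjoint_bot_left
  rw [Set.union_empty] at h1
  exact left_eq_add.mp h1

open Classical in
theorem CovFam.finset (h : CovFam R E0) (A : Set Λ) (s : Finset Λ) :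
    E0 (A ∩ (s : Set Λ)) = ∑ w ∈ s, if w ∈ A then E0 {w} else 0 := by
  classical
  induction s using Finset.induction_on with
  | empty => rw [Finset.coe_empty, Set.inter_empty, h.empty, Finset.sum_empty]
  | insert w s hw ih =>
    rw [Finset.sum_insert hw, ← ih]
    by_cases hA : w ∈ A
    · rw [if_pos hA, ← h.add]
      · congr 1
        ext v
        simp only [Finset.coe_insert, Set.mem_inter_iff, Set.mem_insert_iff, Finset.mem_coe,
          Set.mem_union, Set.mem_singleton_iff]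
        constructor
        · rintro ⟨h1, h2 | h2⟩
          · exact Or.inl h2
          · exact Or.inr ⟨h1, h2⟩
        · rintro (h1 | ⟨h1, h2⟩)
          · rw [h1]; exact ⟨hA, Or.inl rfl⟩
          · exact ⟨h1, Or.inr h2⟩
      · rw [Set.disjoint_singleton_left]
        intro h1
        exact hw h1.2
    · rw [if_neg hA, zero_add]
      congr 1
      ext v
      simp only [Finset.coe_insert, Set.mem_inter_iff, Set.mem_insert_iff, Finset.mem_coe]
      constructor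
      · rintro ⟨h1, h2 | h2⟩
        · exact absurd (h2 ▸ h1) hA
        · exact ⟨h1, h2⟩
      · rintro ⟨h1, h2⟩
        exact ⟨h1, Or.inr h2⟩

theorem CovFam.aesm (h : CovFam R E0) {X : Type*} [MeasurableSpace X] {μ : Measure X}
    [Countable Λ] {S : X → Set Λ} (hS : ∀ w, MeasurableSet {x | w ∈ S x}) (y : K) :
    AEStronglyMeasurable (fun x => E0 (S x) y) μ := by
  classical
  refine aestronglyMeasurable_of_tendsto_ae (atTop : Filter (Finset Λ))
    (f := fun s x => E0 (S x ∩ (s : Set Λ)) y) (fun s => ?_)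
    (Eventually.of_forall fun x => h.lim (S x) y)
  have h1 : (fun x => E0 (S x ∩ (s : Set Λ)) y) = fun x =>
      ∑ w ∈ s, ({x | w ∈ S x} : Set X).indicator (fun _ => E0 {w} y) x := by
    funext x
    rw [h.finset, sum_apply]
    refine Finset.sum_congr rfl fun w _ => ?_
    by_cases h : w ∈ S x
    · rw [if_pos h, Set.indicator_of_mem (show x ∈ {x | w ∈ S x} from h)]
    · rw [if_neg h, Set.indicator_of_notMem (show x ∉ {x | w ∈ S x} from h), zero_apply]
  rw [h1]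
  refine Finset.aestronglyMeasurable_fun_sum _ fun w _ => ?_
  exact aestronglyMeasurable_const.indicator (hS w)

end fib

section ind

variable {Λ K 𝔾 : Type} [Group Λ] [Group 𝔾] [Countable Λ] [NormedAddCommGroup K]
  [InnerProductSpace ℂ K] [CompleteSpace K] {R : Λ → (K →L[ℂ] K)} {E0 : Set Λ → (K →L[ℂ] K)}
  (d : CData 𝔾 Λ) {Y : Type} (ϑ : d.X → Λ → Y)

/-- the induced family -/
noncomputable def EI (E0 : Set Λ → (K →L[ℂ] K)) (A : Set Y) : Lp K 2 d.μ →L[ℂ] Lp K 2 d.μ :=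
  fop d.μ (fun x => E0 {w | ϑ x w ∈ A})

variable {ϑ} {A A' : Set Y} (h : CovFam R E0)

include h

theorem fld_ei (hA : ∀ w, MeasurableSet {x | ϑ x w ∈ A}) :
    Fld (EI d ϑ E0 A) (fun x => E0 {w | ϑ x w ∈ A}) :=
  fop_spec (h.aesm (S := fun x => {w | ϑ x w ∈ A}) hA) (fun x => h.norm_le _)

theorem ei_nonneg (hA : ∀ w, MeasurableSet {x | ϑ x w ∈ A}) : 0 ≤ EI d ϑ E0 A := by
  have h1 := fld_ei d h hA
  refine H108.nonneg_of_inner ?_ fun ζ => ?_
  · rw [IsSelfAdjoint, star_eq_adjoint]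
    refine h1.adjoint h1 (Eventually.of_forall fun x => ?_)
    rw [← star_eq_adjoint, (IsSelfAdjoint.of_nonneg (h.nonneg _)).star_eq]
  · have h2 := Fld.inner fld_one h1 ζ ζ
    change ⟪ζ, EI d ϑ E0 A ζ⟫_ℂ = _ at h2
    rw [h2]
    have h3 : Integrable (fun x => ⟪ζ x, E0 {w | ϑ x w ∈ A} (ζ x)⟫_ℂ) d.μ := by
      refine (L2.integrable_inner (𝕜 := ℂ) ζ (EI d ϑ E0 A ζ)).congr ?_
      filter_upwards [h1 ζ] with x hx
      rw [hx]
    have h4 := integral_re (𝕜 := ℂ) h3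
    change 0 ≤ RCLike.re (∫ x, ⟪ζ x, E0 {w | ϑ x w ∈ A} (ζ x)⟫_ℂ ∂d.μ)
    rw [← h4]
    exact integral_nonneg fun x => H108.inner_nonneg_of_nonneg (h.nonneg _) _

theorem ei_add (hA : ∀ w, MeasurableSet {x | ϑ x w ∈ A})
    (hA' : ∀ w, MeasurableSet {x | ϑ x w ∈ A'}) (hd : Disjoint A A') :
    EI d ϑ E0 (A ∪ A') = EI d ϑ E0 A + EI d ϑ E0 A' := by
  have hU : ∀ w, MeasurableSet {x | ϑ x w ∈ A ∪ A'} := fun w => (hA w).union (hA' w)
  refine (fld_ei d h hU).ext ((fld_ei d h hA).add (fld_ei d h hA'))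
    (Eventually.of_forall fun x => ?_)
  rw [← h.add]
  · rfl
  · rw [Set.disjoint_left]
    intro w h1 h2
    exact (Set.disjoint_left.mp hd) h1 h2

theorem ei_univ (hu : ∀ v, ‖R v‖ ≤ 1) : EI d ϑ E0 Set.univ = Ri d R 1 := by
  have hU : ∀ w, MeasurableSet {x | ϑ x w ∈ (Set.univ : Set Y)} := fun w => by
    simp only [Set.mem_univ, Set.setOf_true]
    exact MeasurableSet.univ
  rw [ri_one d hu]
  refine (fld_ei d h hU).ext (fld_comp _) (Eventually.of_forall fun x => ?_)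
  have h5 : ({w : Λ | ϑ x w ∈ (Set.univ : Set Y)}) = Set.univ := by
    ext w; simp
  rw [h5, h.univ]

theorem ei_cov [MulAction 𝔾 Y] (hu : ∀ v, ‖R v‖ ≤ 1)
    (hϑ : ∀ g x w, ϑ (d.act g x) w = g • ϑ x (w * d.c g x))
    (hA : ∀ w, MeasurableSet {x | ϑ x w ∈ A}) (g : 𝔾)
    (hgA : ∀ w, MeasurableSet {x | ϑ x w ∈ {y | g⁻¹ • y ∈ A}}) :
    Ri d R g * EI d ϑ E0 A * Ri d R g⁻¹ = EI d ϑ E0 {y | g⁻¹ • y ∈ A} := by
  refine ContinuousLinearMap.ext fun ξ => Lp.ext ?_
  filter_upwards [ri_ae d hu g (EI d ϑ E0 A (Ri d R g⁻¹ ξ)),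
    ae_comp (d.mp g⁻¹) (fld_ei d h hA (Ri d R g⁻¹ ξ)),
    ae_comp (d.mp g⁻¹) (ri_ae d hu g⁻¹ ξ), fld_ei d h hgA ξ] with x h1 h2 h3 h4
  change (Ri d R g (EI d ϑ E0 A (Ri d R g⁻¹ ξ))) x = _
  rw [h1, h2, h3, h4, inv_inv, act_inv]
  have e1 : d.c g⁻¹ x = (d.c g (d.act g⁻¹ x))⁻¹ := by
    have := c_inv d g (d.act g⁻¹ x)
    rwa [act_inv] at this
  rw [e1]
  obtain ⟨v, hv⟩ : ∃ v, v = d.c g (d.act g⁻¹ x) := ⟨_, rfl⟩
  rw [← hv]
  have e2 := congrArg (fun T : K →L[ℂ] K => T (ξ x)) (h.cov v {w | ϑ (d.act g⁻¹ x) w ∈ A})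
  have e3 : {w : Λ | w * v ∈ {w | ϑ (d.act g⁻¹ x) w ∈ A}} =
      {w | ϑ x w ∈ {y | g⁻¹ • y ∈ A}} := by
    ext w
    simp only [Set.mem_setOf_eq]
    have e4 := hϑ g (d.act g⁻¹ x) w
    rw [act_inv, ← hv] at e4
    rw [e4, inv_smul_smul]
  rw [e3] at e2
  exact e2

theorem ei_ind {S : Set d.X} (hS : MeasurableSet S) (hA : ∀ w, MeasurableSet {x | ϑ x w ∈ A}) :
    EI d ϑ E0 A * H790.ind d.μ K S = H790.ind d.μ K S * EI d ϑ E0 A :=
  (fld_ei d h hA).ind hS

theorem ei_comp {T : K →L[ℂ] K} (hT : ∀ A, E0 A * T = T * E0 A)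
    (hA : ∀ w, MeasurableSet {x | ϑ x w ∈ A}) :
    EI d ϑ E0 A * T.compLpL 2 d.μ = T.compLpL 2 d.μ * EI d ϑ E0 A :=
  ((fld_ei d h hA).mul (fld_comp T)).ext ((fld_comp T).mul (fld_ei d h hA))
    (Eventually.of_forall fun x => hT _)

end ind

section inst

variable {E : Type} [Group E] [TopologicalSpace E] [IsTopologicalGroup E] [LocallyCompactSpace E]
  [SecondCountableTopology E] [T2Space E] [MeasurableSpace E] [BorelSpace E]

variable (Λ : Subgroup E) [DiscreteTopology Λ] [MeasurableSpace (E ⧸ Λ)] [BorelSpace (E ⧸ Λ)]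
  (ν : Measure (E ⧸ Λ)) [IsProbabilityMeasure ν] (hν : ∀ g : E, ν.map (fun x => g • x) = ν)
  {Γ Q ι : Type} [Group Γ] [DecidableEq Γ] [Countable Γ] [Group Q] [Countable Q] [Fintype ι]
  {t : ℝ} {R : Λ → (Ell2 ((Γ × Q) × ι) →L[ℂ] Ell2 ((Γ × Q) × ι))}
  {E0 : Set Λ → (Ell2 ((Γ × Q) × ι) →L[ℂ] Ell2 ((Γ × Q) × ι))}

/-- The covariant family of the induced representation, coefficient version. -/
theorem efam_coef (hR : ARep t R) (hE : CovFam R E0)
    (hq : ∀ A (q : Q), E0 A * lx ((1 : Γ), q) = lx ((1 : Γ), q) * E0 A) :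
    EFamX (coef (baseL (H85.cdat ν hν).μ (Γ × Q) ι)) (Ri (H85.cdat ν hν) R)
      {A : Set E | MeasurableSet A} (EI (H85.cdat ν hν) (H85.thet (Λ := Λ)) E0) := by
  have : Countable Λ := H790.countable_of_discrete Λ
  have hm : ∀ A ∈ {A : Set E | MeasurableSet A}, ∀ w : Λ,
      MeasurableSet {x : (H85.cdat ν hν).X | H85.thet x w ∈ A} := fun A hA w => H85.thet_meas w hA
  refine efamX_coef ⟨fun A hA => ei_nonneg _ hE (hm A hA),
    fun A hA A' hA' hd => ei_add _ hE (hm A hA) (hm A' hA') hd,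
    ei_univ _ hE fun v => hR.opNorm_le v, fun v A hA => ?_, ?_⟩ fun A hA q => ?_
  · exact ei_cov _ hE (fun v => hR.opNorm_le v) (fun g x w => H85.thet_act g x w) (hm A hA) v
      (hm _ ((setAlg_borel (E := E)).smul_mem v A hA))
  · rintro A hA a ⟨S, hS, rfl⟩
    exact ei_ind _ hE hS (hm A hA)
  · exact ei_comp _ hE (fun A => hq A q) (hm A hA)

/-- The masses of the first leg. -/
noncomputable def massC (g : E) (F : Γ → ℝ) : ℝ :=
  massX (baseL (H85.cdat ν hν).μ (Γ × Q) ι) (Ri (H85.cdat ν hν) R) g fun x => F x.1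

theorem ind_fst (S : Γ → Prop) : (fun x : Γ × Q => H538.ind S x.1) = H538.ind fun x => S x.1 := by
  classical
  funext x
  simp [H538.ind]

/-- **The coefficient instance of `SharpData`.** -/
theorem sharpCoef (hR : ARep t R) (hE : CovFam R E0)
    (hq : ∀ A (q : Q), E0 A * lx ((1 : Γ), q) = lx ((1 : Γ), q) * E0 A) :
    SharpData t (fun (g : E) (F : Γ → ℝ) =>
      massX (baseL (H85.cdat ν hν).μ (Γ × Q) ι) (Ri (H85.cdat ν hν) R) g fun x => F x.1)
      (fun K : Set E => IsCompact K) (H261.PingT E) := by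
  classical
  have : Countable Λ := H790.countable_of_discrete Λ
  have hT := trep (H85.cdat ν hν) hR
  have hS := sharpData Λ ν hν hR
  have hTc := trep_coef hT
  obtain ⟨A, hA⟩ := H983.pairF_field hTc (setAlg_borel (E := E)) (efam_coef Λ ν hν hR hE hq)
  refine ⟨hT.pos, fun w => hS.one w, fun w F F' C h h' hh => hS.mono w _ _ C (fun x => h x.1)
    (fun x => h' x.1) fun x => hh x.1, fun w F F' C h h' => hS.add w _ _ C (fun x => h x.1)
    fun x => h' x.1, fun w F C c h => hS.smul w _ C c fun x => h x.1,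
    fun U z v hv χ hχ hu => massX_inv hTc U z v hv χ hχ hu, fun K hK ε hε => ?_,
    A, fun p u hu U z hz c hc h => hA p u hu U z hz c hc h⟩
  obtain ⟨F, C, hC, h⟩ := hS.unif K hK ε hε
  refine ⟨F.image Prod.fst, C, hC, fun κ hκ κ' hκ' g S => ?_⟩
  have h1 := h κ hκ κ' hκ' g fun x => S x.1
  rw [ind_fst, ind_fst]
  refine h1.trans ?_
  gcongr
  refine hS.ind_mono g fun x hx => ?_
  obtain ⟨a, ha, b, hb, hab⟩ := hx
  exact ⟨a.1, Finset.mem_image_of_mem _ ha, b.1, Finset.mem_image_of_mem _ hb, hab⟩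

end inst

end Vale.Agent.P092.H761
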