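import Vale.Agent.P092.H761.EngT
import Vale.Agent.P092.H739.Some

/-!
P092 (helper761), [ENG-R]: non-escape of the first leg for any finite number of target factors, for
abstract commuting representations with finite Parseval frames (all amplifications).
-/

set_option linter.all false

open scoped InnerProductSpace
open Filter Topology MeasureTheory ContinuousLinearMap

namespace Vale.Agent.P092.H761

open Vale.Agent.P092.H200 Vale.Agent.P092.H515
open Vale.Agent.P092.H160 Vale.Agent.P092.H432 Vale.Agent.P092.H132 Vale.Agent.P092.H553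
open Vale.Agent.P092.H701 (HChain)

section main

variable {E : Type} [Group E] [TopologicalSpace E] [IsTopologicalGroup E] [LocallyCompactSpace E]
  [SecondCountableTopology E] [T2Space E] [MeasurableSpace E] [BorelSpace E]
  (Λ : Subgroup E) [DiscreteTopology Λ] [MeasurableSpace (E ⧸ Λ)] [BorelSpace (E ⧸ Λ)]
  (ν : Measure (E ⧸ Λ)) [IsProbabilityMeasure ν] (hν : ∀ g : E, ν.map (fun x => g • x) = ν)
  {A B ι ι' ℋ : Type} [Group A] [Countable A] [Group B] [Countable B] [Fintype ι] [Fintype ι']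
  [NormedAddCommGroup ℋ] [InnerProductSpace ℂ ℋ] [CompleteSpace ℋ] {S : A →* (ℋ →L[ℂ] ℋ)}
  {S' : B →* (ℋ →L[ℂ] ℋ)} {ξ : ι → ℋ} {V : Λ →* (ℋ →L[ℂ] ℋ)} {ξ' : ι' → ℋ}

include hν in
/-- **[ENG-R]**: along any sequence of products of the first `k` directions of a chain of full
length, `k <` the number of target factors, one target factor `j` keeps a positive amount of mass
of the first leg in a compact set, along a subsequence. -/
theorem eng_r_seq (h : PF S S' ξ) (h' : PF V S' ξ') (hc : ∀ a b, S a * S' b = S' b * S a)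
    (hS : ∀ a, adjoint (S a) = S a⁻¹) (hS' : ∀ b, adjoint (S' b) = S' b⁻¹)
    (hV : ∀ v, adjoint (V v) = V v⁻¹) (h1 : ∀ v a, V v * S a = S a * V v)
    (h2 : ∀ v b, V v * S' b = S' b * V v) (hne : ∃ k, ξ k ≠ 0)
    (htr : ∀ v, v ≠ 1 → ∑ k, ⟪ξ k, V v (ξ k)⟫_ℂ = 0)
    {I : Type} [Fintype I] [Nonempty I] {G : I → Type} [∀ i, Group (G i)]
    [∀ i, TopologicalSpace (G i)] {r : I → ℕ} {m k : ℕ} (C : HChain E m)
    (hk : k ≤ m) (hkI : k < Fintype.card I) (hG : ∀ i, Tgt (G i) (r i)) (hrm : ∑ i, r i ≤ m)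
    (φ : ∀ i, A →* G i)
    (hφ : ∀ K : ∀ i, Set (G i), (∀ i, IsCompact (K i)) → {x | ∀ i, φ i x ∈ K i}.Finite)
    (z : ℕ → E) (hz : ∀ N, HS C.b k (z N)) :
    ∃ (j : I) (s : ℕ → ℕ) (K : Set (G j)) (c : ℝ), StrictMono s ∧ IsCompact K ∧ 0 < c ∧ ∀ N,
      c ≤ ∫ x, massT V S S' ξ (H85.coc Λ (z (s N)) x) (fun g => φ j g ∈ K) ∂ν := by
  classical
  have hR := h.arep hc hS hS' hV h1 h2 hne htr
  have hd := sharpCoef Λ ν hν hR (h.covFam h' hV hS' h2)
    (fun Y q => h.fam_lx h' hV hS hS' hc h2 Y q)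
  have : Countable Λ := H790.countable_of_discrete Λ
  have hint : ∀ (g : E) (F : A × B → ℝ),
      massX (H790.baseL (H85.cdat ν hν).μ (A × B) ι) (H790.Ri (H85.cdat ν hν) (h.row V)) g F =
        ∫ x, massR (h.row V) (H85.coc Λ g x) F ∂ν := fun g F =>
    H156.mass_int (H85.cdat ν hν) hR g F (fun i => H790.ept (H85.cdat ν hν).μ i)
      (fun i => H790.ept_ae i)
  obtain ⟨j, s, K, hs, hK, h3⟩ := H739.some_bounded_seq hd C hk hkI hG hrm φ hφ z hz
  refine ⟨j, s, K, (∑ k, ‖ξ k‖ ^ 2) / (2 * Fintype.card I), hs, hK, ?_, fun N => ?_⟩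
  · have hcard : (0 : ℝ) < Fintype.card I := by exact_mod_cast Fintype.card_pos
    have := hR.pos
    positivity
  · have h4 := h3 N
    rw [ind_fst, hint] at h4
    simp only [h.massR_eq _ fun g : A => φ j g ∈ K] at h4
    exact h4

end main

end Vale.Agent.P092.H761
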