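import Vale.Agent.P092.H761.CovReg
import Vale.Agent.P092.H761.NonEscC

/-!
P092 (helper761), Engine E for abstract commuting representations with finite Parseval frames
(all amplifications): `V` (source), `R₁`, `R₂` (target legs) are commuting unitary representations
on a Hilbert space, `ξ` is a Parseval frame for `R₁ × R₂`, `ξ'` a Parseval frame for `V × R₂`
(coarseness), and `∑ ⟪ξ_k, V_g ξ_k⟫ = 0` for `g ≠ 1`.  Conclusion: non-escape of the first leg.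
-/

set_option linter.all false

open scoped InnerProductSpace
open Filter Topology MeasureTheory ContinuousLinearMap

namespace Vale.Agent.P092.H761

open Vale.Agent.P092.H200 Vale.Agent.P092.H515
open Vale.Agent.P092.H160 Vale.Agent.P092.H432 Vale.Agent.P092.H132 Vale.Agent.P092.H553
open Vale.Agent.P092.H701 (HChain)

/-- Finite Parseval frame for two commuting representations of `A` and `B`. -/
def PF {A B ι ℋ : Type} [Group A] [Group B] [NormedAddCommGroup ℋ] [InnerProductSpace ℂ ℋ]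
    [CompleteSpace ℋ] (S : A →* (ℋ →L[ℂ] ℋ)) (S' : B →* (ℋ →L[ℂ] ℋ)) (ξ : ι → ℋ) : Prop :=
  ∀ η : ℋ, HasSum (fun x : (A × B) × ι => ‖⟪S x.1.1 (S' x.1.2 (ξ x.2)), η⟫_ℂ‖ ^ 2) (‖η‖ ^ 2)

section syn

variable {A B ι ℋ : Type} [Group A] [Group B] [NormedAddCommGroup ℋ] [InnerProductSpace ℂ ℋ]
    [CompleteSpace ℋ] {S : A →* (ℋ →L[ℂ] ℋ)} {S' : B →* (ℋ →L[ℂ] ℋ)} {ξ : ι → ℋ}

theorem PF.bes (h : PF S S' ξ) :
    Bes 1 (fun x : (A × B) × ι => S x.1.1 (S' x.1.2 (ξ x.2))) := by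
  intro s v
  rw [one_pow, one_mul]
  exact sum_le_hasSum s (fun x _ => sq_nonneg _) (h v)

/-- the synthesis operator -/
noncomputable def PF.sy (h : PF S S' ξ) : Ell2 ((A × B) × ι) →L[ℂ] ℋ := opOf h.bes

theorem PF.sy_dl (h : PF S S' ξ) (x : (A × B) × ι) : h.sy (dl x) = S x.1.1 (S' x.1.2 (ξ x.2)) :=
  opOf_dl _ _

theorem PF.adj_apply (h : PF S S' ξ) (η : ℋ) (x : (A × B) × ι) :
    adjoint h.sy η x = ⟪S x.1.1 (S' x.1.2 (ξ x.2)), η⟫_ℂ := by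
  rw [← inner_dl, adjoint_inner_right, h.sy_dl]

theorem PF.norm_adj (h : PF S S' ξ) (η : ℋ) : ‖adjoint h.sy η‖ = ‖η‖ := by
  have h1 : ‖adjoint h.sy η‖ ^ 2 = ‖η‖ ^ 2 := by
    rw [norm_sq]
    refine (tsum_congr fun x => ?_).trans (h η).tsum_eq
    rw [h.adj_apply]
  exact (sq_eq_sq₀ (norm_nonneg _) (norm_nonneg _)).1 h1

theorem PF.sy_adj (h : PF S S' ξ) (η : ℋ) : h.sy (adjoint h.sy η) = η := by
  have h1 : adjoint (adjoint h.sy) ∘L adjoint h.sy = ContinuousLinearMap.id ℂ _ :=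
    (ContinuousLinearMap.norm_map_iff_adjoint_comp_self _).1 h.norm_adj
  rw [adjoint_adjoint] at h1
  exact congrArg (fun T : ℋ →L[ℂ] ℋ => T η) h1

variable (hc : ∀ a b, S a * S' b = S' b * S a)

include hc in
theorem PF.sy_lx (h : PF S S' ξ) (a : A) (b : B) (ζ : Ell2 ((A × B) × ι)) :
    h.sy (lx (a, b) ζ) = S a (S' b (h.sy ζ)) := by
  have e : h.sy ∘L lx (a, b) = S a ∘L S' b ∘L h.sy := by
    apply op_ext
    rintro ⟨⟨x, y⟩, k⟩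
    change h.sy (lx (a, b) (dl ((x, y), k))) = S a (S' b (h.sy (dl ((x, y), k))))
    rw [lx_dl, h.sy_dl, h.sy_dl]
    change S (a * x) (S' (b * y) (ξ k)) = S a (S' b (S x (S' y (ξ k))))
    rw [map_mul, map_mul]
    change S a (S x (S' b (S' y (ξ k)))) = _
    have := congrArg (fun T : ℋ →L[ℂ] ℋ => T (S' y (ξ k))) (hc x b)
    exact congrArg (S a) this
  exact congrArg (fun T : Ell2 ((A × B) × ι) →L[ℂ] ℋ => T ζ) e

include hc in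
theorem PF.adj_lx (h : PF S S' ξ) (hS : ∀ a, adjoint (S a) = S a⁻¹)
    (hS' : ∀ b, adjoint (S' b) = S' b⁻¹) (a : A) (b : B) (η : ℋ) :
    adjoint h.sy (S a (S' b η)) = lx (a, b) (adjoint h.sy η) := by
  apply ext_inner_dl
  rintro ⟨⟨x, y⟩, k⟩
  rw [h.adj_apply, lx_apply, h.adj_apply]
  change ⟪S x (S' y (ξ k)), S a (S' b η)⟫_ℂ = ⟪S (a⁻¹ * x) (S' (b⁻¹ * y) (ξ k)), η⟫_ℂ
  have e1 : ⟪S x (S' y (ξ k)), S a (S' b η)⟫_ℂ =
      ⟪S' b⁻¹ (S a⁻¹ (S x (S' y (ξ k)))), η⟫_ℂ := by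
    rw [← hS' b, adjoint_inner_left, ← hS a, adjoint_inner_left]
  rw [e1, map_mul, map_mul]
  congr 1
  change S' b⁻¹ (S a⁻¹ (S x (S' y (ξ k)))) = S a⁻¹ (S x (S' b⁻¹ (S' y (ξ k))))
  have h1 := congrArg (fun T : ℋ →L[ℂ] ℋ => T (S' y (ξ k))) (hc (a⁻¹ * x) b⁻¹)
  rw [map_mul] at h1
  exact h1.symm

end syn

/-! ### The row model -/

section row

variable {A B Λ ι ℋ : Type} [Group A] [Group B] [Group Λ] [Fintype ι] [NormedAddCommGroup ℋ]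
    [InnerProductSpace ℂ ℋ] [CompleteSpace ℋ] {S : A →* (ℋ →L[ℂ] ℋ)} {S' : B →* (ℋ →L[ℂ] ℋ)}
    {ξ : ι → ℋ} {V : Λ →* (ℋ →L[ℂ] ℋ)}

/-- The row model of `V`. -/
noncomputable def PF.row (h : PF S S' ξ) (V : Λ →* (ℋ →L[ℂ] ℋ)) (v : Λ) :
    Ell2 ((A × B) × ι) →L[ℂ] Ell2 ((A × B) × ι) := adjoint h.sy ∘L V v ∘L h.sy

theorem PF.row_apply (h : PF S S' ξ) (v : Λ) (ζ : Ell2 ((A × B) × ι)) :
    h.row V v ζ = adjoint h.sy (V v (h.sy ζ)) := rfl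

theorem PF.row_ep (h : PF S S' ξ) (v : Λ) (k : ι) :
    h.row V v (ep k) = adjoint h.sy (V v (ξ k)) := by
  rw [h.row_apply, ep, h.sy_dl]
  change adjoint h.sy (V v (S 1 (S' 1 (ξ k)))) = _
  rw [map_one, map_one]
  rfl

theorem PF.inner_row (h : PF S S' ξ) (v : Λ) (k : ι) :
    ⟪(ep k : Ell2 ((A × B) × ι)), h.row V v (ep k)⟫_ℂ = ⟪ξ k, V v (ξ k)⟫_ℂ := by
  rw [h.row_ep, adjoint_inner_right, ep, h.sy_dl]
  change ⟪S 1 (S' 1 (ξ k)), _⟫_ℂ = _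
  rw [map_one, map_one]
  rfl

theorem PF.arep (h : PF S S' ξ) (hc : ∀ a b, S a * S' b = S' b * S a)
    (hS : ∀ a, adjoint (S a) = S a⁻¹) (hS' : ∀ b, adjoint (S' b) = S' b⁻¹)
    (hV : ∀ v, adjoint (V v) = V v⁻¹) (h1 : ∀ v a, V v * S a = S a * V v)
    (h2 : ∀ v b, V v * S' b = S' b * V v) (hne : ∃ k, ξ k ≠ 0)
    (htr : ∀ v, v ≠ 1 → ∑ k, ⟪ξ k, V v (ξ k)⟫_ℂ = 0) :
    ARep (∑ k, ‖ξ k‖ ^ 2) (h.row V) where
  ra v := by
    rintro ⟨a, b⟩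
    refine ContinuousLinearMap.ext fun ζ => ?_
    change adjoint h.sy (V v (h.sy (lx (a, b) ζ))) = lx (a, b) (adjoint h.sy (V v (h.sy ζ)))
    rw [h.sy_lx hc, ← h.adj_lx hc hS hS']
    congr 1
    have e1 := congrArg (fun T : ℋ →L[ℂ] ℋ => T (S' b (h.sy ζ))) (h1 v a)
    have e2 := congrArg (fun T : ℋ →L[ℂ] ℋ => T (h.sy ζ)) (h2 v b)
    exact e1.trans (congrArg (S a) e2)
  mul v w := by
    refine ContinuousLinearMap.ext fun ζ => ?_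
    change adjoint h.sy (V (v * w) (h.sy ζ)) =
      adjoint h.sy (V v (h.sy (adjoint h.sy (V w (h.sy ζ)))))
    rw [h.sy_adj, map_mul]
    rfl
  adj v := by
    rw [PF.row, adjoint_comp, adjoint_comp, adjoint_adjoint, hV]
    rfl
  pos := by
    obtain ⟨k, hk⟩ := hne
    refine Finset.sum_pos' (fun i _ => sq_nonneg _) ⟨k, Finset.mem_univ _, ?_⟩
    exact pow_pos (norm_pos_iff.2 hk) 2
  tr_one := by
    rw [Complex.ofReal_sum]
    refine Finset.sum_congr rfl fun k _ => ?_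
    rw [h.inner_row, map_one, one_apply_eq_self, inner_self_eq_norm_sq_to_K]
    norm_cast
  tr_zero v hv := by
    rw [← htr v hv]
    exact Finset.sum_congr rfl fun k _ => h.inner_row v k

/-- Mass of the first leg of `V v`. -/
noncomputable def massT (V : Λ →* (ℋ →L[ℂ] ℋ)) (S : A →* (ℋ →L[ℂ] ℋ)) (S' : B →* (ℋ →L[ℂ] ℋ))
    (ξ : ι → ℋ) (v : Λ) (P : A → Prop) : ℝ :=
  ∑ k, ∑' x : (A × B) × ι, H538.ind (fun x : (A × B) × ι => P x.1.1) x *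
    ‖⟪S x.1.1 (S' x.1.2 (ξ x.2)), V v (ξ k)⟫_ℂ‖ ^ 2

theorem PF.massR_eq (h : PF S S' ξ) (v : Λ) (P : A → Prop) :
    massR (h.row V) v (H538.ind fun x : A × B => P x.1) = massT V S S' ξ v P := by
  rw [massR, massT]
  refine Finset.sum_congr rfl fun k _ => ?_
  rw [mp, inner_mo (fun x => H538.abs_ind_le _ _), Complex.ofReal_re]
  refine tsum_congr fun x => ?_
  rw [h.row_ep, h.adj_apply]
  rfl

end row

/-! ### The covariant family -/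

/-- Transport of a covariant family by an operator intertwining the representations. -/
theorem covFam_itw {Λ F K : Type} [Group Λ] [NormedAddCommGroup F] [InnerProductSpace ℂ F]
    [CompleteSpace F] [NormedAddCommGroup K] [InnerProductSpace ℂ K] [CompleteSpace K]
    {R0 : Λ → (F →L[ℂ] F)} {P : Set Λ → (F →L[ℂ] F)} (h : CovFam R0 P) (Z : F →L[ℂ] K)
    {R : Λ → (K →L[ℂ] K)} (h1 : R 1 = Z ∘L R0 1 ∘L adjoint Z)
    (h2 : ∀ v ζ, R v (Z ζ) = Z (R0 v ζ)) (h3 : ∀ v ζ, adjoint Z (R v ζ) = R0 v (adjoint Z ζ)) :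
    CovFam R (fun A => Z ∘L P A ∘L adjoint Z) where
  nonneg := fun A => by
    have hs := (IsSelfAdjoint.of_nonneg (h.nonneg A))
    refine H108.nonneg_of_inner ?_ fun ζ => ?_
    · rw [isSelfAdjoint_iff', adjoint_comp, adjoint_comp, adjoint_adjoint]
      rw [isSelfAdjoint_iff'] at hs
      rw [hs]
      rfl
    · change 0 ≤ (⟪ζ, Z (P A (adjoint Z ζ))⟫_ℂ).re
      rw [← adjoint_inner_left]
      exact H108.inner_nonneg_of_nonneg (h.nonneg A) _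
  add := fun A A' hd => by
    rw [h.add A A' hd]
    ext ξ
    simp
  univ := by rw [h.univ, h1]
  lim := fun A y => by
    change Tendsto (fun s : Finset Λ => Z (P (A ∩ (s : Set Λ)) (adjoint Z y))) atTop
      (𝓝 (Z (P A (adjoint Z y))))
    exact (Z.continuous.tendsto _).comp (h.lim A (adjoint Z y))
  cov := fun v A => by
    refine ContinuousLinearMap.ext fun ξ => ?_
    rw [← h.cov v A]
    change R v (Z (P A (adjoint Z (R v⁻¹ ξ)))) = Z (R0 v (P A (R0 v⁻¹ (adjoint Z ξ))))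
    rw [h3, h2]

section fam

variable {A B Λ ι ι' ℋ : Type} [Group A] [Group B] [Group Λ] [Fintype ι] [Fintype ι']
    [NormedAddCommGroup ℋ]
    [InnerProductSpace ℂ ℋ] [CompleteSpace ℋ] {S : A →* (ℋ →L[ℂ] ℋ)} {S' : B →* (ℋ →L[ℂ] ℋ)}
    {ξ : ι → ℋ} {V : Λ →* (ℋ →L[ℂ] ℋ)} {ξ' : ι' → ℋ}

/-- the covariant family given by the second frame -/
noncomputable def PF.fam (h : PF S S' ξ) (h' : PF V S' ξ') (Y : Set Λ) :
    Ell2 ((A × B) × ι) →L[ℂ] Ell2 ((A × B) × ι) :=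
  (adjoint h.sy ∘L h'.sy) ∘L mo (iA (fun x : (Λ × B) × ι' => x.1.1⁻¹) Y) ∘L
    adjoint (adjoint h.sy ∘L h'.sy)

theorem PF.covFam (h : PF S S' ξ) (h' : PF V S' ξ') (hV : ∀ v, adjoint (V v) = V v⁻¹)
    (hS' : ∀ b, adjoint (S' b) = S' b⁻¹) (h2 : ∀ v b, V v * S' b = S' b * V v) :
    CovFam (h.row V) (h.fam h') := by
  have h0 : CovFam (fun v : Λ => (rei ((Equiv.mulLeft (v, (1 : B))).prodCongr (Equiv.refl ι')) :
      Ell2 ((Λ × B) × ι') →L[ℂ] Ell2 ((Λ × B) × ι')))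
      (fun Y => mo (iA (fun x : (Λ × B) × ι' => x.1.1⁻¹) Y)) := by
    refine covFam_rei (fun x : (Λ × B) × ι' => x.1.1⁻¹)
      (fun v => (Equiv.mulLeft (v, (1 : B))).prodCongr (Equiv.refl ι')) ?_ ?_ ?_
    · ext x <;> simp
    · intro v
      ext x <;> simp
    · intro v x
      simp
  have e1 : ∀ v ζ, h'.sy (lx (v, (1 : B)) ζ) = V v (h'.sy ζ) := fun v ζ => by
    rw [h'.sy_lx h2, map_one]; rfl
  have e2 : ∀ v η, adjoint h'.sy (V v η) = lx (v, (1 : B)) (adjoint h'.sy η) := fun v η => by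
    rw [← h'.adj_lx h2 hV hS', map_one]; rfl
  refine covFam_itw h0 (adjoint h.sy ∘L h'.sy) ?_ ?_ ?_
  · refine ContinuousLinearMap.ext fun ζ => ?_
    rw [adjoint_comp, adjoint_adjoint]
    change adjoint h.sy (V 1 (h.sy ζ)) =
      adjoint h.sy (h'.sy (lx ((1 : Λ), (1 : B)) (adjoint h'.sy (h.sy ζ))))
    rw [e1, h'.sy_adj]
  · intro v ζ
    change adjoint h.sy (V v (h.sy (adjoint h.sy (h'.sy ζ)))) =
      adjoint h.sy (h'.sy (lx (v, (1 : B)) ζ))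
    rw [h.sy_adj, e1]
  · intro v ζ
    rw [adjoint_comp, adjoint_adjoint]
    change adjoint h'.sy (h.sy (adjoint h.sy (V v (h.sy ζ)))) =
      lx (v, (1 : B)) (adjoint h'.sy (h.sy ζ))
    rw [h.sy_adj, e2]

theorem PF.fam_lx (h : PF S S' ξ) (h' : PF V S' ξ') (hV : ∀ v, adjoint (V v) = V v⁻¹)
    (hS : ∀ a, adjoint (S a) = S a⁻¹) (hS' : ∀ b, adjoint (S' b) = S' b⁻¹)
    (hc : ∀ a b, S a * S' b = S' b * S a) (h2 : ∀ v b, V v * S' b = S' b * V v)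
    (Y : Set Λ) (q : B) :
    h.fam h' Y * lx ((1 : A), q) = lx ((1 : A), q) * h.fam h' Y := by
  have e1 : ∀ ζ, h.sy (lx ((1 : A), q) ζ) = S' q (h.sy ζ) := fun ζ => by
    rw [h.sy_lx hc, map_one]; rfl
  have e2 : ∀ η, adjoint h.sy (S' q η) = lx ((1 : A), q) (adjoint h.sy η) := fun η => by
    rw [← h.adj_lx hc hS hS', map_one]; rfl
  have e3 : ∀ ζ, h'.sy (lx ((1 : Λ), q) ζ) = S' q (h'.sy ζ) := fun ζ => by
    rw [h'.sy_lx h2, map_one]; rfl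
  have e4 : ∀ η, adjoint h'.sy (S' q η) = lx ((1 : Λ), q) (adjoint h'.sy η) := fun η => by
    rw [← h'.adj_lx h2 hV hS', map_one]; rfl
  have e5 : ∀ ζ : Ell2 ((Λ × B) × ι'), mo (iA (fun x : (Λ × B) × ι' => x.1.1⁻¹) Y)
      (lx ((1 : Λ), q) ζ) = lx ((1 : Λ), q) (mo (iA (fun x : (Λ × B) × ι' => x.1.1⁻¹) Y) ζ) :=
    fun ζ => by
    apply ext_inner_dl
    rintro ⟨⟨x, y⟩, k⟩
    rw [iA_apply, lx_apply, lx_apply, iA_apply]
    have e : iA (fun x : (Λ × B) × ι' => x.1.1⁻¹) Y ((((1 : Λ), q)⁻¹ * (x, y)), k) =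
        iA (fun x : (Λ × B) × ι' => x.1.1⁻¹) Y ((x, y), k) := by
      have e1 : ((((1 : Λ), q)⁻¹ * (x, y)).1)⁻¹ = x⁻¹ := by simp
      exact congrArg (iA (fun y : Λ => y) Y) e1
    rw [e]
  refine ContinuousLinearMap.ext fun ζ => ?_
  have e6 : ∀ ζ, h.fam h' Y ζ = adjoint h.sy (h'.sy (mo (iA (fun x : (Λ × B) × ι' => x.1.1⁻¹) Y)
      (adjoint h'.sy (h.sy ζ)))) := fun ζ => by
    rw [PF.fam, adjoint_comp, adjoint_adjoint]; rfl
  change h.fam h' Y (lx ((1 : A), q) ζ) = lx ((1 : A), q) (h.fam h' Y ζ)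
  rw [e6, e6, e1, e4, e5, e3, e2]

end fam

/-! ### Non-escape -/

section main

variable {E : Type} [Group E] [TopologicalSpace E] [IsTopologicalGroup E] [LocallyCompactSpace E]
  [SecondCountableTopology E] [T2Space E] [MeasurableSpace E] [BorelSpace E]
  (Λ : Subgroup E) [DiscreteTopology Λ] [MeasurableSpace (E ⧸ Λ)] [BorelSpace (E ⧸ Λ)]
  (ν : Measure (E ⧸ Λ)) [IsProbabilityMeasure ν] (hν : ∀ g : E, ν.map (fun x => g • x) = ν)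
  {A B ι ι' ℋ : Type} [Group A] [Countable A] [Group B] [Countable B] [Fintype ι] [Fintype ι']
  [NormedAddCommGroup ℋ] [InnerProductSpace ℂ ℋ] [CompleteSpace ℋ] {S : A →* (ℋ →L[ℂ] ℋ)}
  {S' : B →* (ℋ →L[ℂ] ℋ)} {ξ : ι → ℋ} {V : Λ →* (ℋ →L[ℂ] ℋ)} {ξ' : ι' → ℋ}
  {G₁ G₂ : Type} [Group G₁] [TopologicalSpace G₁] [Group G₂] [TopologicalSpace G₂] {r₁ r₂ m : ℕ}

include hν in
/-- **[ENG-T]** non-escape of the first leg of an abstract comultiplication. -/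
theorem eng_t (h : PF S S' ξ) (h' : PF V S' ξ') (hc : ∀ a b, S a * S' b = S' b * S a)
    (hS : ∀ a, adjoint (S a) = S a⁻¹) (hS' : ∀ b, adjoint (S' b) = S' b⁻¹)
    (hV : ∀ v, adjoint (V v) = V v⁻¹) (h1 : ∀ v a, V v * S a = S a * V v)
    (h2 : ∀ v b, V v * S' b = S' b * V v) (hne : ∃ k, ξ k ≠ 0)
    (htr : ∀ v, v ≠ 1 → ∑ k, ⟪ξ k, V v (ξ k)⟫_ℂ = 0)
    (C : HChain E m) (hm : 0 < m) (h₁ : Tgt G₁ r₁)
    (h₂ : Tgt G₂ r₂) (hrm : r₁ + r₂ ≤ m) (φ : A →* G₁ × G₂)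
    (hφ : ∀ K : Set (G₁ × G₂), IsCompact K → {x | φ x ∈ K}.Finite) {ε : ℝ} (hε : 0 < ε) :
    ∃ (K₁ : Set G₁) (K₂ : Set G₂), IsCompact K₁ ∧ IsCompact K₂ ∧ ∀ N,
      ∑ k, ‖ξ k‖ ^ 2 - ε ≤
        (∫ x, massT V S S' ξ (H85.coc Λ (C.b ⟨0, hm⟩ N) x) (fun g => (φ g).1 ∈ K₁) ∂ν) +
        ∫ x, massT V S S' ξ (H85.coc Λ (C.b ⟨0, hm⟩ N) x) (fun g => (φ g).2 ∈ K₂) ∂ν := by
  obtain ⟨K₁, K₂, hK₁, hK₂, hN⟩ := non_escape_coef Λ ν hν (h.arep hc hS hS' hV h1 h2 hne htr)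
    (h.covFam h' hV hS' h2) (fun Y q => h.fam_lx h' hV hS hS' hc h2 Y q) C hm h₁ h₂ hrm φ hφ hε
  refine ⟨K₁, K₂, hK₁, hK₂, fun N => ?_⟩
  have h3 := hN N
  simp only [h.massR_eq _ fun g : A => (φ g).1 ∈ K₁, h.massR_eq _ fun g : A => (φ g).2 ∈ K₂] at h3
  exact h3

include hν in
/-- **[ENG-T]**, sequence form. -/
theorem eng_t_seq (h : PF S S' ξ) (h' : PF V S' ξ') (hc : ∀ a b, S a * S' b = S' b * S a)
    (hS : ∀ a, adjoint (S a) = S a⁻¹) (hS' : ∀ b, adjoint (S' b) = S' b⁻¹)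
    (hV : ∀ v, adjoint (V v) = V v⁻¹) (h1 : ∀ v a, V v * S a = S a * V v)
    (h2 : ∀ v b, V v * S' b = S' b * V v) (hne : ∃ k, ξ k ≠ 0)
    (htr : ∀ v, v ≠ 1 → ∑ k, ⟪ξ k, V v (ξ k)⟫_ℂ = 0)
    (C : HChain E m) (hm : 0 < m) (h₁ : Tgt G₁ r₁)
    (h₂ : Tgt G₂ r₂) (hrm : r₁ + r₂ ≤ m) (φ : A →* G₁ × G₂)
    (hφ : ∀ K : Set (G₁ × G₂), IsCompact K → {x | φ x ∈ K}.Finite) :
    ∃ (s : ℕ → ℕ) (c : ℝ), StrictMono s ∧ 0 < c ∧
      ((∃ K : Set G₁, IsCompact K ∧ ∀ N, c ≤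
        ∫ x, massT V S S' ξ (H85.coc Λ (C.b ⟨0, hm⟩ (s N)) x) (fun g => (φ g).1 ∈ K) ∂ν) ∨
      (∃ K : Set G₂, IsCompact K ∧ ∀ N, c ≤
        ∫ x, massT V S S' ξ (H85.coc Λ (C.b ⟨0, hm⟩ (s N)) x) (fun g => (φ g).2 ∈ K) ∂ν)) := by
  have hR := h.arep hc hS hS' hV h1 h2 hne htr
  obtain ⟨s, hs, h3⟩ := non_escape_coef_seq Λ ν hν hR
    (h.covFam h' hV hS' h2) (fun Y q => h.fam_lx h' hV hS hS' hc h2 Y q) C hm h₁ h₂ hrm φ hφ
  refine ⟨s, (∑ k, ‖ξ k‖ ^ 2) / 3, hs, by linarith [hR.pos], ?_⟩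
  rcases h3 with ⟨K, hK, h3⟩ | ⟨K, hK, h3⟩
  · refine Or.inl ⟨K, hK, fun N => ?_⟩
    have h4 := h3 N
    simp only [h.massR_eq _ fun g : A => (φ g).1 ∈ K] at h4
    exact h4
  · refine Or.inr ⟨K, hK, fun N => ?_⟩
    have h4 := h3 N
    simp only [h.massR_eq _ fun g : A => (φ g).2 ∈ K] at h4
    exact h4

end main

end Vale.Agent.P092.H761
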