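import Vale.Agent.P092.H103.Bhm

/-!
P092 (helper761): vectors of an induced representation fixed by a factor, with the Howe-Moore input
for one sequence only.
-/

set_option linter.all false

open scoped InnerProductSpace ENNReal
open Set Filter Topology MeasureTheory ContinuousLinearMap

namespace Vale.Agent.P092.H761

open Vale.Agent.P092.H790 Vale.Agent.P092.H85 Vale.Agent.P092.H103

/-- Weak limits (along some filter finer than `atTop`) of the translates `σ (b i) ξ` exist and are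
invariant. -/
def WFixS {H : Type} [Group H] [TopologicalSpace H] (b : ℕ → H) : Prop :=
  ∀ (𝓗 : Type) [NormedAddCommGroup 𝓗] [InnerProductSpace ℂ 𝓗] [CompleteSpace 𝓗]
    (σ : H →* (𝓗 →L[ℂ] 𝓗)), H933.URep σ → ∀ ξ, ∃ l : Filter ℕ, l.NeBot ∧ l ≤ atTop ∧
      ∃ w, (∀ s, σ s w = w) ∧ ∀ η, Tendsto (fun i => ⟪η, σ (b i) ξ⟫_ℂ) l (𝓝 ⟪η, w⟫_ℂ)

theorem wfixS_of_wfix {H : Type} [Group H] [TopologicalSpace H] (h : WFix H) {b : ℕ → H}
    (hb : Tendsto b atTop (cocompact H)) : WFixS b := by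
  intro 𝓗 _ _ _ σ hσ ξ
  obtain ⟨w, h1, h2⟩ := h 𝓗 σ hσ b hb ξ
  exact ⟨atTop, inferInstance, le_rfl, w, h1, h2⟩

section fixe

variable {G₁ G₂ : Type} [Group G₁] [TopologicalSpace G₁] [IsTopologicalGroup G₁]
  [LocallyCompactSpace G₁] [SecondCountableTopology G₁] [T2Space G₁] [MeasurableSpace G₁]
  [BorelSpace G₁] [Group G₂] [TopologicalSpace G₂] [IsTopologicalGroup G₂]
  [LocallyCompactSpace G₂] [SecondCountableTopology G₂] [T2Space G₂] [MeasurableSpace G₂]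
  [BorelSpace G₂]
  {E : Type} [Group E] [TopologicalSpace E] [IsTopologicalGroup E] [LocallyCompactSpace E]
  [SecondCountableTopology E] [T2Space E] [MeasurableSpace E] [BorelSpace E]
  {Λ : Subgroup E} [DiscreteTopology Λ] [MeasurableSpace (E ⧸ Λ)]
  [BorelSpace (E ⧸ Λ)] {ν : Measure (E ⧸ Λ)} [IsProbabilityMeasure ν]
  (hν : ∀ g : E, ν.map (fun x => g • x) = ν)
  {K : Type} [NormedAddCommGroup K] [InnerProductSpace ℂ K] [CompleteSpace K]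
  {π : Λ →* (K →L[ℂ] K)} (hπ : ∀ g, adjoint (π g) = π g⁻¹) [Countable Λ]

include hπ in
/-- **Fixed vectors from large coefficients**, one sequence. -/
theorem exists_fixS {b : ℕ → G₂} (hb : WFixS b) (e : G₁ × G₂ ≃* E) (he : Continuous e)
    (f f' : K) {c : ℝ} (hc : 0 < c)
    (hm : ∀ N, c ≤ ‖∫ x, ⟪f', π (coc Λ (e (1, b N)) x) f⟫_ℂ ∂ν‖)
    {𝒞 : Set K} (hC : IsClosed 𝒞) (hC2 : Convex ℝ 𝒞) (hCπ : ∀ v, ∀ w ∈ 𝒞, π v w ∈ 𝒞)
    (hf : f ∈ 𝒞) :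
    ∃ η : Lp K 2 ν, η ≠ 0 ∧ (∀ g₂ : G₂, iro hν π (e ((1 : G₁), g₂)) η = η) ∧
      ∀ᵐ x ∂ν, η x ∈ 𝒞 := by
  obtain ⟨σ, hσ⟩ : ∃ σ : G₂ →* (Lp K 2 ν →L[ℂ] Lp K 2 ν),
      σ = (irep hν hπ).comp (e.toMonoidHom.comp (MonoidHom.inr G₁ G₂)) := ⟨_, rfl⟩
  have hσa : ∀ g, σ g = iro hν π (e ((1 : G₁), g)) := fun g => by rw [hσ]; rfl
  have hU : H933.URep σ := by
    refine ⟨fun g ξ => ?_, fun ξ => ?_⟩
    · rw [hσ]
      exact Vale.Agent.P092.H885.u_norm (irep_crep hν hπ).adj _ ξ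
    · have h1 : Tendsto (fun g : G₂ => e ((1 : G₁), g)) (𝓝 1) (𝓝 1) := by
        have h2 : Continuous fun g : G₂ => e ((1 : G₁), g) := he.comp (by fun_prop)
        have h3 := h2.tendsto 1
        have h4 : e ((1 : G₁), (1 : G₂)) = 1 := e.map_one
        rwa [h4] at h3
      have h5 := ((irep_crep hν hπ).cont ξ).comp h1
      refine h5.congr fun g => ?_
      rw [hσ]; rfl
  obtain ⟨l, hl1, hl2, w, hw1, hw2⟩ := hb (Lp K 2 ν) σ hU (Lp.const 2 ν f)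
  refine ⟨w, ?_, fun g₂ => ?_, ?_⟩
  · rintro rfl
    have h1 := (hw2 (Lp.const 2 ν f')).norm
    rw [inner_zero_right, norm_zero] at h1
    have h2 : ∀ i, c ≤ ‖⟪(Lp.const 2 ν f' : Lp K 2 ν), σ (b i) (Lp.const 2 ν f)⟫_ℂ‖ := fun i => by
      rw [hσa, coef_const hν hπ]
      exact hm i
    have h3 := ge_of_tendsto h1 (Eventually.of_forall h2)
    linarith
  · rw [← hσa]; exact hw1 g₂
  · refine H201.mem_of_weak hw2 (convex_ae hC2) (isClosed_ae hC) (Eventually.of_forall fun i => ?_)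
    change ∀ᵐ x ∂ν, (σ (b i) (Lp.const 2 ν f) : Lp K 2 ν) x ∈ 𝒞
    rw [hσa]
    have h2 : ⇑(Lp.const 2 ν f) =ᵐ[ν] Function.const _ f := Lp.coeFn_const ..
    have h3 : ∀ᵐ x ∂ν, (Lp.const 2 ν f : Lp K 2 ν) ((e ((1 : G₁), b i))⁻¹ • x) = f :=
      ae_comp (mpres hν _) h2
    filter_upwards [h3, iro_ae hν hπ (e ((1 : G₁), b i)) (Lp.const 2 ν f)] with x a1 a2
    rw [a2, a1]
    exact hCπ _ _ hf

include hν hπ in
/-- **Fixed vectors in the totally disconnected case**, one sequence. -/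
theorem exists_fix_tdS (hG : CptOpenBasis G₁) {U : Set G₁} (hU : U ∈ 𝓝 (1 : G₁))
    {b : ℕ → G₂} (hb : WFixS b) (e : G₁ × G₂ ≃* E) (he : Continuous e) (f f' : K)
    {c : ℝ} (hc : 0 < c)
    (hm : ∀ N, c ≤ ‖∫ x, ⟪f', π (coc Λ (e (1, b N)) x) f⟫_ℂ ∂ν‖)
    {𝒞 : Set K} (hC : IsClosed 𝒞) (hC2 : Convex ℝ 𝒞) (hC0 : (0 : K) ∈ 𝒞)
    (hCπ : ∀ v, ∀ w ∈ 𝒞, π v w ∈ 𝒞) (hf : f ∈ 𝒞) :
    ∃ (L : Subgroup G₁) (w : K), IsOpen (L : Set G₁) ∧ IsCompact (L : Set G₁) ∧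
      (L : Set G₁) ⊆ U ∧ w ∈ 𝒞 ∧ w ≠ 0 ∧
      ∀ γ : Λ, (e.symm (γ : E)).1 ∈ L → π γ w = w := by
  obtain ⟨η, h1, h2, h3⟩ := exists_fixS hν hπ hb e he f f' hc hm hC hC2 hCπ hf
  obtain ⟨ψ, R, a1, a2, a3, a4, a5⟩ := ind_fix_e hν hπ e he η h2 h1 hC hC2 hC0 hCπ h3
  obtain ⟨L, b1, b2, b3, w, b4, b5, b6⟩ := fix_of_fun_c hG hU (p := fun γ : Λ => (e.symm (γ : E)).1)
    (π := π) a1 a2 a4 a5 hC hC2 a3
  exact ⟨L, w, b1, b2, b3, b4, b5, b6⟩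

end fixe

end Vale.Agent.P092.H761
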