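import Vale.Agent.P092.H761.EngT
import Vale.Agent.P092.H103.Bhm2
import Vale.Agent.P092.H761.WFixS

/-!
P092 (helper761): from the non-escape of the mass of the first leg along a sequence tending to
infinity in one factor to a nonzero positive operator at the level of compact open subgroups which
is integrable over the target; version for commuting representations `V`, `R₁`, `R₂` with a finite
Parseval frame for `R₁ × R₂` (all amplifications).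
-/

set_option linter.all false

open scoped InnerProductSpace ENNReal
open Set Filter Topology MeasureTheory ContinuousLinearMap

namespace Vale.Agent.P092.H761

open Vale.Agent.P092.H85 Vale.Agent.P092.H160 Vale.Agent.P092.H553 Vale.Agent.P092.H103
open Vale.Agent.P092.H103.Cnj

/-! ### The conjugation representation of a representation commuting with `rho s`, `s ∈ S` -/

section conj

variable {G : Type} [Group G] (S : Subgroup G) {D : Type} [Group D]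
  (V : D →* (Ell2 G →L[ℂ] Ell2 G))

/-- unitary, commuting with the right translations by `S` -/
structure VRS : Prop where
  adj : ∀ d, adjoint (V d) = V d⁻¹
  rs : ∀ d, RS S (V d)

variable {V S}

theorem VRS.norm_ap (h : VRS S V) (d : D) (ξ : Ell2 G) : ‖V d ξ‖ = ‖ξ‖ := by
  have h1 : ⟪V d ξ, V d ξ⟫_ℂ = ⟪ξ, ξ⟫_ℂ := by
    rw [← adjoint_inner_right, h.adj]
    have h2 : V d⁻¹ (V d ξ) = ξ := by
      have h3 : (V d⁻¹ * V d) ξ = ξ := by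
        rw [← map_mul, inv_mul_cancel, map_one]; rfl
      exact h3
    rw [h2]
  rw [inner_self_eq_norm_sq_to_K, inner_self_eq_norm_sq_to_K] at h1
  have h2 : ‖V d ξ‖ ^ 2 = ‖ξ‖ ^ 2 := by exact_mod_cast h1
  exact (pow_left_inj₀ (norm_nonneg _) (norm_nonneg _) two_ne_zero).1 h2

theorem VRS.norm_le (h : VRS S V) (d : D) : ‖V d‖ ≤ 1 :=
  ContinuousLinearMap.opNorm_le_bound _ zero_le_one fun x => by rw [h.norm_ap, one_mul]

/-- the conjugation representation -/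
noncomputable def cpiS (h : VRS S V) : D →* (Ell2 ((G ⧸ S) × G) →L[ℂ] Ell2 ((G ⧸ S) × G)) where
  toFun d := cop S (V d)
  map_one' := by rw [map_one]; exact cop_one
  map_mul' a b := by rw [map_mul]; exact cop_mul (h.rs a) (h.rs b)

theorem cpiS_apply (h : VRS S V) (d : D) : cpiS h d = cop S (V d) := rfl

theorem adjoint_cpiS (h : VRS S V) (d : D) : adjoint (cpiS h d) = cpiS h d⁻¹ := by
  rw [cpiS_apply, cpiS_apply, adjoint_cop (h.rs d), h.adj]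

theorem cpiS_mem (h : VRS S V) (d : D) {w : Ell2 ((G ⧸ S) × G)} (hw : w ∈ ctr S) :
    cpiS h d w ∈ ctr S := cop_mem_ctr (h.rs d) (h.norm_le d) hw

/-- A fixed contraction vector gives a commuting operator. -/
theorem exists_commS (h : VRS S V) {w : Ell2 ((G ⧸ S) × G)} (hw : w ∈ ctr S) (h0 : w ≠ 0)
    {P : D → Prop} (hP : ∀ d, P d → cpiS h d w = w) :
    ∃ T : Ell2 G →L[ℂ] Ell2 G, RS S T ∧ Cl S T w ∧ T ≠ 0 ∧ ∀ d, P d → V d * T = T * V d := by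
  obtain ⟨T, h1, h2, h3⟩ := exists_op_of_ctr hw
  refine ⟨T, h1, h2, ?_, fun d hd => ?_⟩
  · rintro rfl
    apply h0
    apply ext_inner_dl
    rintro ⟨q, g⟩
    have h4 := congrArg (fun ξ : Ell2 G => ξ g) (h2 q)
    exact h4
  · have h4 := h2.conj h1 (h.rs d)
    have h5 := hP d hd
    rw [cpiS_apply] at h5
    rw [h5] at h4
    have h6 : V d * (T * adjoint (V d)) = T :=
      h4.unique h2 ((h.rs d).mul (h1.mul (h.rs d).adj)) h1
    have h7 : V d * T = V d * (T * adjoint (V d)) * V d := by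
      rw [h.adj, mul_assoc, mul_assoc, ← map_mul V d⁻¹ d, inv_mul_cancel, map_one, mul_one]
    rw [h7, h6]

end conj

/-! ### The synthesis operator with inverted translations -/

section syn

variable {A B C ℋ : Type} [Group A] [Group B] [Group C] [NormedAddCommGroup ℋ]
    [InnerProductSpace ℂ ℋ]
    [CompleteSpace ℋ] {S : A →* (ℋ →L[ℂ] ℋ)} {S' : B →* (ℋ →L[ℂ] ℋ)} {ξ : C → ℋ}

theorem PF.bes_inv (h : PF S S' ξ) :
    Bes 1 (fun x : (A × B) × C => S x.1.1⁻¹ (S' x.1.2⁻¹ (ξ x.2))) := by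
  intro s v
  rw [one_pow, one_mul]
  have h1 := ((((Equiv.inv A).prodCongr (Equiv.inv B)).prodCongr (Equiv.refl C)).hasSum_iff).2 (h v)
  exact sum_le_hasSum s (fun x _ => sq_nonneg _) h1

/-- the synthesis operator -/
noncomputable def PF.si (h : PF S S' ξ) : Ell2 ((A × B) × C) →L[ℂ] ℋ := opOf h.bes_inv

theorem PF.si_dl (h : PF S S' ξ) (x : (A × B) × C) :
    h.si (dl x) = S x.1.1⁻¹ (S' x.1.2⁻¹ (ξ x.2)) := opOf_dl _ _

theorem PF.adj_si (h : PF S S' ξ) (η : ℋ) (x : (A × B) × C) :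
    adjoint h.si η x = ⟪S x.1.1⁻¹ (S' x.1.2⁻¹ (ξ x.2)), η⟫_ℂ := by
  rw [← inner_dl, adjoint_inner_right, h.si_dl]

theorem PF.norm_adj_si (h : PF S S' ξ) (η : ℋ) : ‖adjoint h.si η‖ = ‖η‖ := by
  have h1 : ‖adjoint h.si η‖ ^ 2 = ‖η‖ ^ 2 := by
    rw [norm_sq]
    have h1 := ((((Equiv.inv A).prodCongr (Equiv.inv B)).prodCongr
      (Equiv.refl C)).hasSum_iff).2 (h η)
    refine (tsum_congr fun x => ?_).trans h1.tsum_eq
    rw [h.adj_si]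
    rfl
  exact (sq_eq_sq₀ (norm_nonneg _) (norm_nonneg _)).1 h1

theorem PF.si_adj (h : PF S S' ξ) : h.si ∘L adjoint h.si = ContinuousLinearMap.id ℂ _ := by
  have h1 : adjoint (adjoint h.si) ∘L adjoint h.si = ContinuousLinearMap.id ℂ _ :=
    (ContinuousLinearMap.norm_map_iff_adjoint_comp_self _).1 h.norm_adj_si
  rwa [adjoint_adjoint] at h1

theorem PF.si_adj_apply (h : PF S S' ξ) (η : ℋ) : h.si (adjoint h.si η) = η :=
  congrArg (fun T : ℋ →L[ℂ] ℋ => T η) h.si_adj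

theorem PF.si_rho (h : PF S S' ξ) (hc : ∀ a b, S a * S' b = S' b * S a) (a : A) (b : B)
    (ζ : Ell2 ((A × B) × C)) :
    h.si (rho ((a, b), (1 : C)) ζ) = S a (S' b (h.si ζ)) := by
  have e : h.si ∘L rho ((a, b), (1 : C)) = S a ∘L S' b ∘L h.si := by
    apply op_ext
    rintro ⟨⟨x, y⟩, k⟩
    change h.si (rho ((a, b), (1 : C)) (dl ((x, y), k))) = S a (S' b (h.si (dl ((x, y), k))))
    rw [rho_dl, h.si_dl, h.si_dl]
    change S (x * a⁻¹)⁻¹ (S' (y * b⁻¹)⁻¹ (ξ (k * 1⁻¹))) = S a (S' b (S x⁻¹ (S' y⁻¹ (ξ k))))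
    rw [mul_inv_rev, mul_inv_rev, inv_inv, inv_inv, map_mul, map_mul, inv_one, mul_one]
    change S a (S x⁻¹ (S' b (S' y⁻¹ (ξ k)))) = _
    have := congrArg (fun T : ℋ →L[ℂ] ℋ => T (S' y⁻¹ (ξ k))) (hc x⁻¹ b)
    exact congrArg (S a) this
  exact congrArg (fun T : Ell2 ((A × B) × C) →L[ℂ] ℋ => T ζ) e

theorem PF.adj_si_rho (h : PF S S' ξ) (hc : ∀ a b, S a * S' b = S' b * S a)
    (hS : ∀ a, adjoint (S a) = S a⁻¹) (hS' : ∀ b, adjoint (S' b) = S' b⁻¹) (a : A) (b : B)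
    (η : ℋ) : adjoint h.si (S a (S' b η)) = rho ((a, b), (1 : C)) (adjoint h.si η) := by
  have h1 : h.si ∘L rho ((a, b)⁻¹, (1 : C)) = S a⁻¹ ∘L S' b⁻¹ ∘L h.si := by
    ext ζ
    exact h.si_rho hc a⁻¹ b⁻¹ ζ
  have h2 := congrArg adjoint h1
  rw [adjoint_comp, adjoint_comp, adjoint_comp, adjoint_rho, hS, hS', inv_inv, inv_inv] at h2
  have h3 := congrArg (fun T : ℋ →L[ℂ] Ell2 ((A × B) × C) => T η) h2
  have h4 : ((((a, b)⁻¹, (1 : C))⁻¹ : (A × B) × C)) = ((a, b), 1) := by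
    rw [Prod.inv_mk, inv_inv, inv_one]
  change rho (((a, b)⁻¹, (1 : C))⁻¹) (adjoint h.si η) = adjoint h.si (S' b (S a η)) at h3
  rw [h4] at h3
  rw [h3]
  have h5 := congrArg (fun T : ℋ →L[ℂ] ℋ => T η) (hc a b)
  exact congrArg (adjoint h.si) h5

/-- the range projection -/
noncomputable def PF.pp (h : PF S S' ξ) : Ell2 ((A × B) × C) →L[ℂ] Ell2 ((A × B) × C) :=
  adjoint h.si ∘L h.si

theorem PF.adj_pp (h : PF S S' ξ) : adjoint h.pp = h.pp := by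
  rw [PF.pp, adjoint_comp, adjoint_adjoint]

theorem PF.si_pp (h : PF S S' ξ) : h.si ∘L h.pp = h.si := by
  ext1 ζ
  exact h.si_adj_apply (h.si ζ)

theorem PF.pp_adj_si (h : PF S S' ξ) : h.pp ∘L adjoint h.si = adjoint h.si := by
  ext1 ζ
  exact congrArg (adjoint h.si) (h.si_adj_apply ζ)

theorem PF.pp_pp (h : PF S S' ξ) : h.pp * h.pp = h.pp := by
  ext1 ζ
  exact congrArg (adjoint h.si) (h.si_adj_apply (h.si ζ))

/-- compression of an operator on `ℋ` to the row model -/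
noncomputable def PF.cm (h : PF S S' ξ) (X : ℋ →L[ℂ] ℋ) :
    Ell2 ((A × B) × C) →L[ℂ] Ell2 ((A × B) × C) := adjoint h.si ∘L X ∘L h.si

theorem PF.cm_mul (h : PF S S' ξ) (X Y : ℋ →L[ℂ] ℋ) : h.cm X * h.cm Y = h.cm (X * Y) := by
  ext1 ζ
  exact congrArg (fun z => adjoint h.si (X z)) (h.si_adj_apply (Y (h.si ζ)))

theorem PF.cm_one (h : PF S S' ξ) : h.cm 1 = h.pp := rfl

theorem PF.pp_cm (h : PF S S' ξ) (X : ℋ →L[ℂ] ℋ) : h.pp * h.cm X = h.cm X := by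
  rw [← h.cm_one, h.cm_mul, one_mul]

theorem PF.cm_pp (h : PF S S' ξ) (X : ℋ →L[ℂ] ℋ) : h.cm X * h.pp = h.cm X := by
  rw [← h.cm_one, h.cm_mul, mul_one]

theorem PF.adj_cm (h : PF S S' ξ) (X : ℋ →L[ℂ] ℋ) : adjoint (h.cm X) = h.cm (adjoint X) := by
  rw [PF.cm, adjoint_comp, adjoint_comp, adjoint_adjoint]
  rfl

variable {D : Type} [Group D]

/-- the unitary extension of the compressed representation -/
noncomputable def PF.ur (h : PF S S' ξ) (V : D →* (ℋ →L[ℂ] ℋ)) :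
    D →* (Ell2 ((A × B) × C) →L[ℂ] Ell2 ((A × B) × C)) where
  toFun d := h.cm (V d) + (1 - h.pp)
  map_one' := by rw [map_one, h.cm_one]; abel
  map_mul' a b := by
    rw [add_mul, mul_add, mul_add, h.cm_mul, ← map_mul, mul_sub, mul_one, h.cm_pp, sub_self,
      add_zero, sub_mul, sub_mul, one_mul, one_mul, h.pp_cm, sub_self, zero_add, mul_sub, mul_one,
      h.pp_pp, sub_self, sub_zero]

theorem PF.ur_apply (h : PF S S' ξ) (V : D →* (ℋ →L[ℂ] ℋ)) (d : D) :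
    h.ur V d = h.cm (V d) + (1 - h.pp) := rfl

theorem PF.ur_pp (h : PF S S' ξ) (V : D →* (ℋ →L[ℂ] ℋ)) (d : D) :
    h.ur V d * h.pp = h.cm (V d) := by
  rw [h.ur_apply, add_mul, h.cm_pp, sub_mul, one_mul, h.pp_pp, sub_self, add_zero]

theorem PF.pp_ur (h : PF S S' ξ) (V : D →* (ℋ →L[ℂ] ℋ)) (d : D) :
    h.pp * h.ur V d = h.cm (V d) := by
  rw [h.ur_apply, mul_add, h.pp_cm, mul_sub, mul_one, h.pp_pp, sub_self, add_zero]

theorem PF.si_ur (h : PF S S' ξ) (V : D →* (ℋ →L[ℂ] ℋ)) (d : D) :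
    h.si ∘L h.ur V d = V d ∘L h.si := by
  have h1 : h.si ∘L h.ur V d = (h.si ∘L h.pp) ∘L h.ur V d := by rw [h.si_pp]
  have h2 : (h.si ∘L h.pp) ∘L h.ur V d = h.si ∘L (h.pp * h.ur V d) := rfl
  rw [h1, h2, h.pp_ur]
  ext1 ζ
  exact h.si_adj_apply _

theorem PF.ur_adj_si (h : PF S S' ξ) (V : D →* (ℋ →L[ℂ] ℋ)) (d : D) :
    h.ur V d ∘L adjoint h.si = adjoint h.si ∘L V d := by
  have h1 : h.ur V d ∘L adjoint h.si = (h.ur V d * h.pp) ∘L adjoint h.si := by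
    change _ = h.ur V d ∘L (h.pp ∘L adjoint h.si)
    rw [h.pp_adj_si]
  rw [h1, h.ur_pp]
  ext1 ζ
  exact congrArg (fun z => adjoint h.si (V d z)) (h.si_adj_apply ζ)

theorem PF.rs_cm (h : PF S S' ξ) (hc : ∀ a b, S a * S' b = S' b * S a)
    (hS : ∀ a, adjoint (S a) = S a⁻¹) (hS' : ∀ b, adjoint (S' b) = S' b⁻¹)
    {X : ℋ →L[ℂ] ℋ} (h1 : ∀ a, X * S a = S a * X) (h2 : ∀ b, X * S' b = S' b * X)
    {T : Subgroup ((A × B) × C)} (hT : ∀ s ∈ T, s.2 = 1) : RS T (h.cm X) := by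
  rintro ⟨⟨a, b⟩, c⟩ hs
  have hc1 : c = 1 := hT _ hs
  subst hc1
  ext1 ζ
  change adjoint h.si (X (h.si (rho ((a, b), (1 : C)) ζ))) =
    rho ((a, b), (1 : C)) (adjoint h.si (X (h.si ζ)))
  rw [h.si_rho hc, ← h.adj_si_rho hc hS hS']
  congr 1
  have e1 := congrArg (fun T : ℋ →L[ℂ] ℋ => T (S' b (h.si ζ))) (h1 a)
  have e2 := congrArg (fun T : ℋ →L[ℂ] ℋ => T (h.si ζ)) (h2 b)
  exact e1.trans (congrArg (S a) e2)

end syn

/-! ### The coefficient formula -/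

section coef

variable {A B C ℋ D : Type} [Group A] [Group B] [Group C] [Fintype C] [Group D]
    [NormedAddCommGroup ℋ] [InnerProductSpace ℂ ℋ]
    [CompleteSpace ℋ] {S : A →* (ℋ →L[ℂ] ℋ)} {S' : B →* (ℋ →L[ℂ] ℋ)} {ξ : C → ℋ}
    {V : D →* (ℋ →L[ℂ] ℋ)} (T : Subgroup ((A × B) × C))

/-- the coset of `((1, 1), c)` -/
def cs (c : C) : ((A × B) × C) ⧸ T := ((((1 : A), (1 : B)), c) : (A × B) × C)

/-- the test vector -/
noncomputable def tv0 : Ell2 ((((A × B) × C) ⧸ T) × ((A × B) × C)) :=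
  ∑ c : C, dl (cs T c, ou T (cs T c))

theorem rs_adj_ap {X : Ell2 ((A × B) × C) →L[ℂ] Ell2 ((A × B) × C)} (hX : RS T X) (c : C)
    (x : (A × B) × C) :
    (X (dl (ou T (cs T c))) : Ell2 ((A × B) × C)) x =
      (X (dl (((1 : A), (1 : B)), c)) : Ell2 ((A × B) × C))
        (x * ((ou T (cs T c))⁻¹ * (((1 : A), (1 : B)), c))) := by
  obtain ⟨s, hs⟩ : ∃ s : (A × B) × C, s = (ou T (cs T c))⁻¹ * (((1 : A), (1 : B)), c) := ⟨_, rfl⟩
  have hsT : s ∈ T := by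
    rw [hs]
    exact ou_mem' (S := T) _
  have e1 : (dl (ou T (cs T c)) : Ell2 ((A × B) × C)) = rho s (dl (((1 : A), (1 : B)), c)) := by
    rw [rho_dl, hs]
    congr 1
    group
  have e2 := congrArg (fun Y : Ell2 ((A × B) × C) →L[ℂ] Ell2 ((A × B) × C) =>
    Y (dl (((1 : A), (1 : B)), c))) (hX s hsT)
  have e3 : X (rho s (dl (((1 : A), (1 : B)), c))) = rho s (X (dl (((1 : A), (1 : B)), c))) := e2
  rw [e1, e3, rho_apply, ← hs]

theorem coef_tv0 {X : Ell2 ((A × B) × C) →L[ℂ] Ell2 ((A × B) × C)} (hX : RS T X)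
    (F : Finset (((A × B) × C) ⧸ T)) :
    ⟪tv0 T, cop T X (zF T F)⟫_ℂ = ((∑ c : C, ∑' x : (A × B) × C, iF T F x *
      ‖(adjoint X (dl (((1 : A), (1 : B)), c)) : Ell2 ((A × B) × C)) x‖ ^ 2 : ℝ) : ℂ) := by
  rw [tv0, sum_inner, Complex.ofReal_sum]
  refine Finset.sum_congr rfl fun c _ => ?_
  obtain ⟨o, ho⟩ : ∃ o, o = ou T (cs T c) := ⟨_, rfl⟩
  have h1 : Cl T (X * (mo (iF T F) * adjoint X)) (cop T X (zF T F)) :=
    (cl_mo T F).conj (rs_mo T F) hX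
  have h2 := h1 (cs T c)
  rw [← ho] at h2 ⊢
  rw [inner_dl]
  have h3 : (cop T X (zF T F) : Ell2 ((((A × B) × C) ⧸ T) × ((A × B) × C))) (cs T c, o) =
      (sl (cop T X (zF T F)) (cs T c) : Ell2 ((A × B) × C)) o := rfl
  rw [h3, h2]
  have h4 : ((X * (mo (iF T F) * adjoint X)) (dl o) : Ell2 ((A × B) × C)) o =
      ⟪adjoint X (dl o), mo (iF T F) (adjoint X (dl o))⟫_ℂ := by
    rw [← inner_dl, adjoint_inner_left]
    rfl
  rw [h4, inner_mo (abs_iF T F)]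
  congr 1
  obtain ⟨s, hs⟩ : ∃ s : (A × B) × C, s = o⁻¹ * (((1 : A), (1 : B)), c) := ⟨_, rfl⟩
  have hsT : s ∈ T := by
    rw [hs, ho]
    exact ou_mem' (S := T) _
  have h6 : (fun x => iF T F x * ‖(adjoint X (dl o) : Ell2 ((A × B) × C)) x‖ ^ 2) =
      (fun x => iF T F x *
        ‖(adjoint X (dl (((1 : A), (1 : B)), c)) : Ell2 ((A × B) × C)) x‖ ^ 2) ∘
        (Equiv.mulRight s) := by
    funext x
    rw [ho, rs_adj_ap T hX.adj c x, ← ho, ← hs]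
    change _ = iF T F (x * s) * _
    rw [iF_mul T F x hsT]
    rfl
  exact (congrArg tsum h6).trans ((Equiv.mulRight s).tsum_eq
    (fun x => iF T F x * ‖(adjoint X (dl (((1 : A), (1 : B)), c)) : Ell2 ((A × B) × C)) x‖ ^ 2))

/-- splitting off a finite coordinate -/
theorem tsum_fin {Y : Type} {f : Y × C → ℝ} (hf : Summable f) :
    ∑' x, f x = ∑ l : C, ∑' y : Y, f (y, l) := by
  rw [← (Equiv.prodComm C Y).tsum_eq f]
  have h1 : Summable (fun x : C × Y => f (Equiv.prodComm C Y x)) :=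
    (Equiv.prodComm C Y).summable_iff.2 hf
  rw [h1.tsum_prod, tsum_fintype]
  rfl

theorem PF.massT_le (h : PF S S' ξ) (hV : ∀ d, adjoint (V d) = V d⁻¹)
    (hS : ∀ a, adjoint (S a) = S a⁻¹) (hS' : ∀ b, adjoint (S' b) = S' b⁻¹)
    (hc : ∀ a b, S a * S' b = S' b * S a) (h1 : ∀ d a, V d * S a = S a * V d)
    (h2 : ∀ d b, V d * S' b = S' b * V d)
    (F : Finset (((A × B) × C) ⧸ T)) (d : D) {P : A → Prop}
    (hP : ∀ x : (A × B) × C, H538.ind (fun x : (A × B) × C => P x.1.1) x ≤ iF T F x) :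
    massT V S S' ξ d P ≤ ∑ c : C, ∑' x : (A × B) × C, iF T F x *
      ‖(adjoint (h.cm (V d)) (dl (((1 : A), (1 : B)), c)) : Ell2 ((A × B) × C)) x‖ ^ 2 := by
  have e1 : ∀ (c : C) (x : (A × B) × C),
      ‖(adjoint (h.cm (V d)) (dl (((1 : A), (1 : B)), c)) : Ell2 ((A × B) × C)) x‖ =
        ‖⟪S x.1.1 (S' x.1.2 (ξ c)), V d (ξ x.2)⟫_ℂ‖ := by
    intro c x
    rw [h.adj_cm, hV]
    change ‖(adjoint h.si (V d⁻¹ (h.si (dl (((1 : A), (1 : B)), c)))) :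
      Ell2 ((A × B) × C)) x‖ = _
    rw [h.adj_si, h.si_dl]
    change ‖⟪S x.1.1⁻¹ (S' x.1.2⁻¹ (ξ x.2)), V d⁻¹ (S 1⁻¹ (S' 1⁻¹ (ξ c)))⟫_ℂ‖ = _
    rw [inv_one, inv_one, map_one, map_one]
    change ‖⟪S x.1.1⁻¹ (S' x.1.2⁻¹ (ξ x.2)), V d⁻¹ (ξ c)⟫_ℂ‖ = _
    have a1 : V d (S x.1.1⁻¹ (S' x.1.2⁻¹ (ξ x.2))) = S x.1.1⁻¹ (S' x.1.2⁻¹ (V d (ξ x.2))) := by
      have b1 := congrArg (fun T : ℋ →L[ℂ] ℋ => T (S' x.1.2⁻¹ (ξ x.2))) (h1 d x.1.1⁻¹)
      have b2 := congrArg (fun T : ℋ →L[ℂ] ℋ => T (ξ x.2)) (h2 d x.1.2⁻¹)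
      exact b1.trans (congrArg (S x.1.1⁻¹) b2)
    have a2 : ⟪S x.1.1⁻¹ (S' x.1.2⁻¹ (ξ x.2)), V d⁻¹ (ξ c)⟫_ℂ =
        ⟪V d (ξ x.2), S' x.1.2 (S x.1.1 (ξ c))⟫_ℂ := by
      rw [← hV, adjoint_inner_right, a1, ← hS, adjoint_inner_left, ← hS', adjoint_inner_left]
    have a3 : S' x.1.2 (S x.1.1 (ξ c)) = S x.1.1 (S' x.1.2 (ξ c)) :=
      (congrArg (fun T : ℋ →L[ℂ] ℋ => T (ξ c)) (hc x.1.1 x.1.2)).symm
    rw [a2, a3, norm_inner_symm]
  -- summability of the double family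
  have e2 : ∀ c : C, Summable fun x : (A × B) × C => iF T F x *
      ‖(adjoint (h.cm (V d)) (dl (((1 : A), (1 : B)), c)) : Ell2 ((A × B) × C)) x‖ ^ 2 :=
    fun c => summable_mo (abs_iF T F) _
  have e3 : ∀ k : C, Summable fun x : (A × B) × C =>
      H538.ind (fun x : (A × B) × C => P x.1.1) x *
        ‖⟪S x.1.1 (S' x.1.2 (ξ x.2)), V d (ξ k)⟫_ℂ‖ ^ 2 := by
    intro k
    refine Summable.of_nonneg_of_le (fun x => mul_nonneg (H538.ind_nonneg _ _) (sq_nonneg _))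
      (fun x => ?_) (h (V d (ξ k))).summable
    have := H538.abs_ind_le (fun x : (A × B) × C => P x.1.1) x
    exact mul_le_of_le_one_left (sq_nonneg _) ((le_abs_self _).trans this)
  have e4 : massT V S S' ξ d P = ∑ k : C, ∑ l : C, ∑' y : A × B,
      H538.ind (fun x : (A × B) × C => P x.1.1) (y, l) *
        ‖⟪S y.1 (S' y.2 (ξ l)), V d (ξ k)⟫_ℂ‖ ^ 2 := by
    rw [massT]
    exact Finset.sum_congr rfl fun k _ => tsum_fin (e3 k)
  have e5 : ∀ c : C, ∑' x : (A × B) × C, iF T F x *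
      ‖(adjoint (h.cm (V d)) (dl (((1 : A), (1 : B)), c)) : Ell2 ((A × B) × C)) x‖ ^ 2 =
      ∑ l : C, ∑' y : A × B, iF T F (y, l) * ‖⟪S y.1 (S' y.2 (ξ c)), V d (ξ l)⟫_ℂ‖ ^ 2 := by
    intro c
    rw [tsum_fin (e2 c)]
    refine Finset.sum_congr rfl fun l _ => tsum_congr fun y => ?_
    rw [e1]
  rw [e4, Finset.sum_comm]
  refine Finset.sum_le_sum fun c _ => ?_
  rw [e5]
  refine Finset.sum_le_sum fun l _ => ?_
  have e6 : Summable fun y : A × B => iF T F (y, l) *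
      ‖⟪S y.1 (S' y.2 (ξ c)), V d (ξ l)⟫_ℂ‖ ^ 2 := by
    have f1 : Function.Injective fun y : A × B => (y, l) := fun y y' hy => (Prod.ext_iff.1 hy).1
    refine ((e2 c).comp_injective f1).congr fun y => ?_
    rw [Function.comp_apply, e1]
  have e7 : Summable fun y : A × B => H538.ind (fun x : (A × B) × C => P x.1.1) (y, c) *
      ‖⟪S y.1 (S' y.2 (ξ c)), V d (ξ l)⟫_ℂ‖ ^ 2 := by
    have f1 : Function.Injective fun y : A × B => (y, c) := fun y y' hy => (Prod.ext_iff.1 hy).1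
    exact (e3 l).comp_injective f1
  refine Summable.tsum_le_tsum (fun y => ?_) e7 e6
  refine mul_le_mul_of_nonneg_right ?_ (sq_nonneg _)
  have e8 : H538.ind (fun x : (A × B) × C => P x.1.1) (y, c) =
      H538.ind (fun x : (A × B) × C => P x.1.1) (y, l) := rfl
  rw [e8]
  exact hP (y, l)

end coef

/-! ### The main theorem -/

section main

variable {Ga Gb : Type} [Group Ga] [TopologicalSpace Ga] [IsTopologicalGroup Ga]
  [LocallyCompactSpace Ga] [SecondCountableTopology Ga] [T2Space Ga] [MeasurableSpace Ga]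
  [BorelSpace Ga] [Group Gb] [TopologicalSpace Gb] [IsTopologicalGroup Gb]
  [LocallyCompactSpace Gb] [SecondCountableTopology Gb] [T2Space Gb] [MeasurableSpace Gb]
  [BorelSpace Gb]
  {E : Type} [Group E] [TopologicalSpace E] [IsTopologicalGroup E] [LocallyCompactSpace E]
  [SecondCountableTopology E] [T2Space E] [MeasurableSpace E] [BorelSpace E]
  {Γ : Subgroup E} [DiscreteTopology Γ] [MeasurableSpace (E ⧸ Γ)]
  [BorelSpace (E ⧸ Γ)] {ν : Measure (E ⧸ Γ)} [IsProbabilityMeasure ν]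
  (hν : ∀ g : E, ν.map (fun x => g • x) = ν) [Countable Γ]
  {Q ℋ : Type} [Group Q] [NormedAddCommGroup ℋ] [InnerProductSpace ℂ ℋ] [CompleteSpace ℋ]
  {V R₁ : Γ →* (ℋ →L[ℂ] ℋ)} {R₂ : Q →* (ℋ →L[ℂ] ℋ)}
  {H' : Type} [Group H'] [TopologicalSpace H'] [IsTopologicalGroup H']

include hν in
theorem finN_of_massC {C : Type} [Group C] [Fintype C] {ξ : C → ℋ} (h : PF R₁ R₂ ξ)
    (hV : ∀ d, adjoint (V d) = V d⁻¹)
    (hS : ∀ a, adjoint (R₁ a) = R₁ a⁻¹) (hS' : ∀ b, adjoint (R₂ b) = R₂ b⁻¹)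
    (hcm : ∀ a b, R₁ a * R₂ b = R₂ b * R₁ a) (h1 : ∀ d a, V d * R₁ a = R₁ a * V d)
    (h2 : ∀ d b, V d * R₂ b = R₂ b * V d)
    (hne : ∃ k, ξ k ≠ 0) (hGa : CptOpenBasis Ga) (hH' : CptOpenBasis H')
    (e : Ga × Gb ≃* E) (he : Continuous e) (q : Γ →* H') {C₀ : Set H'} (hC : IsCompact C₀)
    {b : ℕ → Gb} (hb : WFixS b) {c : ℝ} (hc : 0 < c)
    (hm : ∀ N, c ≤ ∫ y, massT V R₁ R₂ ξ (coc Γ (e (1, b N)) y) (fun g => q g ∈ C₀) ∂ν) :
    SR.FinN (srcP Γ e) q V R₁ (Set.range R₂) := by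
  obtain ⟨K, hK1, hK2, -⟩ := hH' Set.univ univ_mem
  letI : TopologicalSpace C := ⊥
  haveI : DiscreteTopology C := ⟨rfl⟩
  obtain ⟨φ, hφ⟩ : ∃ φ : (Γ × Q) × C →* H' × C, φ = (q.comp (MonoidHom.fst Γ Q)).prodMap
    (MonoidHom.id C) := ⟨_, rfl⟩
  have hφa : ∀ x : (Γ × Q) × C, φ x = (q x.1.1, x.2) := fun x => by rw [hφ]; rfl
  obtain ⟨T₀, hT₀⟩ : ∃ T₀ : Subgroup ((Γ × Q) × C), T₀ = (K.prod ⊥).comap φ := ⟨_, rfl⟩
  have hT₀m : ∀ x : (Γ × Q) × C, x ∈ T₀ ↔ q x.1.1 ∈ K ∧ x.2 = 1 := fun x => by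
    rw [hT₀, Subgroup.mem_comap, hφa, Subgroup.mem_prod, Subgroup.mem_bot]
  have hfin : {p : ((Γ × Q) × C) ⧸ T₀ | ∃ x : (Γ × Q) × C, φ x ∈ C₀⁻¹ ×ˢ (Set.univ : Set C) ∧
      p = ((x⁻¹ : (Γ × Q) × C) : ((Γ × Q) × C) ⧸ T₀)}.Finite := by
    subst hT₀
    refine finite_cosets ?_ φ (hC.inv.prod isCompact_univ)
    rw [Subgroup.coe_prod]
    exact hK1.prod (isOpen_discrete _)
  obtain ⟨F, hF⟩ : ∃ F : Finset (((Γ × Q) × C) ⧸ T₀), ∀ x : (Γ × Q) × C, q x.1.1 ∈ C₀ →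
      ((x : (Γ × Q) × C) : ((Γ × Q) × C) ⧸ T₀) ∈ F := ⟨hfin.toFinset, fun x hx => by
        rw [Set.Finite.mem_toFinset]
        refine ⟨x⁻¹, ?_, by rw [inv_inv]⟩
        rw [hφa]
        refine ⟨?_, Set.mem_univ _⟩
        change q (x.1.1)⁻¹ ∈ C₀⁻¹
        rw [map_inv, Set.inv_mem_inv]
        exact hx⟩
  have hiF : ∀ x : (Γ × Q) × C, H538.ind (fun x : (Γ × Q) × C => q x.1.1 ∈ C₀) x ≤ iF T₀ F x := by
    intro x
    unfold H538.ind iF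
    by_cases hx : q x.1.1 ∈ C₀
    · rw [if_pos hx, if_pos (hF x hx)]
    · rw [if_neg hx]
      split_ifs <;> norm_num
  -- the representation
  have hrsX : ∀ {X : ℋ →L[ℂ] ℋ}, (∀ a, X * R₁ a = R₁ a * X) → (∀ b, X * R₂ b = R₂ b * X) →
      RS T₀ (h.cm X) := fun h1 h2 => h.rs_cm hcm hS hS' h1 h2 fun s hs => ((hT₀m s).1 hs).2
  have hrspp : RS T₀ h.pp := by
    rw [← h.cm_one]
    exact hrsX (fun a => by rw [one_mul, mul_one]) (fun b => by rw [one_mul, mul_one])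
  have hW : VRS T₀ (h.ur V) := by
    refine ⟨fun d => ?_, fun d s hs => ?_⟩
    · rw [h.ur_apply, h.ur_apply, map_add, map_sub, h.adj_cm, hV, h.adj_pp,
        ← star_eq_adjoint (1 : Ell2 ((Γ × Q) × C) →L[ℂ] Ell2 ((Γ × Q) × C)), star_one]
    · rw [h.ur_apply, add_mul, mul_add, sub_mul, mul_sub, one_mul, mul_one,
        hrsX (h1 d) (h2 d) s hs, hrspp s hs]
  -- the vectors
  obtain ⟨f, hf⟩ : ∃ f, f = cop T₀ h.pp (zF T₀ F) := ⟨_, rfl⟩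
  have hcop : ∀ d, cpiS hW d f = cop T₀ (h.cm (V d)) (zF T₀ F) := by
    intro d
    rw [hf, cpiS_apply]
    have a1 := cop_mul (hW.rs d) hrspp
    have a2 := congrArg (fun X : Ell2 ((((Γ × Q) × C) ⧸ T₀) × ((Γ × Q) × C)) →L[ℂ]
      Ell2 ((((Γ × Q) × C) ⧸ T₀) × ((Γ × Q) × C)) => X (zF T₀ F)) a1
    rw [h.ur_pp] at a2
    exact a2.symm
  have hcoef : ∀ d, ⟪tv0 T₀, cpiS hW d f⟫_ℂ = ((∑ c : C, ∑' x : (Γ × Q) × C, iF T₀ F x *
      ‖(adjoint (h.cm (V d)) (dl (((1 : Γ), (1 : Q)), c)) : Ell2 ((Γ × Q) × C)) x‖ ^ 2 : ℝ) : ℂ) :=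
    fun d => by rw [hcop, coef_tv0 T₀ (hrsX (h1 d) (h2 d))]
  have hm' : ∀ N, c ≤ ‖∫ x, ⟪tv0 T₀, cpiS hW (coc Γ (e (1, b N)) x) f⟫_ℂ ∂ν‖ := by
    intro N
    have a1 : ∫ x, ⟪tv0 T₀, cpiS hW (coc Γ (e (1, b N)) x) f⟫_ℂ ∂ν =
        ((∫ x, (∑ c : C, ∑' z : (Γ × Q) × C, iF T₀ F z *
      ‖(adjoint (h.cm (V (coc Γ (e (1, b N)) x))) (dl (((1 : Γ), (1 : Q)), c)) :
        Ell2 ((Γ × Q) × C)) z‖ ^ 2) ∂ν : ℝ) : ℂ) := by
      refine Eq.trans ?_ (integral_ofReal (𝕜 := ℂ)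
        (f := fun x => (∑ c : C, ∑' z : (Γ × Q) × C, iF T₀ F z *
      ‖(adjoint (h.cm (V (coc Γ (e (1, b N)) x))) (dl (((1 : Γ), (1 : Q)), c)) :
        Ell2 ((Γ × Q) × C)) z‖ ^ 2)))
      refine integral_congr_ae (Eventually.of_forall fun x => ?_)
      exact hcoef _
    have a2 : Integrable (fun x => (∑ c : C, ∑' z : (Γ × Q) × C, iF T₀ F z *
      ‖(adjoint (h.cm (V (coc Γ (e (1, b N)) x))) (dl (((1 : Γ), (1 : Q)), c)) :
        Ell2 ((Γ × Q) × C)) z‖ ^ 2)) ν := by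
      have a3 := (coef_int hν (adjoint_cpiS hW) f (tv0 T₀) (e (1, b N))).re
      refine a3.congr (Eventually.of_forall fun x => ?_)
      have a4 := congrArg Complex.re (hcoef (coc Γ (e (1, b N)) x))
      rw [Complex.ofReal_re] at a4
      exact a4
    rw [a1, Complex.norm_real, Real.norm_eq_abs]
    refine (hm N).trans (le_trans ?_ (le_abs_self _))
    refine integral_mono_of_nonneg (Eventually.of_forall fun x => ?_) a2
      (Eventually.of_forall fun x => ?_)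
    · exact Finset.sum_nonneg fun k _ => tsum_nonneg fun y =>
        mul_nonneg (H538.ind_nonneg _ _) (by positivity)
    · exact h.massT_le T₀ hV hS hS' hcm h1 h2 F _ (P := fun g => q g ∈ C₀) hiF
  -- the convex set
  obtain ⟨𝒞, h𝒞⟩ : ∃ 𝒞 : Set (Ell2 ((((Γ × Q) × C) ⧸ T₀) × ((Γ × Q) × C))),
      𝒞 = ctr T₀ ∩ {w | cop T₀ h.pp w = w} := ⟨_, rfl⟩
  have hcl : IsClosed 𝒞 := by
    rw [h𝒞]
    exact isClosed_ctr.inter (isClosed_eq (cop T₀ h.pp).continuous continuous_id)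
  have hcv : Convex ℝ 𝒞 := by
    rw [h𝒞]
    refine convex_ctr.inter fun w hw w' hw' a b ha hb hab => ?_
    have e1 : a • w + b • w' = (a : ℂ) • w + (b : ℂ) • w' := by
      ext p
      rfl
    change cop T₀ h.pp (a • w + b • w') = a • w + b • w'
    have hw1 : cop T₀ h.pp w = w := hw
    have hw2 : cop T₀ h.pp w' = w' := hw'
    rw [e1, map_add, map_smul, map_smul, hw1, hw2]
  have hc0 : (0 : Ell2 ((((Γ × Q) × C) ⧸ T₀) × ((Γ × Q) × C))) ∈ 𝒞 := by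
    rw [h𝒞]
    exact ⟨zero_mem_ctr, map_zero _⟩
  have hcop2 : ∀ {X Y : Ell2 ((Γ × Q) × C) →L[ℂ] Ell2 ((Γ × Q) × C)}, RS T₀ X → RS T₀ Y →
      ∀ w, cop T₀ X (cop T₀ Y w) = cop T₀ (X * Y) w := fun hX hY w => by
    rw [cop_mul hX hY]; rfl
  have hcpi : ∀ v, ∀ w ∈ 𝒞, cpiS hW v w ∈ 𝒞 := by
    intro v w hw
    rw [h𝒞] at hw ⊢
    refine ⟨cpiS_mem hW v hw.1, ?_⟩
    have hw2 : cop T₀ h.pp w = w := hw.2
    change cop T₀ h.pp (cpiS hW v w) = cpiS hW v w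
    conv_rhs => rw [← hw2]
    rw [cpiS_apply, hcop2 hrspp (hW.rs v), hcop2 (hW.rs v) hrspp, h.pp_ur, h.ur_pp]
  have hnpp : ‖h.pp‖ ≤ 1 := by
    refine ContinuousLinearMap.opNorm_le_bound _ zero_le_one fun ζ => ?_
    rw [one_mul]
    change ‖adjoint h.si (h.si ζ)‖ ≤ ‖ζ‖
    rw [h.norm_adj_si]
    have a1 := h.si.le_opNorm ζ
    have a2 : ‖h.si‖ ≤ |1| := norm_opOf_le h.bes_inv
    rw [abs_one] at a2
    exact a1.trans (mul_le_of_le_one_left (norm_nonneg _) a2)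
  have hf𝒞 : f ∈ 𝒞 := by
    rw [h𝒞, hf]
    refine ⟨cop_mem_ctr hrspp hnpp (zF_mem T₀ F), ?_⟩
    change cop T₀ h.pp (cop T₀ h.pp (zF T₀ F)) = _
    rw [hcop2 hrspp hrspp, h.pp_pp]
  obtain ⟨L, w, hL1, hL2, -, hw1, hw2, hw3⟩ := exists_fix_tdS hν (adjoint_cpiS hW) hGa univ_mem hb e
    he f (tv0 T₀) hc hm' hcl hcv hc0 hcpi hf𝒞
  rw [h𝒞] at hw1
  obtain ⟨T, hT1, hT2, hT3, hT4⟩ := exists_commS hW hw1.1 hw2 (P := fun γ : Γ =>
    (e.symm (γ : E)).1 ∈ L) hw3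
  -- `T = p T p`
  have hTp : h.pp * (T * h.pp) = T := by
    have a1 := hT2.conj hT1 hrspp
    have a2 : cop T₀ h.pp w = w := hw1.2
    rw [a2, h.adj_pp] at a1
    exact a1.unique hT2 (hrspp.mul (hT1.mul hrspp)) hT1
  have hTp2 : T * h.pp = T := by
    rw [← hTp, mul_assoc, mul_assoc, h.pp_pp]
  have hst : ∀ A B : Ell2 ((Γ × Q) × C) →L[ℂ] Ell2 ((Γ × Q) × C),
      adjoint (A * B) = adjoint B * adjoint A :=
    fun A B => by rw [← star_eq_adjoint, star_mul]; rfl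
  have hcomm : ∀ (A B : Ell2 ((Γ × Q) × C) →L[ℂ] Ell2 ((Γ × Q) × C)), A * T = T * A →
      B * T = T * B → adjoint A = B → adjoint T * T * A = A * (adjoint T * T) := by
    intro A B h1 h2 h3
    have h4 : adjoint T * A = A * adjoint T := by
      have h5 := congrArg adjoint h2
      rw [hst, hst, ← h3, adjoint_adjoint] at h5
      exact h5
    rw [mul_assoc, ← h1, ← mul_assoc, h4, mul_assoc]
  have hrs : ∀ s ∈ T₀, rho s * T = T * rho s := fun s hs => (hT1 s hs).symm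
  -- transport to `ℋ`
  obtain ⟨x, hx⟩ : ∃ x : ℋ →L[ℂ] ℋ, x = h.si ∘L (adjoint T * T) ∘L adjoint h.si := ⟨_, rfl⟩
  have hxq : x = adjoint (T ∘L adjoint h.si) ∘L (T ∘L adjoint h.si) := by
    rw [hx, adjoint_comp, adjoint_adjoint]
    rfl
  have hxc : ∀ (X : ℋ →L[ℂ] ℋ) (Y : Ell2 ((Γ × Q) × C) →L[ℂ] Ell2 ((Γ × Q) × C)),
      h.si ∘L Y = X ∘L h.si → Y ∘L adjoint h.si = adjoint h.si ∘L X →
      adjoint T * T * Y = Y * (adjoint T * T) → x * X = X * x := by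
    intro X Y a1 a2 a3
    ext1 ζ
    have b1 : adjoint h.si (X ζ) = Y (adjoint h.si ζ) :=
      (congrArg (fun Z : ℋ →L[ℂ] Ell2 ((Γ × Q) × C) => Z ζ) a2).symm
    have b2 : (adjoint T * T) (Y (adjoint h.si ζ)) = Y ((adjoint T * T) (adjoint h.si ζ)) :=
      congrArg (fun Z : Ell2 ((Γ × Q) × C) →L[ℂ] Ell2 ((Γ × Q) × C) => Z (adjoint h.si ζ)) a3
    have b3 : h.si (Y ((adjoint T * T) (adjoint h.si ζ))) =
        X (h.si ((adjoint T * T) (adjoint h.si ζ))) :=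
      congrArg (fun Z : Ell2 ((Γ × Q) × C) →L[ℂ] ℋ => Z ((adjoint T * T) (adjoint h.si ζ))) a1
    rw [hx]
    change h.si ((adjoint T * T) (adjoint h.si (X ζ))) = X (h.si ((adjoint T * T) (adjoint h.si ζ)))
    rw [b1, b2, b3]
  have hxR : ∀ (a : Γ) (y : Q), (((a, y), (1 : C)) : (Γ × Q) × C) ∈ T₀ →
      x * (R₁ a * R₂ y) = (R₁ a * R₂ y) * x := by
    intro a y hay
    refine hxc (R₁ a * R₂ y) (rho ((a, y), (1 : C))) ?_ ?_ ?_
    · ext1 ζ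
      exact h.si_rho hcm a y ζ
    · ext1 ζ
      exact (h.adj_si_rho hcm hS hS' a y ζ).symm
    · exact hcomm _ _ (hrs _ hay) (hrs _ (T₀.inv_mem hay)) (adjoint_rho _)
  obtain ⟨k, hk⟩ := hne
  refine ⟨L, K, ⟨hL2, hL1⟩, ⟨hK2, hK1⟩, x, ⟨fun g hg => ?_, fun g hg => ?_, ?_⟩, ?_, ?_,
    ξ k, hk, ?_⟩
  · refine hxc (V g) (h.ur V g) (h.si_ur V g) (h.ur_adj_si V g) ?_
    exact hcomm (h.ur V g) (h.ur V g⁻¹) (hT4 g hg) (hT4 g⁻¹ (by
      have h5 : (e.symm ((g⁻¹ : Γ) : E)).1 = ((e.symm (g : E)).1)⁻¹ := by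
        rw [Subgroup.coe_inv, map_inv]; rfl
      change (e.symm ((g⁻¹ : Γ) : E)).1 ∈ L
      rw [h5]
      exact L.inv_mem hg)) (hW.adj g)
  · have h6 := hxR g 1 ((hT₀m _).2 ⟨hg, rfl⟩)
    rw [map_one, mul_one] at h6
    exact h6
  · rintro a ⟨y, rfl⟩
    have h6 := hxR 1 y ((hT₀m _).2 ⟨by
      change q 1 ∈ K
      rw [map_one]; exact K.one_mem, rfl⟩)
    rw [map_one, one_mul] at h6
    exact h6
  · rw [hxq]
    exact (ContinuousLinearMap.nonneg_iff_isPositive _).2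
      (ContinuousLinearMap.isPositive_adjoint_comp_self _)
  · intro h0
    apply hT3
    have a1 : T ∘L adjoint h.si = 0 := by
      ext1 ζ
      have a2 : ⟪ζ, x ζ⟫_ℂ = 0 := by rw [h0, zero_apply, inner_zero_right]
      rw [hxq, comp_apply, adjoint_inner_right] at a2
      exact inner_self_eq_zero.1 a2
    rw [← hTp2]
    change T ∘L (adjoint h.si ∘L h.si) = 0
    rw [← ContinuousLinearMap.comp_assoc, a1, ContinuousLinearMap.zero_comp]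
  · obtain ⟨j, hj⟩ : ∃ j : Γ ⧸ K.comap q → ((Γ × Q) × C) ⧸ T₀,
      j = fun p => ((((p.out, 1), k) : (Γ × Q) × C) : ((Γ × Q) × C) ⧸ T₀) := ⟨_, rfl⟩
    have hji : Function.Injective j := by
      intro p p' h
      rw [hj] at h
      simp only at h
      rw [QuotientGroup.eq, hT₀m] at h
      rw [← QuotientGroup.out_eq' p, ← QuotientGroup.out_eq' p', QuotientGroup.eq]
      exact h.1
    have h9 := (hasSum_sl w).summable.comp_injective hji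
    refine h9.congr fun p => ?_
    have h10 : R₁ (p.out)⁻¹ (ξ k) = h.si (dl ((p.out, (1 : Q)), k)) := by
      rw [h.si_dl]
      change _ = R₁ (p.out)⁻¹ (R₂ 1⁻¹ (ξ k))
      rw [inv_one, map_one]
      rfl
    have h11 : ⟪R₁ (p.out)⁻¹ (ξ k), x (R₁ (p.out)⁻¹ (ξ k))⟫_ℂ =
        ((‖T (dl ((p.out, (1 : Q)), k))‖ ^ 2 : ℝ) : ℂ) := by
      rw [hxq, comp_apply, adjoint_inner_right, inner_self_eq_norm_sq_to_K, h10]
      change ((‖T (h.pp (dl ((p.out, (1 : Q)), k)))‖ : ℂ)) ^ 2 = _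
      have h13 : T (h.pp (dl ((p.out, (1 : Q)), k))) = T (dl ((p.out, (1 : Q)), k)) :=
        congrArg (fun Z : Ell2 ((Γ × Q) × C) →L[ℂ] Ell2 ((Γ × Q) × C) =>
          Z (dl ((p.out, (1 : Q)), k))) hTp2
      rw [h13]
      norm_cast
    rw [h11, Complex.ofReal_re]
    have h12 := hT1.dl' ((p.out, (1 : Q)), k)
    rw [h12, norm_rho, ← hT2, Function.comp_apply, hj]

/-! ### Reindexing of the frame -/

theorem PF.reindex {A B ι κ ℋ : Type} [Group A] [Group B] [NormedAddCommGroup ℋ]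
    [InnerProductSpace ℂ ℋ] [CompleteSpace ℋ] {S : A →* (ℋ →L[ℂ] ℋ)} {S' : B →* (ℋ →L[ℂ] ℋ)}
    {ξ : ι → ℋ} (h : PF S S' ξ) (σ : κ ≃ ι) : PF S S' (ξ ∘ σ) := fun η =>
  (((Equiv.refl (A × B)).prodCongr σ).hasSum_iff
    (f := fun x : (A × B) × ι => ‖⟪S x.1.1 (S' x.1.2 (ξ x.2)), η⟫_ℂ‖ ^ 2)).2 (h η)

theorem massT_reindex {A B ι κ ℋ D : Type} [Group A] [Group B] [Group D] [Fintype ι] [Fintype κ]
    [NormedAddCommGroup ℋ] [InnerProductSpace ℂ ℋ] [CompleteSpace ℋ] (V : D →* (ℋ →L[ℂ] ℋ))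
    (S : A →* (ℋ →L[ℂ] ℋ)) (S' : B →* (ℋ →L[ℂ] ℋ)) (ξ : ι → ℋ) (σ : κ ≃ ι) (d : D)
    (P : A → Prop) : massT V S S' (ξ ∘ σ) d P = massT V S S' ξ d P := by
  rw [massT, massT, ← σ.sum_comp]
  refine Finset.sum_congr rfl fun k _ => ?_
  exact ((Equiv.refl (A × B)).prodCongr σ).tsum_eq (fun x : (A × B) × ι =>
    H538.ind (fun x : (A × B) × ι => P x.1.1) x * ‖⟪S x.1.1 (S' x.1.2 (ξ x.2)), V d (ξ (σ k))⟫_ℂ‖ ^ 2)

include hν in
/-- **[GLUE-T]** a lower bound of the mass of the first leg gives `FinN`; the Howe-Moore input is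
for the one sequence `b` only. -/
theorem finN_of_massS {ι : Type} [Fintype ι] {ξ : ι → ℋ} (h : PF R₁ R₂ ξ)
    (hV : ∀ d, adjoint (V d) = V d⁻¹)
    (hS : ∀ a, adjoint (R₁ a) = R₁ a⁻¹) (hS' : ∀ b, adjoint (R₂ b) = R₂ b⁻¹)
    (hcm : ∀ a b, R₁ a * R₂ b = R₂ b * R₁ a) (h1 : ∀ d a, V d * R₁ a = R₁ a * V d)
    (h2 : ∀ d b, V d * R₂ b = R₂ b * V d)
    (hne : ∃ k, ξ k ≠ 0) (hGa : CptOpenBasis Ga) (hH' : CptOpenBasis H')
    (e : Ga × Gb ≃* E) (he : Continuous e) (q : Γ →* H') {C₀ : Set H'} (hC : IsCompact C₀)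
    {b : ℕ → Gb} (hb : WFixS b) {c : ℝ} (hc : 0 < c)
    (hm : ∀ N, c ≤ ∫ y, massT V R₁ R₂ ξ (coc Γ (e (1, b N)) y) (fun g => q g ∈ C₀) ∂ν) :
    SR.FinN (srcP Γ e) q V R₁ (Set.range R₂) := by
  obtain ⟨k, hk⟩ := hne
  have hcard : 0 < Fintype.card ι := Fintype.card_pos_iff.2 ⟨k⟩
  haveI : NeZero (Fintype.card ι) := ⟨hcard.ne'⟩
  obtain ⟨σ⟩ : Nonempty (Multiplicative (ZMod (Fintype.card ι)) ≃ ι) :=
    Fintype.card_eq.1 (by rw [Fintype.card_multiplicative, ZMod.card])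
  refine finN_of_massC hν (h.reindex σ) hV hS hS' hcm h1 h2 ⟨σ.symm k, ?_⟩ hGa hH' e he q hC
    hb hc fun N => ?_
  · rw [Function.comp_apply, Equiv.apply_symm_apply]
    exact hk
  · simp only [massT_reindex V R₁ R₂ ξ σ]
    exact hm N

include hν in
/-- **[GLUE-T]** a lower bound of the mass of the first leg gives `FinN`. -/
theorem finN_of_massT {ι : Type} [Fintype ι] {ξ : ι → ℋ} (h : PF R₁ R₂ ξ)
    (hV : ∀ d, adjoint (V d) = V d⁻¹)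
    (hS : ∀ a, adjoint (R₁ a) = R₁ a⁻¹) (hS' : ∀ b, adjoint (R₂ b) = R₂ b⁻¹)
    (hcm : ∀ a b, R₁ a * R₂ b = R₂ b * R₁ a) (h1 : ∀ d a, V d * R₁ a = R₁ a * V d)
    (h2 : ∀ d b, V d * R₂ b = R₂ b * V d)
    (hne : ∃ k, ξ k ≠ 0) (hGa : CptOpenBasis Ga) (hGb : WFix Gb) (hH' : CptOpenBasis H')
    (e : Ga × Gb ≃* E) (he : Continuous e) (q : Γ →* H') {C₀ : Set H'} (hC : IsCompact C₀)
    {b : ℕ → Gb} (hb : Tendsto b atTop (cocompact Gb)) {c : ℝ} (hc : 0 < c)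
    (hm : ∀ N, c ≤ ∫ y, massT V R₁ R₂ ξ (coc Γ (e (1, b N)) y) (fun g => q g ∈ C₀) ∂ν) :
    SR.FinN (srcP Γ e) q V R₁ (Set.range R₂) :=
  finN_of_massS hν h hV hS hS' hcm h1 h2 hne hGa hH' e he q hC (wfixS_of_wfix hGb hb) hc hm

end main

end Vale.Agent.P092.H761
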