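import Mathlib

/-!
P092 (helper761), Team N, block [N-GAPB]: definitions. Kernels on `Option Γ`, one for every
`h ∈ Γ`: pointwise positive, asymptotically covariant and, off the point `none`, slowly varying
on the right.
-/

set_option linter.all false

namespace Vale.Agent.P092.H761.NP

/-- left translation of `Option Γ`, `none` is fixed -/
def tr {Γ : Type} [Group Γ] (c : Γ) : Option Γ → Option Γ := Option.map fun x => c * x

/-- real positive semidefinite kernels -/
def PK {X : Type} (κ : X → X → ℝ) : Prop :=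
  (∀ a b, κ a b = κ b a) ∧
    ∀ (s : Finset X) (c : X → ℝ), 0 ≤ ∑ a ∈ s, ∑ b ∈ s, c a * c b * κ a b

/-- The position kernels. `g` is the large gap. -/
structure Kern {Γ : Type} [Group Γ] (g : Γ → ℝ) (κ : Option Γ → Option Γ → Γ → ℝ) (C : ℝ) :
    Prop where
  bd : ∀ a b h, |κ a b h| ≤ C
  pk : ∀ h, PK fun a b => κ a b h
  cov : ∀ c a b, ∀ ε > 0, ∃ T, ∀ h, T ≤ g h → |κ (tr c a) (tr c b) (c * h) - κ a b h| ≤ ε
  slow : ∀ c c' u, ∀ ε > 0, ∃ T, ∀ h, T ≤ g h →
    |κ (some c) (some c') (h * u) - κ (some c) (some c') h| ≤ ε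

@[simp] theorem tr_none {Γ : Type} [Group Γ] (c : Γ) : tr c none = none := rfl

@[simp] theorem tr_some {Γ : Type} [Group Γ] (c x : Γ) : tr c (some x) = some (c * x) := rfl

@[simp] theorem tr_one {Γ : Type} [Group Γ] (a : Option Γ) : tr 1 a = a := by
  cases a <;> simp [tr]

theorem tr_mul {Γ : Type} [Group Γ] (c c' : Γ) (a : Option Γ) : tr (c * c') a = tr c (tr c' a) := by
  cases a <;> simp [tr, mul_assoc]

end Vale.Agent.P092.H761.NP
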